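import Vale.Agent.P237.Petty.Cor.Low20.Check

/-!
# P237: a check of several claims, done in chunks
-/

namespace Vale.Agent.P237.Petty.Cor.Low20

open Vale.Agent.P100.Bernstein

theorem cutAll_append {Z : ℚ} : ∀ {l₁ l₂ : List (Expr × List Iv)} {L₁ L₂ : List CTree},
    cutAll Z l₁ L₁ = true → cutAll Z l₂ L₂ = true → cutAll Z (l₁ ++ l₂) (L₁ ++ L₂) = true
  | [], _, [], _, _, h => h
  | [], _, _ :: _, _, h, _ => by simp [cutAll] at h
  | _ :: _, _, [], _, h, _ => by simp [cutAll] at h
  | _ :: l, _, _ :: L, _, h, h' => by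
    simp only [cutAll, Bool.and_eq_true] at h
    simp only [List.cons_append, cutAll, Bool.and_eq_true]
    exact ⟨h.1, cutAll_append h.2 h'⟩

/-- A chunk of the trees covers the claims at its start. -/
theorem cutAll_of_take {Z : ℚ} {l : List (Expr × List Iv)} {L₁ L₂ : List CTree} (k : ℕ)
    (h₁ : cutAll Z (l.take k) L₁ = true) (h₂ : cutAll Z (l.drop k) L₂ = true) :
    cutAll Z l (L₁ ++ L₂) = true := by
  simpa using cutAll_append h₁ h₂

end Vale.Agent.P237.Petty.Cor.Low20
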