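import Vale.Agent.P237.Petty.Cor.Low20.L1.Main
import Vale.Agent.P237.Petty.Cor.Low20.H1b.Main
import Vale.Agent.P237.Petty.Cor.Low20.H1c.Main
import Vale.Agent.P237.Petty.Cor.Low20.H1d.Main
import Vale.Agent.P237.Petty.Cor.Low20.H2a.Main
import Vale.Agent.P237.Petty.Cor.Low20.H2b.Main
import Vale.Agent.P237.Petty.Cor.Low20.H2c.Main
import Vale.Agent.P237.Petty.Cor.Low20.H3a.Main
import Vale.Agent.P237.Petty.Cor.Low20.H3b.Main
import Vale.Agent.P237.Petty.Cor.Low20.H3c.Main

/-!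
# P237: the values between one quarter and twelve fifths, dimensions 20 to 99
-/

namespace Vale.Agent.P237.Petty.Cor.Low20

/-- The cell `[1 / 4, 12 / 5] / (p + 2)` in dimensions from 20 to 99. -/
theorem corCell_low20 {p : ℕ} (h0 : 20 ≤ p + 2) (h1 : p + 2 ≤ 99) :
    CorCell p ((1 / 4 : ℝ) / ((p : ℝ) + 2)) ((12 / 5 : ℝ) / ((p : ℝ) + 2)) := by
  rcases le_or_gt (p + 2) 25 with h | h
  · exact (((L1.corCell h0 h).append (H1b.corCell h0 h)).append (H1c.corCell h0 h)).append
      (H1d.corCell h0 h)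
  rcases le_or_gt (p + 2) 44 with h' | h'
  · exact ((H2a.corCell (by omega) h').append (H2b.corCell (by omega) h')).append
      (H2c.corCell (by omega) h')
  · exact ((H3a.corCell (by omega) h1).append (H3b.corCell (by omega) h1)).append
      (H3c.corCell (by omega) h1)

/-- The cell `[1 / 4, 12 / 5] / (p + 2)` in orders from 18 to 44. -/
theorem corCell_low18 {p : ℕ} (h1 : 18 ≤ p) (h2 : p ≤ 44) :
    CorCell p ((1 / 4 : ℝ) / ((p : ℝ) + 2)) ((12 / 5 : ℝ) / ((p : ℝ) + 2)) :=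
  corCell_low20 (by omega) (by omega)

end Vale.Agent.P237.Petty.Cor.Low20
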