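import Vale.Agent.P237.Petty.Cor.Low20.Tail

/-!
# P237: a sharper bound of the ratio of half circles, for brackets of the eigenvalue

With `low2 j = low j + 2 / (2 j + 5) ^ 3` still `low2 j ≤ ratSq j`; this gives two rationals
around `muMin p` at each order.
-/

namespace Vale.Agent.P237.Petty.Cor.Low20

open Filter Topology
open LargeN (ratSq low)

/-- Below the square of the ratio of the half circles, to a higher order. -/
noncomputable def low2 (j : ℕ) : ℝ :=
  ((2 * (j : ℝ) + 3) * (2 * (j : ℝ) + 5) ^ 2 + 2) / (2 * (j : ℝ) + 5) ^ 3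

theorem low2_le_ratSq (j : ℕ) : low2 j ≤ ratSq j := by
  set y : ℕ → ℝ := fun i => ratSq i / low2 i with hy
  have hlp : ∀ i, 0 < low2 i := fun i => by unfold low2; positivity
  have hstep : ∀ i, y (i + 2) ≤ y i := by
    intro i
    have h1 := LargeN.ratSq_mul i
    have h2 := LargeN.ratSq_mul (i + 1)
    have hx := LargeN.ratSq_pos i
    have hx1 := LargeN.ratSq_pos (i + 1)
    rw [show i + 1 + 1 = i + 2 from rfl] at h2
    have e : ratSq (i + 2) =
        ratSq i * ((((i : ℝ) + 3) / ((i : ℝ) + 4)) ^ 2 / (((i : ℝ) + 2) / ((i : ℝ) + 3)) ^ 2) := by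
      rw [← h1]
      push_cast at h2
      rw [show (i : ℝ) + 1 + 2 = i + 3 by ring, show (i : ℝ) + 1 + 3 = i + 4 by ring] at h2
      rw [← h2]
      field_simp
    simp only [hy]
    rw [div_le_div_iff₀ (hlp _) (hlp _), e, mul_assoc]
    refine mul_le_mul_of_nonneg_left ?_ hx.le
    unfold low2
    push_cast
    rw [div_pow, div_pow, div_div_div_eq, div_mul_div_comm, div_le_div_iff₀ (by positivity)
      (by positivity)]
    have hi : (0 : ℝ) ≤ i := Nat.cast_nonneg i
    have : 0 ≤ 5227 + 13464 * (i : ℝ) + 11778 * (i : ℝ) ^ 2 + 4712 * (i : ℝ) ^ 3 +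
        888 * (i : ℝ) ^ 4 + 64 * (i : ℝ) ^ 5 := by positivity
    linarith
  have hanti : ∀ k, y (j + 2 * k) ≤ y j := by
    intro k
    induction k with
    | zero => simp
    | succ k ih => exact (hstep _).trans ih
  have hc : ∀ a b : ℝ, Tendsto (fun i : ℕ => ((i : ℝ) + a) / ((i : ℝ) + b)) atTop (𝓝 1) := by
    intro a b
    have e : Tendsto (fun i : ℕ => 1 + (a - b) / ((i : ℝ) + b)) atTop (𝓝 (1 + 0)) :=
      tendsto_const_nhds.add (tendsto_const_nhds.div_atTop
        (tendsto_atTop_add_const_right _ b tendsto_natCast_atTop_atTop))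
    rw [add_zero] at e
    refine e.congr' ?_
    filter_upwards [(tendsto_atTop_add_const_right _ b
      tendsto_natCast_atTop_atTop).eventually_gt_atTop 0] with i hi
    field_simp
    ring
  have hl : Tendsto low2 atTop (𝓝 1) := by
    refine tendsto_of_tendsto_of_tendsto_of_le_of_le (hc (3 / 2) (5 / 2)) tendsto_const_nhds
      (fun i => ?_) fun i => ?_
    · show ((i : ℝ) + 3 / 2) / ((i : ℝ) + 5 / 2) ≤ low2 i
      rw [low2, div_le_div_iff₀ (by positivity) (by positivity)]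
      nlinarith [(Nat.cast_nonneg i : (0 : ℝ) ≤ i)]
    · show low2 i ≤ 1
      rw [low2, div_le_one (by positivity)]
      nlinarith [(Nat.cast_nonneg i : (0 : ℝ) ≤ i), mul_nonneg (Nat.cast_nonneg i : (0 : ℝ) ≤ i)
        (Nat.cast_nonneg i : (0 : ℝ) ≤ i)]
  have hx : Tendsto ratSq atTop (𝓝 1) := tendsto_of_tendsto_of_tendsto_of_le_of_le (hc 1 2)
    (hc 2 3) LargeN.crude_le_ratSq LargeN.ratSq_le_crude
  have h := hx.div hl one_ne_zero
  rw [div_one] at h
  have hsub : Tendsto (fun k => y (j + 2 * k)) atTop (𝓝 1) :=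
    h.comp (tendsto_atTop_mono (fun k => show k ≤ j + 2 * k by omega) tendsto_id)
  exact (one_le_div (hlp j)).1 (le_of_tendsto hsub (Eventually.of_forall hanti))

/-- The same, over the rationals. -/
def low2Q (j : ℕ) : ℚ :=
  ((2 * (j : ℚ) + 3) * (2 * (j : ℚ) + 5) ^ 2 + 2) / (2 * (j : ℚ) + 5) ^ 3

/-- The eigenvalue at a given square of the ratio. -/
def muAt (p : ℕ) (b : ℚ) : ℚ :=
  ((p : ℚ) + 2) * ((p : ℚ) / (2 * ((p : ℚ) + 4))) * (((p : ℚ) + 3) / b - ((p : ℚ) + 4))

/-- The bounds of a record bracket the eigenvalue at an order. -/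
def okMu (d : Rec) (p : ℕ) : Bool :=
  decide (polyQ d.muLo (eQ p) ≤ muAt p ((((p : ℚ) + 1) / ((p : ℚ) + 2)) ^ 2 / low2Q (p - 1))) &&
    decide (muAt p (low2Q p) ≤ polyQ d.muUp (eQ p))

theorem mu_bracket {d : Rec} {p : ℕ} (hp : 1 ≤ p) (h : okMu d p = true) :
    polyR d.muLo (ev p) ≤ Ident.muMin p ∧ Ident.muMin p ≤ polyR d.muUp (ev p) := by
  simp only [okMu, Bool.and_eq_true, decide_eq_true_eq] at h
  have hlo := (Rat.cast_le (K := ℝ)).2 h.1
  have hup := (Rat.cast_le (K := ℝ)).2 h.2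
  simp only [muAt, low2Q] at hlo hup
  push_cast at hlo hup
  rw [← polyR_cast, eQ_cast] at hlo hup
  obtain ⟨i, rfl⟩ : ∃ i, p = i + 1 := ⟨p - 1, by omega⟩
  simp only [Nat.add_sub_cancel] at hlo
  have hx := LargeN.ratSq_pos (i + 1)
  have h1 := low2_le_ratSq (i + 1)
  have h2 : ratSq (i + 1) ≤ (((i : ℝ) + 2) / ((i : ℝ) + 3)) ^ 2 / low2 i := by
    rw [← LargeN.ratSq_mul, le_div_iff₀ (by unfold low2; positivity), mul_comm (ratSq i)]
    exact mul_le_mul_of_nonneg_left (low2_le_ratSq i) hx.le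
  simp only [low2] at h1 h2
  have e : Ident.muMin (i + 1) = ((i : ℝ) + 3) * (((i : ℝ) + 1) / (2 * ((i : ℝ) + 5))) *
      (((i : ℝ) + 4) / ratSq (i + 1) - ((i : ℝ) + 5)) := by
    rw [Centre.muMin_eq, LargeN.muMin, LargeN.bigL]
    push_cast
    field_simp
    ring
  push_cast at hlo hup h1
  constructor
  · refine hlo.trans ?_
    rw [e, show (i : ℝ) + 1 + 1 = i + 2 by ring, show (i : ℝ) + 1 + 2 = i + 3 by ring,
      show (i : ℝ) + 1 + 3 = i + 4 by ring, show (i : ℝ) + 1 + 4 = i + 5 by ring]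
    refine mul_le_mul_of_nonneg_left (sub_le_sub_right ?_ _) (by positivity)
    exact div_le_div_of_nonneg_left (by positivity) hx h2
  · refine le_trans ?_ hup
    rw [e, show (i : ℝ) + 1 + 2 = i + 3 by ring,
      show (i : ℝ) + 1 + 3 = i + 4 by ring, show (i : ℝ) + 1 + 4 = i + 5 by ring]
    refine mul_le_mul_of_nonneg_left (sub_le_sub_right ?_ _) (by positivity)
    exact div_le_div_of_nonneg_left (by positivity) (by positivity) h1

end Vale.Agent.P237.Petty.Cor.Low20
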