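import Vale.Agent.P237.Petty.Cor.Low20.Top
import Vale.Agent.P237.Petty.Cor.Low20.Mu

/-!
# P237: from the checks of a record to a cell in dimensions twenty to ninety nine

The boxes are glued from zero to beyond `p + 1`; the first `n` of them reach the end of the bulk.
-/

namespace Vale.Agent.P237.Petty.Cor.Low20

open Set
open Vale.Agent.P100.Bernstein

variable {p n : ℕ} {d : Rec} {bs : List Box} {b : Box}

/-- The first box starts at zero. -/
def headZero : List Box → Bool
  | [] => false
  | b :: _ => decide (b.y0 = 0)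

/-- The rational conditions of a record that do not depend on the order. -/
def okShape (d : Rec) (bs : List Box) (n : ℕ) : Bool :=
  glueOk Box.q bs && glueOk Box.qm bs && glueOk Box.q (bs.take n) && headZero bs &&
    headZero (bs.take n) && (bs.take n).all (okBulkBox d) && okExp d && okPoint d &&
    decide (0 ≤ d.w0)

/-- The rational conditions of a record at an order. -/
def okAt (d : Rec) (bs : List Box) (n p : ℕ) : Bool :=
  decide (4 ≤ p) && decide (d.el ≤ eQ p) && decide (eQ p ≤ d.eh) &&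
    glueEnd ((p : ℚ) + 1) bs && glueEnd (d.Z1 * ((p : ℚ) + 1)) (bs.take n) && okMu d p &&
    okOrder d p

theorem boxSound_of {T : List CTree} (h : cutAll d.Z1 (boxClaims d b) T = true) : BoxSound d b :=
  cutAll_sound _ _ h

/-- The signs of the functions in the mean on every box. -/
def FarSound (d : Rec) (bs : List Box) : Prop :=
  ∀ c ∈ bs, ∀ q ∈ farClaims d c, ∀ x : List ℝ, x.getD 0 0 * x.getD 1 0 ≤ 1 → InBox q.2 x →
    0 ≤ q.1.eval x

theorem farSound_of {T : List CTree} (h : cutAll 1 (bs.flatMap (farClaims d)) T = true) :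
    FarSound d bs := fun c hc q hq x hz hx =>
  cutAll_sound _ _ h q (List.mem_flatMap.2 ⟨c, hc, hq⟩) x (by exact_mod_cast hz) hx

theorem topSound_of {T : List CTree} (h : cutAll d.Z1 (topClaims d b) T = true) : TopSound d b :=
  cutAll_sound _ _ h

/-- A subdivision without skipped leaves. -/
def noOut : CTree → Bool
  | .leaf => true
  | .out => false
  | .split _ l r => noOut l && noOut r

theorem cutTree_full {zn : ℤ} {zd : ℕ} (a : Expr) (x : List ℝ) : ∀ (T : CTree) (B : List Iv),
    a.ok B.length = true → noOut T = true → cutTree zn zd a B T = true → InBox B x → 0 ≤ a.eval x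
  | .leaf, _, ha, _, h, hx => (checkBox_sound ha (Few.checkBox_of_quickBox h) hx).1
  | .out, _, _, hn, _, _ => by simp [noOut] at hn
  | .split i l r, B, ha, hn, h, hx => by
    simp only [noOut, Bool.and_eq_true] at hn
    simp only [cutTree, Bool.and_eq_true] at h
    exact (inBox_halves i B x hx).elim
      (cutTree_full a x l _ ((length_halves i B).1.symm ▸ ha) hn.1 h.1)
      (cutTree_full a x r _ ((length_halves i B).2.symm ▸ ha) hn.2 h.2)

theorem cutAll_full {Z : ℚ} : ∀ (l : List (Expr × List Iv)) (L : List CTree),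
    cutAll Z l L = true → L.all noOut = true → ∀ q ∈ l, ∀ x : List ℝ, InBox q.2 x →
      0 ≤ q.1.eval x
  | [], _, _, _, _, hq => by simp at hq
  | q :: l, [], h, _, _, _ => by simp [cutAll] at h
  | q :: l, T :: L, h, hn, q', hq => by
    simp only [cutAll, cutCert, Bool.and_eq_true] at h
    simp only [List.all_cons, Bool.and_eq_true] at hn
    rcases List.mem_cons.1 hq with rfl | hq
    · exact fun x hx => cutTree_full _ x T _ h.1.1 hn.1 h.1.2 hx
    · exact cutAll_full l L h.2 hn.2 q' hq

theorem millsSound_of {T : List CTree} (h : cutAll 0 (millsClaims d) T = true)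
    (hn : T.all noOut = true) : MillsSound d :=
  cutAll_full _ _ h hn

/-- The cell of a record at an order. -/
theorem corCell_of_checks (hshape : okShape d bs n = true) (hat : okAt d bs n p = true)
    (hfar : FarSound d bs) (hbox : ∀ c ∈ bs.take n, BoxSound d c)
    (hrec : okRecTop d = true) (hmills : MillsSound d)
    (hok : (bs.take n).all (okTop d) = true) (htop : ∀ c ∈ bs.take n, TopSound d c) :
    CorCell p ((d.w0 : ℝ) / ((p : ℝ) + 2)) ((d.w1 : ℝ) / ((p : ℝ) + 2)) := by
  simp only [okShape, Bool.and_eq_true, decide_eq_true_eq] at hshape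
  obtain ⟨⟨⟨⟨⟨⟨⟨⟨s1, s2⟩, s3⟩, s4⟩, s5⟩, s6⟩, s7⟩, s8⟩, s9⟩ := hshape
  simp only [okAt, Bool.and_eq_true, decide_eq_true_eq] at hat
  obtain ⟨⟨⟨⟨⟨⟨a1, a2⟩, a3⟩, a4⟩, a5⟩, a6⟩, a7⟩ := hat
  obtain ⟨b0, l, hbs⟩ : ∃ b0 l, bs = b0 :: l := by
    cases bs with
    | nil => simp [headZero] at s4
    | cons b0 l => exact ⟨b0, l, rfl⟩
  obtain ⟨c0, l', hbk⟩ : ∃ c0 l', bs.take n = c0 :: l' := by
    cases h : bs.take n with
    | nil => simp [h, headZero] at s5
    | cons c0 l' => exact ⟨c0, l', rfl⟩
  obtain ⟨hlo, hup⟩ := mu_bracket (by omega) a6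
  have he : ev p ∈ Icc (d.el : ℝ) d.eh := by
    rw [← eQ_cast]
    exact ⟨by exact_mod_cast a2, by exact_mod_cast a3⟩
  refine corCell_of_bulk hbs a1 s1 s2 (by simpa [hbs, headZero] using s4) a4 a7 hlo hup
    (fun c hc y hy hz => ?_) fun T => bulk_of_boxes ⟨T, s8, hlo, hup⟩ s1 s2 hbk
      (fun c hc => List.mem_of_mem_take hc) s3 (by simpa [hbk, headZero] using s5) a5 s6 s7 s9 he
      hbox fun c hc ell s t a r q hfs h0 hE hz hy hec =>
        inv_rate_le_topE hrec he hmills (List.all_eq_true.1 hok c hc) (htop c hc) hfs h0 hE hz hy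
          hec
  have hb : InBox [ivQ c.y0 c.y1, ivQ d.el d.eh] [y, ev p] :=
    ⟨(mem_ivQ hy).1, (mem_ivQ hy).2, (mem_ivQ he).1, (mem_ivQ he).2, trivial⟩
  exact ⟨hfar c hc (remE d c, [ivQ c.y0 c.y1, ivQ d.el d.eh]) (by simp [farClaims]) [y, ev p]
      (by simpa using hz) hb,
    hfar c hc (massE d c, [ivQ c.y0 c.y1, ivQ d.el d.eh]) (by simp [farClaims]) [y, ev p]
      (by simpa using hz) hb⟩

end Vale.Agent.P237.Petty.Cor.Low20
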