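import Vale.Agent.P237.Petty.Cor.Few.Mask

/-!
# P237: a certificate on the part of a box below a hyperbola

The variables start with `y` and `e`. A leaf of the tree is either a sign certificate or lies in
the part `Z < y * e`, where nothing is claimed.
-/

namespace Vale.Agent.P237.Petty.Cor.Low20

open Vale.Agent.P100.Bernstein
open Vale.Agent.P237.Petty.Cor.Few (quickBox checkBox_of_quickBox)

/-- A subdivision with leaves that are tested or skipped. -/
inductive CTree where
  | leaf
  | out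
  | split (i : ℕ) (l r : CTree)
deriving Repr

/-- The box lies beyond the hyperbola `y * e = zn / zd`. -/
def outBox (zn : ℤ) (zd : ℕ) : List Iv → Bool
  | I :: J :: _ =>
    decide (0 ≤ I.lo) && decide (0 ≤ J.lo) && decide (0 < I.den) && decide (0 < J.den) &&
      decide (zn * ((I.den * J.den : ℕ) : ℤ) < I.lo * J.lo * (zd : ℤ))
  | _ => false

/-- The test on the leaves. -/
def cutTree (zn : ℤ) (zd : ℕ) (a : Expr) : List Iv → CTree → Bool
  | B, .leaf => quickBox a B (radix a B) (points a B) (padD B.length (a.pack B []).deg)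
  | B, .out => outBox zn zd B
  | B, .split i l r => cutTree zn zd a (halves i B).1 l && cutTree zn zd a (halves i B).2 r

/-- The complete test. -/
def cutCert (Z : ℚ) (a : Expr) (B : List Iv) (T : CTree) : Bool :=
  a.ok B.length && cutTree Z.num Z.den a B T

/-- The test of several claims on several boxes. -/
def cutAll (Z : ℚ) : List (Expr × List Iv) → List CTree → Bool
  | [], [] => true
  | q :: l, T :: L => cutCert Z q.1 q.2 T && cutAll Z l L
  | _, _ => false

theorem outBox_sound {Z : ℚ} {B : List Iv} (h : outBox Z.num Z.den B = true) {x : List ℝ}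
    (hx : InBox B x) : (Z : ℝ) < x.getD 0 0 * x.getD 1 0 := by
  rcases B with _ | ⟨I, _ | ⟨J, B⟩⟩
  · simp [outBox] at h
  · simp [outBox] at h
  simp only [outBox, Bool.and_eq_true, decide_eq_true_eq] at h
  obtain ⟨⟨⟨⟨hI, hJ⟩, hdI⟩, hdJ⟩, hlt⟩ := h
  obtain ⟨x0, -, y0, -, -⟩ := hx
  have e0 : x.headD 0 = x.getD 0 0 := by cases x <;> simp
  have e1 : x.tail.headD 0 = x.getD 1 0 := by rcases x with _ | ⟨_, _ | _⟩ <;> simp
  rw [e0] at x0
  rw [e1] at y0
  have hI' : (0 : ℝ) ≤ I.lo := by exact_mod_cast hI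
  have hJ' : (0 : ℝ) ≤ J.lo := by exact_mod_cast hJ
  have hdI' : (0 : ℝ) < I.den := by exact_mod_cast hdI
  have hdJ' : (0 : ℝ) < J.den := by exact_mod_cast hdJ
  have hlt' : (Z.num : ℝ) * ((I.den : ℝ) * J.den) < (I.lo : ℝ) * J.lo * Z.den := by
    exact_mod_cast hlt
  have h2 := mul_le_mul x0 y0 hJ' (hI'.trans x0)
  rw [Rat.cast_def, div_lt_iff₀ (by exact_mod_cast Z.pos)]
  refine lt_of_mul_lt_mul_left (hlt'.trans_le' (le_of_eq ?_) |>.trans_le ?_) (mul_pos hdI' hdJ').le
  · ring
  · have h3 := mul_le_mul_of_nonneg_right h2 (show (0 : ℝ) ≤ (Z.den : ℝ) by positivity)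
    linarith

theorem cutTree_sound {Z : ℚ} (a : Expr) (x : List ℝ) (hz : x.getD 0 0 * x.getD 1 0 ≤ (Z : ℝ)) :
    ∀ (T : CTree) (B : List Iv), a.ok B.length = true → cutTree Z.num Z.den a B T = true →
      InBox B x → 0 ≤ a.eval x
  | .leaf, _, ha, h, hx => (checkBox_sound ha (checkBox_of_quickBox h) hx).1
  | .out, _, _, h, hx => absurd hz (not_le.2 (outBox_sound h hx))
  | .split i l r, B, ha, h, hx => by
    simp only [cutTree, Bool.and_eq_true] at h
    exact (inBox_halves i B x hx).elim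
      (cutTree_sound a x hz l _ ((length_halves i B).1.symm ▸ ha) h.1)
      (cutTree_sound a x hz r _ ((length_halves i B).2.symm ▸ ha) h.2)

theorem cutCert_sound {Z : ℚ} {a : Expr} {B : List Iv} {T : CTree} (h : cutCert Z a B T = true)
    {x : List ℝ} (hz : x.getD 0 0 * x.getD 1 0 ≤ (Z : ℝ)) (hx : InBox B x) : 0 ≤ a.eval x := by
  simp only [cutCert, Bool.and_eq_true] at h
  exact cutTree_sound a x hz T B h.1 h.2 hx

theorem cutAll_sound {Z : ℚ} : ∀ (l : List (Expr × List Iv)) (L : List CTree),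
    cutAll Z l L = true → ∀ q ∈ l, ∀ x : List ℝ, x.getD 0 0 * x.getD 1 0 ≤ (Z : ℝ) →
      InBox q.2 x → 0 ≤ q.1.eval x
  | [], _, _, _, hq => by simp at hq
  | q :: l, [], h, _, _ => by simp [cutAll] at h
  | q :: l, T :: L, h, q', hq => by
    simp only [cutAll, Bool.and_eq_true] at h
    rcases List.mem_cons.1 hq with rfl | hq
    · exact fun x hz hx => cutCert_sound h.1 hz hx
    · exact cutAll_sound l L h.2 q' hq

end Vale.Agent.P237.Petty.Cor.Low20
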