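import Vale.Agent.P237.Petty.Cor.Low20.Setup
import Vale.Agent.P237.Petty.Tail.Basic

/-!
# P237: the linear part of a cell of small values in dimensions twenty to ninety nine
-/

namespace Vale.Agent.P237.Petty.Cor.Low20

open Set
open Ident (half rate)

variable {p : ℕ} {d : Rec}

theorem yv_ev (p : ℕ) (s : ℝ) : yv p s * ev p = s ^ 2 := by
  rw [yv, ev]; field_simp

theorem hasDerivAt_jumpR : ∀ (l : List (ℚ × ℚ)) (y : ℝ), HasDerivAt (jumpR l) (jumpD l y) y
  | [], y => by simpa [jumpR, jumpD] using hasDerivAt_const y (0 : ℝ)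
  | k :: l, y => by
    have h : HasDerivAt (fun x => (k.2 : ℝ) * Tail.sqp (x - k.1))
        ((k.2 : ℝ) * (Tail.sqp' (y - k.1) * 1)) y :=
      ((Tail.hasDerivAt_sqp _).comp y ((hasDerivAt_id y).sub_const _)).const_mul _
    refine (h.add (hasDerivAt_jumpR l y)).congr_deriv ?_
    simp only [jumpD, Tail.sqp']
    ring

theorem hasDerivAt_nnR (d : Rec) (y e : ℝ) :
    HasDerivAt (fun x => nnR d x e) (ndR d y e) y := by
  refine (((((hasDerivAt_id y).const_mul (d.l1 : ℝ)).const_add (d.l0 : ℝ)).add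
    ((hasDerivAt_pow 2 y).const_mul (d.l2 : ℝ))).add
      (((hasDerivAt_id y).mul_const e).const_mul (d.l6 : ℝ))).add (hasDerivAt_jumpR d.kn y)
        |>.congr_deriv ?_
  simp only [ndR]
  push_cast
  ring

theorem continuous_nnR (d : Rec) (e : ℝ) : Continuous fun y => nnR d y e :=
  continuous_iff_continuousAt.2 fun y => (hasDerivAt_nnR d y e).continuousAt

theorem hasDerivAt_yv (p : ℕ) (s : ℝ) : HasDerivAt (yv p) (((p : ℝ) + 1) * (2 * s)) s := by
  refine ((hasDerivAt_pow 2 s).const_mul ((p : ℝ) + 1)).congr_deriv ?_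
  push_cast
  ring

theorem hasDerivAt_potK (p : ℕ) (d : Rec) {s : ℝ} (hs : s ∈ Ioo (0 : ℝ) 1) :
    HasDerivAt (potK p d) (potK' p d s) s := by
  have h0 : 0 < 1 - s ^ 2 := by nlinarith [hs.1, hs.2]
  have hq : 0 < arc s := Real.sqrt_pos.2 h0
  have hd : HasDerivAt arc (-s / arc s) s := by
    refine (((hasDerivAt_pow 2 s).const_sub 1).sqrt h0.ne').congr_deriv ?_
    simp only [arc]
    field_simp
    ring
  refine (((hasDerivAt_const s (-ggR d (ev p))).div hd hq.ne').add
    (((hasDerivAt_nnR d (yv p s) (ev p)).comp s (hasDerivAt_yv p s)).const_mul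
      (ev p))).congr_deriv ?_
  have he : ev p * ((p : ℝ) + 1) = 1 := by rw [ev]; field_simp
  simp only [potK']
  field_simp
  linear_combination (2 * s * arc s ^ 3 * ndR d (yv p s) (ev p)) * he

theorem hasDerivAt_potB (d : Rec) {s : ℝ} (hs : s ∈ Ioo (0 : ℝ) 1) :
    HasDerivAt (potB d) (potB' d s) s :=
  (polePot_null 0 (d.a : ℝ) hs).1

/-- `e` times the coefficient of the displacement, at `w` for `1 / arc` and `mu` for the
eigenvalue. -/
noncomputable def sigR (d : Rec) (y e w N : ℝ) : ℝ :=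
  (1 - e) * ggR d e * w + (1 - y * e) * (2 * e * ndR d y e - 2 * (1 + 3 * e) * N) - e * nnR d y e

theorem cancelD_eq {s : ℝ} (hs : s ∈ Ioo (0 : ℝ) 1) :
    cancelD p (nuM p d) (potK p d) (potK' p d) s * s =
      yv p s / (1 - s ^ 2) *
        sigR d (yv p s) (ev p) (1 / arc s) ((d.N0 : ℝ) + d.N1 * ev p) := by
  have hc : 0 < arc s := arc_pos ⟨by linarith [hs.1], hs.2⟩
  have h2 : arc s ^ 2 = 1 - s ^ 2 := Real.sq_sqrt (by nlinarith [hs.1, hs.2])
  have hm : (0 : ℝ) < (p : ℝ) + 1 := by positivity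
  have hb := (Ident.b0_pos p).ne'
  have h4 : (p : ℝ) + 4 ≠ 0 := by positivity
  simp only [cancelD, potK, potK', potRate, sigR, yv_ev, nuM, nuS, sqCoef]
  generalize ggR d (ev p) = G
  generalize nnR d (yv p s) (ev p) = N
  generalize ndR d (yv p s) (ev p) = D
  rw [← h2, yv, ev]
  field_simp
  ring

end Vale.Agent.P237.Petty.Cor.Low20
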