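import Vale.Agent.P237.Petty.Cor.Low20.Lin
import Vale.Agent.P237.Petty.Cor.Band20.Cell
import Vale.Agent.P237.Petty.Cor.Bridge

/-!
# P237: the mean of a cell of small values in dimensions twenty to ninety nine

The glued potentials are once differentiable, so the functions made from them have the mean of
their constants.
-/

namespace Vale.Agent.P237.Petty.Cor.Low20

open MeasureTheory Set intervalIntegral
open Ident (half)
open Huge (moment)
open Band20 (momQ moment_eq_momQ)
open Vale.Agent.P100.Bernstein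

variable {p : ℕ} {d : Rec} {f : Box → Cub}

/-- A polynomial from its coefficients, over the rationals. -/
def polyQ : List ℚ → ℚ → ℚ
  | [], _ => 0
  | a :: l, x => a + x * polyQ l x

/-- Its derivative. -/
def polyDQ : List ℚ → ℚ → ℚ
  | [], _ => 0
  | _ :: l, x => polyQ l x + x * polyDQ l x

theorem polyR_cast : ∀ (l : List ℚ) (q : ℚ), polyR l (q : ℝ) = (polyQ l q : ℝ)
  | [], q => by simp [polyR, polyQ]
  | a :: l, q => by simp [polyR, polyQ, polyR_cast l q]

theorem polyD_cast : ∀ (l : List ℚ) (q : ℚ), polyD l (q : ℝ) = (polyDQ l q : ℝ)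
  | [], q => by simp [polyD, polyDQ]
  | _ :: l, q => by simp [polyD, polyDQ, polyD_cast l q, polyR_cast l q]

theorem hasDerivAt_polyR : ∀ (l : List ℚ) (x : ℝ), HasDerivAt (polyR l) (polyD l x) x
  | [], x => by simpa [polyR, polyD] using hasDerivAt_const x (0 : ℝ)
  | a :: l, x => by
    refine (((hasDerivAt_id x).mul (hasDerivAt_polyR l x)).const_add (a : ℝ)).congr_deriv ?_
    simp [polyD]

theorem continuous_polyR (l : List ℚ) : Continuous (polyR l) :=
  continuous_iff_continuousAt.2 fun x => (hasDerivAt_polyR l x).continuousAt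

theorem continuous_polyD : ∀ l : List ℚ, Continuous (polyD l)
  | [] => by simp only [polyD]; fun_prop
  | _ :: l => by
    have := continuous_polyD l
    have := continuous_polyR l
    simp only [polyD]
    fun_prop

theorem eval_cQ (x : List ℝ) (q : ℚ) : (cQ q).eval x = (q : ℝ) := by
  simp [cQ, Expr.eval_frac, Rat.cast_def]

theorem eval_horner (x : List ℝ) (t : Expr) : ∀ l : List ℚ,
    (horner t l).eval x = polyR l (t.eval x)
  | [] => by simp [horner, polyR]
  | [a] => by simp [horner, polyR, eval_cQ]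
  | a :: b :: l => by
    simp only [horner, Expr.eval_add, Expr.eval_mul, eval_cQ, eval_horner x t (b :: l)]
    rfl

theorem eval_hornerD (x : List ℝ) (t : Expr) : ∀ l : List ℚ,
    (hornerD t l).eval x = polyD l (t.eval x)
  | [] => by simp [hornerD, polyD]
  | [a] => by simp [hornerD, polyD, polyR]
  | a :: b :: l => by
    simp only [hornerD, Expr.eval_add, Expr.eval_mul, eval_horner, eval_hornerD x t (b :: l)]
    rfl

theorem tauR_hasDerivAt (b : Box) (y : ℝ) :
    HasDerivAt (tauR b) ((1 / (b.y1 - b.y0) : ℚ) : ℝ) y := by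
  exact (((hasDerivAt_id y).sub_const (b.y0 : ℝ)).const_mul
    ((1 / (b.y1 - b.y0) : ℚ) : ℝ)).congr_deriv (mul_one _)

theorem tauR_left (b : Box) : tauR b (b.y0 : ℝ) = ((0 : ℚ) : ℝ) := by simp [tauR]

theorem tauR_right {b : Box} (h : b.y0 < b.y1) : tauR b (b.y1 : ℝ) = ((1 : ℚ) : ℝ) := by
  have h' : (b.y0 : ℝ) < b.y1 := by exact_mod_cast h
  rw [tauR]
  push_cast
  field_simp [sub_ne_zero.2 h'.ne']

/-- The value of the cubic of a box. -/
noncomputable def boxR (f : Box → Cub) (b : Box) (y e : ℝ) : ℝ := cubR (f b) (tauR b y) e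

/-- Its derivative. -/
noncomputable def boxD (f : Box → Cub) (b : Box) (y e : ℝ) : ℝ :=
  ((1 / (b.y1 - b.y0) : ℚ) : ℝ) * cubRD (f b) (tauR b y) e

theorem hasDerivAt_boxR (f : Box → Cub) (b : Box) (y e : ℝ) :
    HasDerivAt (fun x => boxR f b x e) (boxD f b y e) y := by
  refine ((((hasDerivAt_polyR (f b).c0 (tauR b y)).add
    ((hasDerivAt_polyR (f b).c1 (tauR b y)).const_mul e)).comp y
      (tauR_hasDerivAt b y))).congr_deriv ?_
  simp only [boxD, cubRD]
  ring

theorem continuous_boxD (f : Box → Cub) (b : Box) (e : ℝ) :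
    Continuous fun y => boxD f b y e := by
  have := continuous_polyD (f b).c0
  have := continuous_polyD (f b).c1
  simp only [boxD, cubRD, tauR]
  fun_prop

/-- Two neighbours fit to first order. -/
def okJoin (f : Box → Cub) (b b' : Box) : Bool :=
  decide (b.y1 = b'.y0) && decide (polyQ (f b).c0 1 = polyQ (f b').c0 0) &&
    decide (polyQ (f b).c1 1 = polyQ (f b').c1 0) &&
    decide (1 / (b.y1 - b.y0) * polyDQ (f b).c0 1 = 1 / (b'.y1 - b'.y0) * polyDQ (f b').c0 0) &&
    decide (1 / (b.y1 - b.y0) * polyDQ (f b).c1 1 = 1 / (b'.y1 - b'.y0) * polyDQ (f b').c1 0)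

/-- The boxes follow each other and fit to first order. -/
def glueOk (f : Box → Cub) : List Box → Bool
  | [] => true
  | [b] => decide (b.y0 < b.y1)
  | b :: b' :: l => decide (b.y0 < b.y1) && okJoin f b b' && glueOk f (b' :: l)

theorem glueR_single (f : Box → Cub) (b : Box) (y e : ℝ) :
    glueR f [b] y e = boxR f b y e ∧ glueD f [b] y e = boxD f b y e := ⟨rfl, rfl⟩

theorem glueR_cons (f : Box → Cub) (b b' : Box) (l : List Box) (y e : ℝ) :
    glueR f (b :: b' :: l) y e =
        (if y ≤ (b.y1 : ℝ) then boxR f b y e else glueR f (b' :: l) y e) ∧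
      glueD f (b :: b' :: l) y e =
        (if y ≤ (b.y1 : ℝ) then boxD f b y e else glueD f (b' :: l) y e) := ⟨rfl, rfl⟩

theorem glue_head {b : Box} {l : List Box} (h : glueOk f (b :: l) = true) {y : ℝ}
    (hy : y ≤ (b.y1 : ℝ)) (e : ℝ) :
    glueR f (b :: l) y e = boxR f b y e ∧ glueD f (b :: l) y e = boxD f b y e := by
  rcases l with _ | ⟨b', l⟩
  · exact glueR_single f b y e
  · obtain ⟨h1, h2⟩ := glueR_cons f b b' l y e
    rw [h1, h2, if_pos hy, if_pos hy]
    exact ⟨rfl, rfl⟩

theorem glueOk_cons {b b' : Box} {l : List Box} (h : glueOk f (b :: b' :: l) = true) :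
    b.y0 < b.y1 ∧ okJoin f b b' = true ∧ glueOk f (b' :: l) = true := by
  simp only [glueOk, Bool.and_eq_true, decide_eq_true_eq] at h
  exact ⟨h.1.1, h.1.2, h.2⟩

theorem glue_len {b : Box} {l : List Box} (h : glueOk f (b :: l) = true) : b.y0 < b.y1 := by
  rcases l with _ | ⟨b', l⟩
  · simpa [glueOk] using h
  · exact (glueOk_cons h).1

/-- The two sides of a node agree. -/
theorem glue_node {b b' : Box} {l : List Box} (h : glueOk f (b :: b' :: l) = true) (e : ℝ) :
    glueR f (b' :: l) (b.y1 : ℝ) e = boxR f b (b.y1 : ℝ) e ∧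
      glueD f (b' :: l) (b.y1 : ℝ) e = boxD f b (b.y1 : ℝ) e := by
  obtain ⟨hb, hj, hl⟩ := glueOk_cons h
  simp only [okJoin, Bool.and_eq_true, decide_eq_true_eq] at hj
  obtain ⟨⟨⟨⟨hy, h0⟩, h1⟩, h2⟩, h3⟩ := hj
  have hb' := glue_len hl
  have hle : (b.y1 : ℝ) ≤ b'.y1 := by
    rw [hy]
    exact_mod_cast hb'.le
  obtain ⟨g1, g2⟩ := glue_head hl hle e
  rw [g1, g2]
  have t' : tauR b' (b.y1 : ℝ) = ((0 : ℚ) : ℝ) := by rw [hy]; exact tauR_left b'
  simp only [boxR, boxD, cubR, cubRD, tauR_right hb, t', polyR_cast, polyD_cast, h0, h1, true_and]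
  have e2 : ((1 / (b.y1 - b.y0) * polyDQ (f b).c0 1 : ℚ) : ℝ) =
      ((1 / (b'.y1 - b'.y0) * polyDQ (f b').c0 0 : ℚ) : ℝ) := by rw [h2]
  have e3 : ((1 / (b.y1 - b.y0) * polyDQ (f b).c1 1 : ℚ) : ℝ) =
      ((1 / (b'.y1 - b'.y0) * polyDQ (f b').c1 0 : ℚ) : ℝ) := by rw [h3]
  push_cast at e2 e3 ⊢
  linear_combination -e2 - e * e3

/-- From a node on, the later boxes decide. -/
theorem glue_tail {b b' : Box} {l : List Box} (h : glueOk f (b :: b' :: l) = true) {y : ℝ}
    (hy : (b.y1 : ℝ) ≤ y) (e : ℝ) :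
    glueR f (b :: b' :: l) y e = glueR f (b' :: l) y e ∧
      glueD f (b :: b' :: l) y e = glueD f (b' :: l) y e := by
  obtain ⟨h1, h2⟩ := glueR_cons f b b' l y e
  rcases hy.eq_or_lt with h0 | h0
  · obtain ⟨n1, n2⟩ := glue_node h e
    rw [h1, h2, if_pos h0.ge, if_pos h0.ge, ← h0, n1, n2]
    exact ⟨rfl, rfl⟩
  · rw [h1, h2, if_neg (not_le.2 h0), if_neg (not_le.2 h0)]
    exact ⟨rfl, rfl⟩

theorem hasDerivAt_glueR : ∀ (l : List Box), glueOk f l = true → ∀ (y e : ℝ),
    HasDerivAt (fun x => glueR f l x e) (glueD f l y e) y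
  | [], _, y, e => by simpa [glueR, glueD] using hasDerivAt_const y (0 : ℝ)
  | [b], _, y, e => hasDerivAt_boxR f b y e
  | b :: b' :: l, h, y, e => by
    have hrec := hasDerivAt_glueR (b' :: l) (glueOk_cons h).2.2 y e
    have hbox := hasDerivAt_boxR f b y e
    rcases lt_trichotomy y (b.y1 : ℝ) with hy | hy | hy
    · rw [(glue_head h hy.le e).2]
      refine hbox.congr_of_eventuallyEq ?_
      filter_upwards [Iio_mem_nhds hy] with x hx using (glue_head h (le_of_lt hx) e).1
    · rw [(glue_head h hy.le e).2]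
      have hnode : glueD f (b' :: l) y e = boxD f b y e := by rw [hy]; exact (glue_node h e).2
      rw [hnode] at hrec
      have hl := hbox.hasDerivWithinAt.congr (s := Iic y)
        (f₁ := fun x => glueR f (b :: b' :: l) x e)
        (fun x hx => (glue_head h (le_trans hx hy.le) e).1) (glue_head h hy.le e).1
      have hr := hrec.hasDerivWithinAt.congr (s := Ici y)
        (f₁ := fun x => glueR f (b :: b' :: l) x e)
        (fun x hx => (glue_tail h (hy.ge.trans hx) e).1) (glue_tail h hy.ge e).1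
      have := hl.union hr
      rwa [Iic_union_Ici, hasDerivWithinAt_univ] at this
    · rw [(glue_tail h hy.le e).2]
      refine hrec.congr_of_eventuallyEq ?_
      filter_upwards [Ioi_mem_nhds hy] with x hx using (glue_tail h (le_of_lt hx) e).1

theorem continuous_glueR {l : List Box} (h : glueOk f l = true) (e : ℝ) :
    Continuous fun y => glueR f l y e :=
  continuous_iff_continuousAt.2 fun y => (hasDerivAt_glueR l h y e).continuousAt

theorem continuous_glueD : ∀ (l : List Box), glueOk f l = true → ∀ e : ℝ,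
    Continuous fun y => glueD f l y e
  | [], _, e => by simp only [glueD]; fun_prop
  | [b], _, e => continuous_boxD f b e
  | b :: b' :: l, h, e => by
    have hrec := continuous_glueD (b' :: l) (glueOk_cons h).2.2 e
    refine (Continuous.if_le (continuous_boxD f b e) hrec continuous_id continuous_const
      fun y hy => ?_).congr fun y => ((glueR_cons f b b' l y e).2).symm
    rw [show y = (b.y1 : ℝ) from hy]
    exact ((glue_node h e).2).symm

theorem glueOk_le : ∀ (l : List Box) {b0 : Box}, glueOk f (b0 :: l) = true →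
    ∀ b ∈ b0 :: l, b0.y0 ≤ b.y0
  | [], b0, _, b, hb => by simp only [List.mem_singleton] at hb; rw [hb]
  | b1 :: l, b0, h, b, hb => by
    rcases List.mem_cons.1 hb with rfl | hb
    · exact le_rfl
    · obtain ⟨h1, h2, h3⟩ := glueOk_cons h
      simp only [okJoin, Bool.and_eq_true, decide_eq_true_eq] at h2
      have := glueOk_le l h3 b hb
      linarith [h2.1.1.1.1]

/-- On a box the glued function is its cubic. -/
theorem glue_eq_box : ∀ (l : List Box), glueOk f l = true → ∀ b ∈ l, ∀ y : ℝ,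
    y ∈ Icc (b.y0 : ℝ) b.y1 → ∀ e : ℝ,
      glueR f l y e = boxR f b y e ∧ glueD f l y e = boxD f b y e
  | [], _, b, hb, _, _, _ => by simp at hb
  | [b0], h, b, hb, y, hy, e => by
    simp only [List.mem_singleton] at hb
    subst hb
    exact glue_head h hy.2 e
  | b0 :: b1 :: l, h, b, hb, y, hy, e => by
    rcases List.mem_cons.1 hb with rfl | hb
    · exact glue_head h hy.2 e
    · obtain ⟨-, h2, h3⟩ := glueOk_cons h
      have hle : b1.y0 ≤ b.y0 := glueOk_le l h3 b hb
      simp only [okJoin, Bool.and_eq_true, decide_eq_true_eq] at h2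
      have hy0 : (b0.y1 : ℝ) ≤ y := le_trans (by exact_mod_cast h2.1.1.1.1.trans_le hle) hy.1
      obtain ⟨t1, t2⟩ := glue_tail h hy0 e
      rw [t1, t2]
      exact glue_eq_box (b1 :: l) h3 b hb y hy e

/-- The boxes cover from the first left end to `top`. -/
def glueEnd (top : ℚ) : List Box → Bool
  | [] => false
  | [b] => decide (top ≤ b.y1)
  | _ :: b' :: l => glueEnd top (b' :: l)

theorem glue_cover {top : ℚ} : ∀ (l : List Box) {b0 : Box}, glueOk f (b0 :: l) = true →
    glueEnd top (b0 :: l) = true → ∀ y : ℝ, (b0.y0 : ℝ) ≤ y → y ≤ (top : ℝ) →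
      ∃ b ∈ b0 :: l, y ∈ Icc (b.y0 : ℝ) b.y1
  | [], b0, _, he, y, h0, h1 => by
    simp only [glueEnd, decide_eq_true_eq] at he
    exact ⟨b0, by simp, h0, h1.trans (by exact_mod_cast he)⟩
  | b1 :: l, b0, h, he, y, h0, h1 => by
    rcases le_total y (b0.y1 : ℝ) with hy | hy
    · exact ⟨b0, by simp, h0, hy⟩
    · obtain ⟨-, h2, h3⟩ := glueOk_cons h
      simp only [okJoin, Bool.and_eq_true, decide_eq_true_eq] at h2
      obtain ⟨b, hb, hb'⟩ := glue_cover l h3 he y
        (by rw [← h2.1.1.1.1]; exact hy) h1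
      exact ⟨b, List.mem_cons_of_mem _ hb, hb'⟩

/-- The value of the function of mean zero of a box. -/
theorem eval_meanZero (b : Box) (c : Cub) (y e : ℝ) (x : List ℝ) :
    (b.meanZero c).eval (y :: e :: x) =
      (1 - y * e) * (cubR c (tauR b y) e +
          2 * y * (((1 / (b.y1 - b.y0) : ℚ) : ℝ) * cubRD c (tauR b y) e)) -
        (1 + 2 * e) * y * cubR c (tauR b y) e := by
  simp only [Box.meanZero, Box.cubE, Box.cubD, Box.tau, xC, xZ, xY, xE, Expr.eval_sub,
    Expr.eval_add, Expr.eval_mul, Expr.eval_var, Expr.eval_ofNat, eval_cQ, eval_horner,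
    eval_hornerD, List.getD_cons_zero, List.getD_cons_succ, tauR, cubR, cubRD, Nat.cast_one,
    Nat.cast_ofNat]

/-- The remainder and the part along the value on a box. -/
theorem eval_rem_mass {bs : List Box} (hq : glueOk Box.q bs = true)
    (hm : glueOk Box.qm bs = true) {b : Box} (hb : b ∈ bs) {y : ℝ}
    (hy : y ∈ Icc (b.y0 : ℝ) b.y1) (e : ℝ) (x : List ℝ) :
    (remE d b).eval (y :: e :: x) = e ^ 2 * splineR Box.q d.R0 bs y e ∧
      (massE d b).eval (y :: e :: x) = e * splineR Box.qm d.M0 bs y e := by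
  obtain ⟨q1, q2⟩ := glue_eq_box bs hq b hb y hy e
  obtain ⟨m1, m2⟩ := glue_eq_box bs hm b hb y hy e
  have hc : ∀ c : Cub, (constE c).eval (y :: e :: x) = cubR c 0 e := by
    intro c
    simp only [constE, xE, Expr.eval_add, Expr.eval_mul, Expr.eval_var, Expr.eval_ofNat,
      eval_horner, List.getD_cons_zero, List.getD_cons_succ, cubR, Nat.cast_zero]
  constructor
  · simp only [remE, Expr.eval_mul, Expr.eval_pow, Expr.eval_add, hc, eval_meanZero, splineR, q1,
      q2, boxR, boxD]
    simp [xE]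
  · simp only [massE, Expr.eval_mul, Expr.eval_add, hc, eval_meanZero, splineR, m1, m2, boxR,
      boxD]
    simp [xE]

theorem continuous_splineR {bs : List Box} (h : glueOk f bs = true) (c : Cub) (p : ℕ) (e : ℝ) :
    Continuous fun s => splineR f c bs (yv p s) e := by
  have h1 := continuous_glueR h e
  have h2 := continuous_glueD bs h e
  have hy : Continuous (yv p) := by unfold yv; fun_prop
  have := h1.comp hy
  have := h2.comp hy
  simp only [Function.comp_def] at *
  simp only [splineR]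
  fun_prop

/-- Only the constant of a glued function has a mean. -/
theorem integral_splineR {bs : List Box} (h : glueOk f bs = true) (c : Cub) (p : ℕ) :
    ∫ s in (0 : ℝ)..1, arc s ^ (p + 1) * splineR f c bs (yv p s) (ev p) =
      cubR c 0 (ev p) * half (p + 1) := by
  obtain ⟨e, he⟩ : ∃ e, ev p = e := ⟨_, rfl⟩
  obtain ⟨G, hG⟩ : ∃ G : ℝ → ℝ,
      G = fun s => s * arc s ^ (p + 3) * glueR f bs (yv p s) e := ⟨_, rfl⟩
  have hcy : Continuous (yv p) := by unfold yv; fun_prop
  have hGc : Continuous G := by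
    rw [hG]
    exact (continuous_id.mul (continuous_arc.pow _)).mul ((continuous_glueR h e).comp hcy)
  have hd : ∀ s ∈ Ioo (0 : ℝ) 1, HasDerivAt G
      (arc s ^ (p + 1) * (splineR f c bs (yv p s) e - cubR c 0 e)) s := by
    intro s hs
    have h2 : arc s ^ 2 = 1 - s ^ 2 := Real.sq_sqrt (by nlinarith [hs.1, hs.2])
    have hz : (1 - s ^ 2) ≠ 0 := by nlinarith [hs.1, hs.2]
    have ha := hasDerivAt_arc_pow (p + 2) (s := s) ⟨by linarith [hs.1], hs.2⟩
    rw [hG]
    refine (((hasDerivAt_id s).mul ha).mul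
      ((hasDerivAt_glueR bs h (yv p s) e).comp s (hasDerivAt_yv p s))).congr_deriv ?_
    have hye : yv p s * e = s ^ 2 := by rw [← he]; exact yv_ev p s
    have hme : ((p : ℝ) + 1) * e = 1 := by rw [← he, ev]; field_simp
    simp only [splineR, Pi.mul_apply, id, Function.comp_apply]
    rw [show p + 2 + 1 = p + 1 + 2 by omega, pow_add (arc s) (p + 1) 2, h2]
    push_cast
    field_simp
    simp only [yv] at hye ⊢
    linear_combination (arc s ^ (p + 1) * glueR f bs (((p : ℝ) + 1) * s ^ 2) e * (3 : ℝ) +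
      2 * arc s ^ (p + 1) * (((p : ℝ) + 1) * s ^ 2) * glueD f bs (((p : ℝ) + 1) * s ^ 2) e) * hye
  have hint : Continuous fun s => arc s ^ (p + 1) * splineR f c bs (yv p s) e :=
    (continuous_arc.pow _).mul (continuous_splineR h c p e)
  have hcst : Continuous fun s : ℝ => arc s ^ (p + 1) * cubR c 0 e :=
    (continuous_arc.pow _).mul continuous_const
  have key := intervalIntegral.integral_eq_sub_of_hasDerivAt_of_le zero_le_one hGc.continuousOn hd
    (((continuous_arc.pow _).mul ((continuous_splineR h c p e).sub continuous_const))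
      |>.intervalIntegrable 0 1)
  have hG1 : G 1 = 0 := by simp [hG, arc]
  have hG0 : G 0 = 0 := by simp [hG]
  rw [hG1, hG0, sub_zero] at key
  simp only [mul_sub] at key
  rw [intervalIntegral.integral_sub (hint.intervalIntegrable _ _) (hcst.intervalIntegrable _ _),
    intervalIntegral.integral_mul_const, sub_eq_zero] at key
  rw [he, key, mul_comm]
  rfl

/-- What is beyond the bulk, from a constant. -/
noncomputable def tailG (p : ℕ) (d : Rec) (K : ℚ) (j : ℕ) (s : ℝ) : ℝ :=
  (K : ℝ) * ((p : ℝ) + 1) * (1 / (d.Z1 : ℝ)) ^ j * (s ^ (2 * j) / (1 - s ^ 2) ^ 2)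

/-- The two mean conditions at an order. -/
def okMeanAt (d : Rec) (K : ℚ) (j p : ℕ) : Bool :=
  decide (1 / ((p : ℚ) + 1) * (polyQ d.M0.c0 0 + 1 / ((p : ℚ) + 1) * polyQ d.M0.c1 0) ≤
      polyQ d.muLo (1 / ((p : ℚ) + 1)) / ((p : ℚ) + 2)) &&
    decide ((1 / ((p : ℚ) + 1)) ^ 2 * (polyQ d.R0.c0 0 + 1 / ((p : ℚ) + 1) * polyQ d.R0.c1 0) +
        K * ((p : ℚ) + 1) * (1 / d.Z1) ^ j * momQ (p - 3) j *
          ((p / (p - 1)) * ((p + 2) / (p + 1))) ≤
      d.w0 / ((p : ℚ) + 2) * (polyQ d.muLo (1 / ((p : ℚ) + 1)) / ((p : ℚ) + 2) -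
        1 / ((p : ℚ) + 1) * (polyQ d.M0.c0 0 + 1 / ((p : ℚ) + 1) * polyQ d.M0.c1 0)))

theorem tailG_arc (hp : 4 ≤ p) {K : ℚ} {j : ℕ} {s : ℝ} (hs : s ∈ Icc (0 : ℝ) 1) :
    arc s ^ (p + 1) * tailG p d K j s =
      (K : ℝ) * ((p : ℝ) + 1) * (1 / (d.Z1 : ℝ)) ^ j * (arc s ^ (p - 3) * s ^ (2 * j)) := by
  rw [tailG]
  rcases hs.2.eq_or_lt with rfl | hlt
  · simp [arc, show p - 3 ≠ 0 by omega]
  · have h2 : arc s ^ 2 = 1 - s ^ 2 := Real.sq_sqrt (by nlinarith [hs.1])
    have hz : (1 - s ^ 2) ≠ 0 := by nlinarith [hs.1]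
    rw [show p + 1 = p - 3 + 4 by omega, pow_add, show arc s ^ 4 = (1 - s ^ 2) ^ 2 by
      rw [← h2]; ring]
    field_simp

/-- A pointwise bound with the mean conditions gives the cell. -/
theorem corCell_of_pointwise {bs : List Box} {K : ℚ} {j : ℕ} (hp : 4 ≤ p)
    (hq : glueOk Box.q bs = true) (hm : glueOk Box.qm bs = true)
    (hG : 0 < ggR d (ev p)) (hnu : 0 ≤ nuM p d) (hw0 : 0 ≤ d.w0) (hK : 0 ≤ K) (hZ : 0 < d.Z1)
    (hmu : polyR d.muLo (ev p) ≤ Ident.muMin p) (hmean : okMeanAt d K j p = true)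
    (hpos : ∀ ell ∈ Icc ((d.w0 : ℝ) / ((p : ℝ) + 2)) ((d.w1 : ℝ) / ((p : ℝ) + 2)),
      ∀ s t a r q : ℝ, FlatState p ell s t a r q →
        ell * (wS p (arc s) - massF p d bs s) - (remF p d bs s + tailG p d K j s) ≤
          cellR p d ell s t a r) :
    CorCell p ((d.w0 : ℝ) / ((p : ℝ) + 2)) ((d.w1 : ℝ) / ((p : ℝ) + 2)) := by
  have hgam : 0 < gamM p d := by
    have := Ident.b0_pos p
    unfold gamM
    positivity
  have hH := (Ident.half_pos (p + 1)).le
  have hcs : ∀ {f : Box → Cub}, glueOk f bs = true → ∀ c : Cub,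
      Continuous fun s => arc s ^ (p + 1) * splineR f c bs (yv p s) (ev p) := fun h c =>
    (continuous_arc.pow _).mul (continuous_splineR h c p (ev p))
  have hcM : Continuous fun s => arc s ^ (p + 1) * massF p d bs s := by
    have := (hcs hm d.M0).const_mul (ev p)
    refine this.congr fun s => ?_
    rw [massF]; ring
  have hcT : Continuous fun s : ℝ => (K : ℝ) * ((p : ℝ) + 1) * (1 / (d.Z1 : ℝ)) ^ j *
      (arc s ^ (p - 3) * s ^ (2 * j)) :=
    continuous_const.mul ((continuous_arc.pow _).mul (continuous_pow _))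
  have hcR : Continuous fun s => ev p ^ 2 * (arc s ^ (p + 1) *
      splineR Box.q d.R0 bs (yv p s) (ev p)) := (hcs hq d.R0).const_mul _
  have eR : EqOn (fun s => arc s ^ (p + 1) * (remF p d bs s + tailG p d K j s))
      (fun s => ev p ^ 2 * (arc s ^ (p + 1) * splineR Box.q d.R0 bs (yv p s) (ev p)) +
        (K : ℝ) * ((p : ℝ) + 1) * (1 / (d.Z1 : ℝ)) ^ j * (arc s ^ (p - 3) * s ^ (2 * j)))
      (Icc 0 1) := by
    intro s hs
    simp only [mul_add, tailG_arc hp hs, remF]
    ring
  simp only [okMeanAt, Bool.and_eq_true, decide_eq_true_eq] at hmean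
  have hqM := (Rat.cast_le (K := ℝ)).2 hmean.1
  have hqR := (Rat.cast_le (K := ℝ)).2 hmean.2
  push_cast at hqM hqR
  have ee : (((1 / ((p : ℚ) + 1) : ℚ)) : ℝ) = ev p := by rw [ev]; push_cast; rfl
  rw [show (((polyQ d.muLo (1 / ((p : ℚ) + 1))) : ℚ) : ℝ) = polyR d.muLo (ev p) by
    rw [← ee, polyR_cast]] at hqM hqR
  have hc0 : ∀ c : Cub, cubR c 0 (ev p) =
      (polyQ c.c0 0 : ℝ) + 1 / ((p : ℝ) + 1) * (polyQ c.c1 0 : ℝ) := by
    intro c
    rw [cubR, ← polyR_cast, ← polyR_cast, ev]
    norm_num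
  rw [← hc0] at hqM hqR
  rw [← hc0] at hqR
  have hMint : ∫ s in (0 : ℝ)..1, arc s ^ (p + 1) * massF p d bs s =
      ev p * (cubR d.M0 0 (ev p) * half (p + 1)) := by
    rw [← integral_splineR hm, ← intervalIntegral.integral_const_mul]
    refine intervalIntegral.integral_congr fun s _ => ?_
    simp only [massF]; ring
  have hMle : ev p * (cubR d.M0 0 (ev p) * half (p + 1)) ≤
      half (p + 1) * Ident.muMin p / ((p : ℝ) + 2) := by
    have h1 := mul_le_mul_of_nonneg_right hqM hH
    have h2 := mul_le_mul_of_nonneg_right hmu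
      (div_nonneg hH (show (0 : ℝ) ≤ (p : ℝ) + 2 by positivity))
    rw [ev] at h1 h2 ⊢
    linear_combination h1 + h2
  refine corCell_of_bridge (p := p) (by omega) hgam hnu (g := (d.g : ℝ))
    (M := massF p d bs) (R := fun s => remF p d bs s + tailG p d K j s)
    (B := fun s => -(d.a : ℝ) * (arc s ^ (p + 1) * (1 - s ^ 2)))
    (k := potK p d) (k' := potK' p d) (β := potB d) (β' := potB' d)
    (fun s hs => hasDerivAt_potK p d hs) (fun s hs => hasDerivAt_potB d hs) ?_ ?_ ?_
    hcM.continuousOn ((hcR.add hcT).continuousOn.congr eR) (hMint.trans_le hMle) ?_ hpos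
  · have hn : Continuous fun s => nnR d (yv p s) (ev p) :=
      (continuous_nnR d (ev p)).comp (by unfold yv; fun_prop)
    have := continuous_arc
    have e : (fun s => arc s ^ (p + 1) * potK p d s) = fun s =>
        -ggR d (ev p) * arc s ^ p + arc s ^ (p + 1) * (ev p * nnR d (yv p s) (ev p)) := by
      funext s
      rcases eq_or_ne (arc s) 0 with h | h
      · simp [potK, h, show p ≠ 0 by omega]
      · rw [potK, pow_succ]; field_simp
    rw [e]
    exact (by fun_prop : Continuous _).continuousOn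
  · exact (continuous_const.mul ((continuous_arc.pow _).mul (by fun_prop))).continuousOn
  · intro s hs
    have := hs.1.ne'
    rw [potB]
    field_simp
  · rw [intervalIntegral.integral_congr (by rw [uIcc_of_le zero_le_one]; exact eR),
      intervalIntegral.integral_add (hcR.intervalIntegrable _ _) (hcT.intervalIntegrable _ _),
      intervalIntegral.integral_const_mul, intervalIntegral.integral_const_mul, integral_splineR hq,
      show (∫ s in (0 : ℝ)..1, arc s ^ (p - 3) * s ^ (2 * j)) = moment (p - 3) j from rfl,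
      moment_eq_momQ, hMint]
    have hh : half (p - 3) ≤ (p : ℝ) / ((p : ℝ) - 1) * (((p : ℝ) + 2) / ((p : ℝ) + 1)) *
        half (p + 1) := by
      obtain ⟨k, rfl⟩ : ∃ k, p = k + 3 := ⟨p - 3, by omega⟩
      have a1 := half_le_shift k
      have a2 := half_le_shift (k + 2)
      push_cast at a2 ⊢
      rw [show k + 3 + 1 = k + 2 + 2 by omega,
        show (k : ℝ) + 3 - 1 = k + 2 by ring, show (k : ℝ) + 3 + 2 = k + 2 + 3 by ring,
        show (k : ℝ) + 3 + 1 = k + 2 + 2 by ring, mul_assoc]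
      exact a1.trans (mul_le_mul_of_nonneg_left a2 (by positivity))
    have hmq : 0 ≤ (momQ (p - 3) j : ℝ) := by
      have h := Cor.moment_nonneg (p - 3) j
      rw [moment_eq_momQ] at h
      exact nonneg_of_mul_nonneg_left h (Ident.half_pos _)
    have hK' : 0 ≤ (K : ℝ) := by exact_mod_cast hK
    have hZ' : 0 ≤ (d.Z1 : ℝ) := by exact_mod_cast hZ.le
    have hw0' : 0 ≤ (d.w0 : ℝ) / ((p : ℝ) + 2) :=
      div_nonneg (by exact_mod_cast hw0) (by positivity)
    have h1 := mul_le_mul_of_nonneg_left hh (show 0 ≤ (K : ℝ) * ((p : ℝ) + 1) *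
      (1 / (d.Z1 : ℝ)) ^ j * (momQ (p - 3) j : ℝ) by positivity)
    have h2 := mul_le_mul_of_nonneg_right hqR hH
    have h3 := mul_le_mul_of_nonneg_left hmu (mul_nonneg hw0'
      (div_nonneg hH (show (0 : ℝ) ≤ (p : ℝ) + 2 by positivity)))
    rw [ev] at h2 h3 ⊢
    linear_combination h1 + h2 + h3

end Vale.Agent.P237.Petty.Cor.Low20
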