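import Vale.Agent.P237.Petty.Cor.Hazard
import Mathlib.Analysis.SpecialFunctions.Log.Deriv

/-!
# P237: the power of the circle between partial sums of the exponential series
-/

namespace Vale.Agent.P237.Petty.Cor.Low20

open MeasureTheory Set intervalIntegral
open Lift (circLow circHigh)

variable {p : ℕ}

/-- The partial sum of the series of `exp (-x)`. -/
noncomputable def expT (n : ℕ) (x : ℝ) : ℝ :=
  ∑ k ∈ Finset.range n, (-x) ^ k / (k.factorial : ℝ)

theorem hasDerivAt_expT (n : ℕ) (x : ℝ) : HasDerivAt (expT (n + 1)) (-expT n x) x := by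
  induction n with
  | zero =>
    have e : expT (0 + 1) = fun _ => (1 : ℝ) := by funext y; simp [expT]
    rw [e]
    simpa [expT] using hasDerivAt_const x (1 : ℝ)
  | succ n ih =>
    have e : expT (n + 1 + 1) =
        fun y => expT (n + 1) y + (-y) ^ (n + 1) / ((n + 1).factorial : ℝ) := by
      funext y; rw [expT, Finset.sum_range_succ, ← expT]
    have h2 := (((hasDerivAt_id' x).fun_neg).fun_pow (n + 1)).div_const (((n + 1).factorial : ℝ))
    rw [e]
    refine (ih.fun_add h2).congr_deriv ?_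
    rw [expT, expT, Finset.sum_range_succ, Nat.add_sub_cancel, Nat.factorial_succ]
    push_cast
    field_simp
    ring

theorem expT_zero (n : ℕ) : expT (n + 1) 0 = 1 := by
  simp [expT, Finset.sum_range_succ']

/-- The signs of the errors alternate. -/
theorem expT_error : ∀ (n : ℕ) {x : ℝ}, 0 ≤ x → 0 ≤ (-1) ^ n * (Real.exp (-x) - expT n x)
  | 0, x, _ => by simpa [expT] using (Real.exp_pos (-x)).le
  | n + 1, x, hx => by
    have hd : ∀ t : ℝ, HasDerivAt (fun u => (-1 : ℝ) ^ (n + 1) * (Real.exp (-u) - expT (n + 1) u))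
        ((-1) ^ n * (Real.exp (-t) - expT n t)) t := by
      intro t
      refine ((((hasDerivAt_id' t).fun_neg).exp.fun_sub (hasDerivAt_expT n t)).const_mul
        ((-1 : ℝ) ^ (n + 1))).congr_deriv ?_
      rw [pow_succ]
      ring
    have hm := monotoneOn_of_hasDerivWithinAt_nonneg (convex_Ici (0 : ℝ))
      (fun t _ => (hd t).continuousAt.continuousWithinAt) (fun t _ => (hd t).hasDerivWithinAt)
      fun t ht => by
        rw [interior_Ici] at ht
        exact expT_error n (le_of_lt ht)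
    have h := hm (mem_Ici.2 le_rfl) (mem_Ici.2 hx) hx
    simpa [expT_zero] using h

theorem expT_even_le (n : ℕ) {x : ℝ} (hx : 0 ≤ x) : expT (2 * n) x ≤ Real.exp (-x) := by
  have h := expT_error (2 * n) hx
  rw [pow_mul, neg_one_sq, one_pow, one_mul] at h
  linarith

theorem le_expT_odd (n : ℕ) {x : ℝ} (hx : 0 ≤ x) : Real.exp (-x) ≤ expT (2 * n + 1) x := by
  have h := expT_error (2 * n + 1) hx
  rw [pow_succ, pow_mul, neg_one_sq, one_pow, one_mul] at h
  linarith

/-- The logarithm below the circle. -/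
theorem neg_log_bounds {w zu : ℝ} (h0 : 0 ≤ w) (hw : w ≤ zu) (hzu : zu < 1) :
    w + w ^ 2 / 2 ≤ -Real.log (1 - w) ∧
      -Real.log (1 - w) ≤ w + w ^ 2 / 2 * (1 + 2 * zu / (3 * (1 - zu))) := by
  have h1 : 0 < 1 - w := by linarith
  constructor
  · have hd : ∀ t ∈ Ico (0 : ℝ) 1, HasDerivAt (fun u => -Real.log (1 - u) - (u + u ^ 2 / 2))
        (t ^ 2 / (1 - t)) t := by
      intro t ht
      have ht1 : (1 : ℝ) - t ≠ 0 := by linarith [ht.2]
      refine ((((hasDerivAt_id' t).const_sub 1).log ht1).fun_neg.fun_sub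
        ((hasDerivAt_id' t).fun_add ((hasDerivAt_pow 2 t).div_const 2))).congr_deriv ?_
      push_cast
      field_simp
      ring
    have hm := monotoneOn_of_hasDerivWithinAt_nonneg (convex_Ico (0 : ℝ) 1)
      (fun t ht => (hd t ht).continuousAt.continuousWithinAt)
      (fun t ht => (hd t (interior_subset ht)).hasDerivWithinAt)
      fun t ht => div_nonneg (sq_nonneg _) (by linarith [(interior_subset ht).2])
    have := hm (a := 0) ⟨le_rfl, one_pos⟩ ⟨h0, by linarith⟩ h0
    simp at this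
    linarith
  · have hd : ∀ t ∈ Ico (0 : ℝ) 1,
        HasDerivAt (fun u => u + u ^ 2 / 2 + u ^ 3 / (3 * (1 - u)) + Real.log (1 - u))
          (t ^ 3 / (3 * (1 - t) ^ 2)) t := by
      intro t ht
      have ht1 : (1 : ℝ) - t ≠ 0 := by linarith [ht.2]
      have hl := (hasDerivAt_id' t).const_sub 1
      refine ((((hasDerivAt_id' t).fun_add ((hasDerivAt_pow 2 t).div_const 2)).fun_add
        ((hasDerivAt_pow 3 t).fun_div (hl.const_mul 3) (mul_ne_zero three_ne_zero ht1))).fun_add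
        (hl.log ht1)).congr_deriv ?_
      push_cast
      field_simp
      ring
    have hm := monotoneOn_of_hasDerivWithinAt_nonneg (convex_Ico (0 : ℝ) 1)
      (fun t ht => (hd t ht).continuousAt.continuousWithinAt)
      (fun t ht => (hd t (interior_subset ht)).hasDerivWithinAt)
      fun t ht => div_nonneg (pow_nonneg (interior_subset ht).1 3) (by positivity)
    have := hm (a := 0) ⟨le_rfl, one_pos⟩ ⟨h0, by linarith⟩ h0
    simp at this
    have h3 : w ^ 3 / (3 * (1 - w)) ≤ w ^ 2 * (zu / (3 * (1 - zu))) := by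
      rw [pow_succ, mul_div_assoc]
      exact mul_le_mul_of_nonneg_left
        (div_le_div₀ (h0.trans hw) hw (by linarith) (by linarith)) (sq_nonneg w)
    have e : w + w ^ 2 / 2 * (1 + 2 * zu / (3 * (1 - zu))) =
        w + w ^ 2 / 2 + w ^ 2 * (zu / (3 * (1 - zu))) := by ring
    linarith

/-- The power of the circle as an exponential. -/
theorem arc_pow_eq {v : ℝ} (hv : v ^ 2 < 1) :
    arc v ^ (p + 1) = Real.exp (-(((p : ℝ) + 1) / 2 * -Real.log (1 - v ^ 2))) := by
  have h : 0 < 1 - v ^ 2 := by linarith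
  have hc : 0 < arc v := Real.sqrt_pos.2 h
  rw [← Real.exp_log (pow_pos hc (p + 1)), Real.log_pow, arc, Real.log_sqrt h.le]
  congr 1
  push_cast
  ring

/-- Above an exponential. -/
theorem arc_pow_ge {v zu κ : ℝ} (hv : v ^ 2 ≤ zu) (hzu : zu < 1)
    (hκ : 1 + 2 * zu / (3 * (1 - zu)) ≤ κ) :
    Real.exp (-(((p : ℝ) + 1) * v ^ 2 / 2 + κ * (((p : ℝ) + 1) * v ^ 4 / 4))) ≤
      arc v ^ (p + 1) := by
  rw [arc_pow_eq (hv.trans_lt hzu)]
  refine Real.exp_le_exp.2 ?_
  have h := mul_le_mul_of_nonneg_left (((neg_log_bounds (sq_nonneg v) hv hzu).2).trans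
    (show _ ≤ v ^ 2 + (v ^ 2) ^ 2 / 2 * κ from
      add_le_add le_rfl (mul_le_mul_of_nonneg_left hκ (by positivity))))
    (show 0 ≤ ((p : ℝ) + 1) / 2 by positivity)
  linarith

/-- Below a product of two partial sums. -/
theorem arc_pow_le {v : ℝ} (hv : v ^ 2 < 1) :
    arc v ^ (p + 1) ≤ expT 7 (((p : ℝ) + 1) * v ^ 2 / 2) -
      ((p : ℝ) + 1) * v ^ 4 / 4 * expT 6 (((p : ℝ) + 1) * v ^ 2 / 2) +
        (((p : ℝ) + 1) * v ^ 4 / 4) ^ 2 / 2 := by
  set a := ((p : ℝ) + 1) * v ^ 2 / 2 with ha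
  set b := ((p : ℝ) + 1) * v ^ 4 / 4 with hb
  have a0 : 0 ≤ a := by positivity
  have b0 : 0 ≤ b := by positivity
  rw [arc_pow_eq hv]
  have h := mul_le_mul_of_nonneg_left (neg_log_bounds (sq_nonneg v) le_rfl hv).1
    (show 0 ≤ ((p : ℝ) + 1) / 2 by positivity)
  refine (Real.exp_le_exp.2 (show _ ≤ -a + -b by linarith)).trans ?_
  rw [Real.exp_add]
  have hb3 : Real.exp (-b) ≤ 1 - b + b ^ 2 / 2 := by
    refine (le_expT_odd 1 b0).trans (le_of_eq ?_)
    simp [expT, Finset.sum_range_succ, Nat.factorial]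
    ring
  refine (mul_le_mul_of_nonneg_left hb3 (Real.exp_pos _).le).trans ?_
  have e7 : Real.exp (-a) ≤ expT 7 a := le_expT_odd 3 a0
  have e6 : expT 6 a ≤ Real.exp (-a) := expT_even_le 3 a0
  have e1 : Real.exp (-a) ≤ 1 := Real.exp_le_one_iff.2 (neg_nonpos.2 a0)
  have q1 := mul_le_mul_of_nonneg_left e6 b0
  have q2 := mul_le_mul_of_nonneg_left e1 (show 0 ≤ b ^ 2 / 2 by positivity)
  linarith

theorem integral_pow_scaled (u : ℝ) (k : ℕ) :
    ∫ v in (0 : ℝ)..u, v ^ k = u ^ (k + 1) / ((k : ℝ) + 1) := by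
  simp [integral_pow]

/-- The mass below an abscissa from below. -/
theorem circLow_ge {u zu κ : ℝ} (hu : 0 ≤ u) (huz : u ^ 2 ≤ zu) (hzu : zu < 1)
    (hκ : 1 + 2 * zu / (3 * (1 - zu)) ≤ κ) :
    u * ∑ k ∈ Finset.range 8, ∑ j ∈ Finset.range (k + 1),
        (-1) ^ k / (k.factorial : ℝ) * (k.choose j : ℝ) *
          (((p : ℝ) + 1) * u ^ 2 / 2) ^ j * (κ * (((p : ℝ) + 1) * u ^ 4 / 4)) ^ (k - j) /
            (2 * (j : ℝ) + 4 * ((k - j : ℕ) : ℝ) + 1) ≤ circLow p u := by
  set m := (p : ℝ) + 1 with hm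
  have hκ0 : 0 ≤ κ := le_trans (by
    have : 0 ≤ zu := (sq_nonneg u).trans huz
    have : 0 < 3 * (1 - zu) := by linarith
    positivity) hκ
  have low : ∀ v ∈ Icc (0 : ℝ) u,
      expT 8 (m * v ^ 2 / 2 + κ * (m * v ^ 4 / 4)) ≤ arc v ^ (p + 1) := fun v hv =>
    (expT_even_le 4 (by positivity)).trans
      (arc_pow_ge ((pow_le_pow_left₀ hv.1 hv.2 2).trans huz) hzu hκ)
  have hq : Continuous fun v : ℝ => expT 8 (m * v ^ 2 / 2 + κ * (m * v ^ 4 / 4)) := by
    simp only [expT]; fun_prop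
  refine le_of_eq_of_le ?_ (intervalIntegral.integral_mono_on hu (hq.intervalIntegrable _ _)
    ((continuous_arc.pow (p + 1)).intervalIntegrable _ _) low)
  have e : ∀ v : ℝ, expT 8 (m * v ^ 2 / 2 + κ * (m * v ^ 4 / 4)) =
      ∑ k ∈ Finset.range 8, ∑ j ∈ Finset.range (k + 1),
        (-1) ^ k / (k.factorial : ℝ) * (k.choose j : ℝ) * (m / 2) ^ j * (κ * (m / 4)) ^ (k - j) *
          v ^ (2 * j + 4 * (k - j)) := by
    intro v
    refine Finset.sum_congr rfl fun k _ => ?_
    rw [neg_pow, add_pow, Finset.mul_sum, Finset.sum_div]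
    refine Finset.sum_congr rfl fun j _ => ?_
    rw [show m * v ^ 2 / 2 = m / 2 * v ^ 2 by ring,
      show κ * (m * v ^ 4 / 4) = κ * (m / 4) * v ^ 4 by ring,
      mul_pow (m / 2), mul_pow (κ * (m / 4)) (v ^ 4), ← pow_mul, ← pow_mul, pow_add]
    ring
  rw [intervalIntegral.integral_congr fun v _ => e v,
    intervalIntegral.integral_finsetSum fun k _ =>
      Continuous.intervalIntegrable (by fun_prop) _ _, Finset.mul_sum]
  refine Finset.sum_congr rfl fun k _ => ?_
  rw [intervalIntegral.integral_finsetSum fun j _ =>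
      Continuous.intervalIntegrable (by fun_prop) _ _, Finset.mul_sum]
  refine Finset.sum_congr rfl fun j _ => ?_
  rw [intervalIntegral.integral_const_mul, integral_pow_scaled,
    show m * u ^ 2 / 2 = m / 2 * u ^ 2 by ring,
    show κ * (m * u ^ 4 / 4) = κ * (m / 4) * u ^ 4 by ring,
    mul_pow (m / 2), mul_pow (κ * (m / 4)) (u ^ 4), ← pow_mul, ← pow_mul, pow_succ, pow_add]
  push_cast
  ring

/-- The mass below an abscissa from above. -/
theorem circLow_le_series {u : ℝ} (hu : 0 ≤ u) (hu1 : u < 1) :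
    circLow p u ≤ u *
      ((∑ k ∈ Finset.range 7, (-(((p : ℝ) + 1) * u ^ 2 / 2)) ^ k /
          (k.factorial : ℝ) / (2 * (k : ℝ) + 1)) -
        ((p : ℝ) + 1) * u ^ 4 / 4 * (∑ k ∈ Finset.range 6, (-(((p : ℝ) + 1) * u ^ 2 / 2)) ^ k /
          (k.factorial : ℝ) / (2 * (k : ℝ) + 5)) +
        (((p : ℝ) + 1) * u ^ 4 / 4) ^ 2 / 18) := by
  set m := (p : ℝ) + 1 with hm
  have hi : ∀ v ∈ Icc (0 : ℝ) u, arc v ^ (p + 1) ≤
      expT 7 (m * v ^ 2 / 2) - m * v ^ 4 / 4 * expT 6 (m * v ^ 2 / 2) + (m * v ^ 4 / 4) ^ 2 / 2 :=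
    fun v hv => arc_pow_le (lt_of_le_of_lt (pow_le_pow_left₀ hv.1 hv.2 2) (by nlinarith))
  have hq : ∀ (n : ℕ) (i : ℕ), Continuous fun v : ℝ => v ^ i * expT n (m * v ^ 2 / 2) := by
    intro n i; simp only [expT]; fun_prop
  refine (intervalIntegral.integral_mono_on hu ((continuous_arc.pow _).intervalIntegrable _ _)
    (Continuous.intervalIntegrable (by simp only [expT]; fun_prop) _ _) hi).trans (le_of_eq ?_)
  have key : ∀ n i : ℕ, ∫ v in (0 : ℝ)..u, v ^ i * expT n (m * v ^ 2 / 2) =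
      u ^ (i + 1) * ∑ k ∈ Finset.range n, (-(m * u ^ 2 / 2)) ^ k / (k.factorial : ℝ) /
        (2 * (k : ℝ) + ((i : ℝ) + 1)) := by
    intro n i
    rw [intervalIntegral.integral_congr (g := fun v => ∑ k ∈ Finset.range n,
        (-(m / 2)) ^ k / (k.factorial : ℝ) * v ^ (2 * k + i)) fun v _ => by
      rw [expT, Finset.mul_sum]
      refine Finset.sum_congr rfl fun k _ => ?_
      rw [show -(m * v ^ 2 / 2) = -(m / 2) * v ^ 2 by ring, mul_pow (-(m / 2)), ← pow_mul, pow_add]
      ring,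
      intervalIntegral.integral_finsetSum fun k _ =>
        Continuous.intervalIntegrable (by fun_prop) _ _, Finset.mul_sum]
    refine Finset.sum_congr rfl fun k _ => ?_
    rw [intervalIntegral.integral_const_mul, integral_pow_scaled,
      show -(m * u ^ 2 / 2) = -(m / 2) * u ^ 2 by ring, mul_pow (-(m / 2)), ← pow_mul,
      show 2 * k + i + 1 = 2 * k + (i + 1) by ring, pow_add]
    push_cast
    ring
  rw [intervalIntegral.integral_congr (g := fun v => v ^ 0 * expT 7 (m * v ^ 2 / 2) -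
      m / 4 * (v ^ 4 * expT 6 (m * v ^ 2 / 2)) + m ^ 2 / 32 * v ^ 8) fun v _ => by ring,
    intervalIntegral.integral_add (((hq 7 0).intervalIntegrable _ _).sub
      (((hq 6 4).intervalIntegrable _ _).const_mul _))
      (Continuous.intervalIntegrable (by fun_prop) _ _),
    intervalIntegral.integral_sub ((hq 7 0).intervalIntegrable _ _)
      (((hq 6 4).intervalIntegrable _ _).const_mul _),
    intervalIntegral.integral_const_mul, intervalIntegral.integral_const_mul, key, key,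
    integral_pow_scaled]
  push_cast
  ring_nf

end Vale.Agent.P237.Petty.Cor.Low20
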