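import Vale.Agent.P237.Petty.Cor.Low20.Tail
import Vale.Agent.P237.Petty.Cor.Low20.Series

/-!
# P237: the cancelled cell on the boxes of the bulk in dimensions twenty to ninety nine

The square in the displacement is completed at both bounds of `1 / arc s`. The shadow is bounded
below by chords of a concave function for small `1 / r` and by a rational with a correction above.
-/

namespace Vale.Agent.P237.Petty.Cor.Low20

open Set
open Ident (half rate)
open Vale.Agent.P100.Bernstein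

variable {p : ℕ} {d : Rec} {b : Box}

section Analysis

theorem exp_cubic_le (x : ℝ) : 1 + x + x ^ 2 / 2 + x ^ 3 / 6 ≤ Real.exp x := by
  rcases le_total 0 x with hx | hx
  · refine le_trans (le_of_eq ?_) (Real.sum_le_exp_of_nonneg hx 4)
    simp [Finset.sum_range_succ, Nat.factorial]
  · have h := expT_even_le 2 (x := -x) (neg_nonneg.2 hx)
    rw [neg_neg] at h
    refine le_trans (le_of_eq ?_) h
    simp [expT, Finset.sum_range_succ, Nat.factorial]

/-- Three orders of `(exp (L e) - 1) / e`. -/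
theorem pow_dev_ge {m e L : ℝ} (hm : 0 < m) (he : m * e = 1) :
    L + e * L ^ 2 / 2 + e ^ 2 * L ^ 3 / 6 ≤ m * (Real.exp (L * e) - 1) := by
  have h := mul_le_mul_of_nonneg_left (exp_cubic_le (L * e)) hm.le
  linear_combination h + (-L - e * L ^ 2 / 2 - e ^ 2 * L ^ 3 / 6) * he

/-- The square of the logarithm from below. -/
theorem log_sq_ge {v : ℝ} (hv : 0 < v) :
    4 * (v - 1) ^ 2 / (v + 1) ^ 2 ≤ Real.log v ^ 2 := by
  have key : ∀ w : ℝ, 1 ≤ w → 4 * (w - 1) ^ 2 / (w + 1) ^ 2 ≤ Real.log w ^ 2 := fun w hw => by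
    have h := Real.le_log_one_add_of_nonneg (x := w - 1) (by linarith)
    rw [show (1 : ℝ) + (w - 1) = w by ring, show w - 1 + 2 = w + 1 by ring] at h
    refine le_trans (le_of_eq ?_) (pow_le_pow_left₀
      (div_nonneg (by linarith) (by linarith)) h 2)
    rw [div_pow]
    ring
  rcases le_total 1 v with h | h
  · exact key v h
  · have h1 := key v⁻¹ ((one_le_inv₀ hv).2 h)
    rw [Real.log_inv, neg_sq] at h1
    refine le_trans (le_of_eq ?_) h1
    field_simp
    ring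

/-- The shadow with a second order correction. -/
theorem dev_ge_pade {m e v P : ℝ} (hm : 0 < m) (he : m * e = 1) (hv : 0 < v)
    (hf : 0 ≤ 1 + e * Real.log v / 3)
    (hP : P ≤ 2 * v / (v + 1) ^ 2 * (1 + e * Real.log v / 3)) :
    -((2 * v + 1) / (2 * (v + 2)) - e * P) * ((v - 1) ^ 2 / v) ≤
      m * (v ^ e - 1) - (v - 1) := by
  have he0 : 0 < e := by
    rcases le_or_gt e 0 with h | h
    · nlinarith
    · exact h
  have h1 := pow_dev_ge (L := Real.log v) hm he
  rw [← Real.rpow_def_of_pos hv] at h1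
  have h2 : -((2 * v + 1) / (2 * (v + 2)) * ((v - 1) ^ 2 / v)) ≤ Real.log v - (v - 1) := by
    refine le_trans (le_of_eq ?_) (sub_le_sub_right (pade_le_log hv) (v - 1))
    field_simp
    ring
  have h3 := mul_le_mul_of_nonneg_right (log_sq_ge hv)
    (mul_nonneg (show 0 ≤ e / 2 by positivity) hf)
  have h4 := mul_le_mul_of_nonneg_left hP (show 0 ≤ e * ((v - 1) ^ 2 / v) by positivity)
  have e4 : e * ((v - 1) ^ 2 / v) * (2 * v / (v + 1) ^ 2 * (1 + e * Real.log v / 3)) =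
      4 * (v - 1) ^ 2 / (v + 1) ^ 2 * (e / 2 * (1 + e * Real.log v / 3)) := by
    field_simp
    ring
  linarith

/-- The same from `1` up to `X`. -/
theorem dev_ge_high {m e v X : ℝ} (hm : 0 < m) (he : m * e = 1) (hv : v ∈ Icc 1 X) :
    -((2 * v + 1) / (2 * (v + 2)) - e * (2 * X / (X + 1) ^ 2)) * ((v - 1) ^ 2 / v) ≤
      m * (v ^ e - 1) - (v - 1) := by
  have hv0 : 0 < v := lt_of_lt_of_le one_pos hv.1
  have he0 : 0 < e := by
    rcases le_or_gt e 0 with h | h
    · nlinarith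
    · exact h
  have hL : 0 ≤ e * Real.log v := mul_nonneg he0.le (Real.log_nonneg hv.1)
  refine dev_ge_pade hm he hv0 (by linarith) (le_trans ?_
    (le_mul_of_one_le_right (by positivity) (by linarith)))
  have hX : 1 ≤ X := hv.1.trans hv.2
  rw [div_le_div_iff₀ (by positivity) (by positivity)]
  have : 1 ≤ X * v := one_le_mul_of_one_le_of_one_le hX hv.1
  nlinarith [mul_nonneg (sub_nonneg.2 hv.2) (sub_nonneg.2 this)]

/-- The same on `[14 / 25, 1]`. -/
theorem dev_ge_low {m e v l : ℝ} (hm : 0 < m) (he : m * e = 1) (hv : v ∈ Icc (14 / 25 : ℝ) 1)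
    (hl : l ≤ Real.log (14 / 25)) (hf : 0 ≤ 1 + e * l / 3) :
    -((2 * v + 1) / (2 * (v + 2)) -
        e * (2 * (14 / 25) / (14 / 25 + 1) ^ 2 * (1 + e * l / 3))) * ((v - 1) ^ 2 / v) ≤
      m * (v ^ e - 1) - (v - 1) := by
  have hv0 : 0 < v := lt_of_lt_of_le (by norm_num) hv.1
  have he0 : 0 < e := by
    rcases le_or_gt e 0 with h | h
    · nlinarith
    · exact h
  have hL := mul_le_mul_of_nonneg_left (hl.trans (Real.log_le_log (by norm_num) hv.1)) he0.le
  refine dev_ge_pade hm he hv0 (by linarith) (mul_le_mul ?_ (by linarith) hf (by positivity))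
  rw [div_le_div_iff₀ (by positivity) (by positivity)]
  have : 14 / 25 * v ≤ 1 := by linarith [hv.2]
  nlinarith [mul_nonneg (sub_nonneg.2 hv.1) (sub_nonneg.2 this)]

/-- A chord below the concave shadow. -/
theorem dev_ge_chord {m e l t v A B : ℝ} (hm : 0 < m) (he : m * e = 1) (he1 : e ≤ 1) (hl : 0 ≤ l)
    (hlt : l < t) (hv : v ∈ Icc l t) (hA : A ≤ m * (l ^ e - 1) - (l - 1))
    (hB : B ≤ m * (t ^ e - 1) - (t - 1)) :
    (A * (t - v) + B * (v - l)) / (t - l) ≤ m * (v ^ e - 1) - (v - 1) := by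
  have he0 : 0 ≤ e := by
    rcases le_or_gt 0 e with h | h
    · exact h
    · nlinarith
  have hd : 0 < t - l := by linarith
  obtain ⟨θ, hθ⟩ : ∃ θ, θ = (v - l) / (t - l) := ⟨_, rfl⟩
  have h0 : 0 ≤ θ := hθ ▸ div_nonneg (by linarith [hv.1]) hd.le
  have h1 : θ ≤ 1 := hθ ▸ (div_le_one hd).2 (by linarith [hv.2])
  have hc := (Real.concaveOn_rpow he0 he1).2 (mem_Ici.2 hl) (mem_Ici.2 (hl.trans hlt.le))
    (sub_nonneg.2 h1) h0 (by ring)
  simp only [smul_eq_mul] at hc
  have ev' : (1 - θ) * l + θ * t = v := by rw [hθ]; field_simp; ring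
  rw [ev'] at hc
  have k := mul_le_mul_of_nonneg_left hc hm.le
  have kA := mul_le_mul_of_nonneg_left hA (sub_nonneg.2 h1)
  have kB := mul_le_mul_of_nonneg_left hB h0
  rw [show (A * (t - v) + B * (v - l)) / (t - l) = (1 - θ) * A + θ * B by
    rw [hθ]; field_simp; ring]
  linear_combination k + kA + kB - ev'

/-- The tests of the nodes. -/
theorem node_ok : nodes.all (fun k => decide (0 < k.1) && decide (k.2 ≤ 0) &&
    decide (1 / k.1 ≤ ∑ i ∈ Finset.range 24, (-k.2) ^ i / (i.factorial : ℚ))) = true := by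
  decide +kernel

theorem node_log {k : ℚ × ℚ} (hk : k ∈ nodes) :
    0 < (k.1 : ℝ) ∧ (k.2 : ℝ) ≤ Real.log k.1 := by
  have h := node_ok
  simp only [List.all_eq_true, Bool.and_eq_true, decide_eq_true_eq] at h
  obtain ⟨⟨c1, c2⟩, c3⟩ := h k hk
  have r1 : (0 : ℝ) < k.1 := by exact_mod_cast c1
  have r2 : (k.2 : ℝ) ≤ 0 := by exact_mod_cast c2
  have r3 := (Rat.cast_le (K := ℝ)).2 c3
  push_cast at r3
  refine ⟨r1, neg_le_neg_iff.1 ?_⟩
  rw [← Real.log_inv, Real.log_le_iff_le_exp (inv_pos.2 r1), ← one_div]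
  exact r3.trans (Real.sum_le_exp_of_nonneg (neg_nonneg.2 r2) 24)

/-- The value at a node. -/
theorem nodeVal_le {m e : ℝ} (hm : 0 < m) (he : m * e = 1) {k : ℚ × ℚ} (hk : k ∈ nodes)
    (x : List ℝ) (hx : x.getD 1 0 = e) :
    (nodeVal k).eval x ≤ m * ((k.1 : ℝ) ^ e - 1) - ((k.1 : ℝ) - 1) := by
  obtain ⟨h1, h2⟩ := node_log hk
  have he0 : 0 < e := by
    rcases le_or_gt e 0 with h | h
    · nlinarith
    · exact h
  have h3 := pow_dev_ge (L := (k.2 : ℝ)) hm he
  have h4 := mul_le_mul_of_nonneg_left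
    (sub_le_sub_right (Real.exp_le_exp.2 (mul_le_mul_of_nonneg_right h2 he0.le)) 1) hm.le
  rw [← Real.rpow_def_of_pos h1] at h4
  simp only [nodeVal, xE, Expr.eval_add, Expr.eval_mul, Expr.eval_pow, Expr.eval_var, eval_cQ, hx]
  push_cast
  linarith

end Analysis

section Boxes

theorem mem_ivQ {l h : ℚ} {x : ℝ} (hx : x ∈ Icc (l : ℝ) h) :
    ((ivQ l h).lo : ℝ) ≤ (ivQ l h).den * x ∧ ((ivQ l h).den : ℝ) * x ≤ (ivQ l h).hi := by
  have key : ∀ (q : ℚ) (L : ℕ), q.den ∣ L →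
      ((q.num * ((L / q.den : ℕ) : ℤ) : ℤ) : ℝ) = (L : ℝ) * q := by
    intro q L hL
    have hq : (q.den : ℝ) ≠ 0 := Nat.cast_ne_zero.2 q.den_nz
    rw [Int.cast_mul, Int.cast_natCast, Nat.cast_div hL hq, Rat.cast_def]
    field_simp
  simp only [ivQ]
  rw [key l _ (Nat.dvd_lcm_left _ _), key h _ (Nat.dvd_lcm_right _ _)]
  exact ⟨mul_le_mul_of_nonneg_left hx.1 (Nat.cast_nonneg _),
    mul_le_mul_of_nonneg_left hx.2 (Nat.cast_nonneg _)⟩

theorem inRng {y e : ℝ} (hy : y ∈ Icc (b.y0 : ℝ) b.y1) (he : e ∈ Icc (d.el : ℝ) b.eh) :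
    InBox (b.rng d) [y, e] :=
  ⟨(mem_ivQ hy).1, (mem_ivQ hy).2, (mem_ivQ he).1, (mem_ivQ he).2, trivial⟩

theorem inRngV {y e v : ℝ} {l h : ℚ} (hy : y ∈ Icc (b.y0 : ℝ) b.y1)
    (he : e ∈ Icc (d.el : ℝ) b.eh) (hv : v ∈ Icc (l : ℝ) h) : InBox (b.rngV d l h) [y, e, v] :=
  ⟨(mem_ivQ hy).1, (mem_ivQ hy).2, (mem_ivQ he).1, (mem_ivQ he).2, (mem_ivQ hv).1,
    (mem_ivQ hv).2, trivial⟩

/-- No knot lies inside a box. -/
def okKnots (d : Rec) (b : Box) : Bool :=
  d.kn.all fun k => decide (k.1 ≤ b.y0) || decide (b.y1 ≤ k.1)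

theorem jumps_eval {y : ℝ} (x : List ℝ) (hy : y ∈ Icc (b.y0 : ℝ) b.y1) :
    ∀ l : List (ℚ × ℚ), (∀ k ∈ l, k.1 ≤ b.y0 ∨ b.y1 ≤ k.1) →
      (jumps (l.filter fun k => decide (k.1 ≤ b.y0))).eval (y :: x) = jumpR l y ∧
        (jumpsD (l.filter fun k => decide (k.1 ≤ b.y0))).eval (y :: x) = jumpD l y
  | [], _ => by simp [jumps, jumpsD, jumpR, jumpD]
  | k :: l, h => by
    obtain ⟨h1, h2⟩ := jumps_eval x hy l fun q hq => h q (List.mem_cons_of_mem _ hq)
    by_cases hk : k.1 ≤ b.y0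
    · have h0 : max (y - (k.1 : ℝ)) 0 = y - k.1 :=
        max_eq_left (sub_nonneg.2 (le_trans (by exact_mod_cast hk) hy.1))
      simp [hk, jumps, jumpsD, jumpR, jumpD, h0, h1, h2, xY, eval_cQ]
    · have hk1 : b.y1 ≤ k.1 := (h k (by simp)).resolve_left hk
      have h0 : max (y - (k.1 : ℝ)) 0 = 0 :=
        max_eq_right (sub_nonpos.2 (hy.2.trans (by exact_mod_cast hk1)))
      simp [hk, jumpR, jumpD, h0, h1, h2]

/-- Below the multiplier. -/
noncomputable def nLoR (d : Rec) (e : ℝ) : ℝ := (d.N0 : ℝ) + d.N1 * e - polyR d.muUp e / 2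

/-- Below the coefficient of the square of the displacement. -/
noncomputable def bDR (d : Rec) (y e : ℝ) : ℝ :=
  (d.a : ℝ) * (y + y * e + 1) -
    (d.g : ℝ) ^ 2 * (((d.N0 : ℝ) + d.N1 * e - polyR d.muLo e / 2) * (y + 3 * (y * e)))

/-- The quadratic in the displacement `δ` with a share `h` and bounds `M`, `sh`. -/
noncomputable def quadQ (d : Rec) (y e v δ h R M sh w : ℝ) : ℝ :=
  R + e * nnR d y e * (v - 1) + 2 * (1 + (d.g : ℝ)) * nLoR d e * (1 - y * e) * ((v - 1) ^ 2 / v) +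
      ggR d e * w * M + sh +
    (y / (1 - y * e) * (sigR d y e w ((d.N0 : ℝ) + d.N1 * e) - h) -
      (v - 1) * (2 * (d.a : ℝ) * (1 - y * e) +
        2 * ((d.g : ℝ) ^ 2 - 1) * (nLoR d e * (y * e)) / v)) * δ +
    (bDR d y e + 2 * (d.g : ℝ) * (1 + (d.g : ℝ)) * (nLoR d e * (y * e)) / v) * δ ^ 2

theorem quadQ_between {y e v δ h R M sh lo hi w : ℝ} (hw : w ∈ Icc lo hi)
    (h0 : 0 ≤ quadQ d y e v δ h R M sh lo) (h1 : 0 ≤ quadQ d y e v δ h R M sh hi) :
    0 ≤ quadQ d y e v δ h R M sh w := by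
  have e' : ∀ u, quadQ d y e v δ h R M sh u = quadQ d y e v δ h R M sh 0 +
      (ggR d e * M + y / (1 - y * e) * ((1 - e) * ggR d e) * δ) * u := fun u => by
    simp only [quadQ, sigR]
    ring
  rw [e'] at h0 h1 ⊢
  exact Band20.affine_nonneg hw h0 h1

/-- The values on a box of what enters the claims. -/
theorem eval_parts {y e : ℝ} (hk : okKnots d b = true) (hy : y ∈ Icc (b.y0 : ℝ) b.y1)
    (w v : Expr) (x : List ℝ) :
    (linE d b w v).eval (y :: e :: x) =
        y * (sigR d y e (w.eval (y :: e :: x)) ((d.N0 : ℝ) + d.N1 * e) -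
            (hE d b).eval [y, e]) * v.eval (y :: e :: x) -
          (1 - y * e) * (v.eval (y :: e :: x) - 1) *
            (2 * (d.a : ℝ) * (1 - y * e) * v.eval (y :: e :: x) +
              2 * ((d.g : ℝ) ^ 2 - 1) * (nLoR d e * (y * e))) ∧
      (freeE d b v).eval (y :: e :: x) =
        v.eval (y :: e :: x) *
            ((remE d b).eval [y, e] + e * nnR d y e * (v.eval (y :: e :: x) - 1)) +
          2 * (1 + (d.g : ℝ)) * nLoR d e * (1 - y * e) * (v.eval (y :: e :: x) - 1) ^ 2 ∧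
      (bDE d).eval (y :: e :: x) = bDR d y e ∧
      (kZE d).eval (y :: e :: x) = 2 * (d.g : ℝ) * (1 + (d.g : ℝ)) * (nLoR d e * (y * e)) ∧
      (hE d b).eval (y :: e :: x) = (hE d b).eval [y, e] ∧
      (topE b).eval (y :: e :: x) = (topE b).eval [y, e] ∧
      (gE d).eval (y :: e :: x) = ggR d e ∧
      (nLoE d).eval (y :: e :: x) = nLoR d e ∧
      (eUpE d).eval (y :: e :: x) = 1 + (d.kapE : ℝ) * e := by
  simp only [okKnots, List.all_eq_true, Bool.or_eq_true, decide_eq_true_eq] at hk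
  have pl : ∀ z : List ℝ, (potL d b).eval (y :: e :: z) = nnR d y e := fun z => by
    simp only [potL, potL0, active, nnR, xY, xE, Expr.eval_add, Expr.eval_mul, Expr.eval_pow,
      Expr.eval_var, eval_cQ, List.getD_cons_zero, List.getD_cons_succ,
      (jumps_eval (e :: z) hy d.kn hk).1]
  have pd : ∀ z : List ℝ, (potLD d b).eval (y :: e :: z) = ndR d y e := fun z => by
    simp only [potLD, active, ndR, xY, xE, Expr.eval_add, Expr.eval_mul, Expr.eval_var, eval_cQ,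
      List.getD_cons_zero, List.getD_cons_succ, (jumps_eval (e :: z) hy d.kn hk).2]
    push_cast
    ring
  have eD : ∀ (u : Expr) (z : List ℝ), (eDE d b u).eval (y :: e :: z) =
      sigR d y e (u.eval (y :: e :: z)) ((d.N0 : ℝ) + d.N1 * e) := fun u z => by
    simp only [eDE, sigR, gE, nE, ggR, xC, xZ, xY, xE, Expr.eval_add, Expr.eval_sub, Expr.eval_mul,
      Expr.eval_var, Expr.eval_ofNat, eval_cQ, List.getD_cons_zero, List.getD_cons_succ, pd z, pl z,
      Nat.cast_one, Nat.cast_ofNat]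
  have rM : (remE d b).eval (y :: e :: x) = (remE d b).eval [y, e] := by
    simp only [remE, constE, Box.meanZero, Box.cubE, Box.cubD, Box.tau, xC, xZ, xY, xE,
      Expr.eval_add, Expr.eval_sub, Expr.eval_mul, Expr.eval_pow, Expr.eval_var, Expr.eval_ofNat,
      eval_cQ, eval_horner, eval_hornerD, List.getD_cons_zero, List.getD_cons_succ]
  have hH : (hE d b).eval (y :: e :: x) = (hE d b).eval [y, e] := by
    cases hc : b.chi <;>
      simp only [hE, hc, cond_true, cond_false, Box.tau, xZ, xY, xE, Expr.eval_add, Expr.eval_sub,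
        Expr.eval_mul, Expr.eval_pow, Expr.eval_var, Expr.eval_ofNat, eval_cQ, eD, eval_horner,
        List.getD_cons_zero, List.getD_cons_succ]
  have nl : ∀ z : List ℝ, (nLoE d).eval (y :: e :: z) = nLoR d e := fun z => by
    simp only [nLoE, nE, nLoR, xE, Expr.eval_add, Expr.eval_sub, Expr.eval_mul, Expr.eval_var,
      Expr.eval_frac, eval_cQ, eval_horner, List.getD_cons_zero, List.getD_cons_succ]
    push_cast
    ring
  refine ⟨?_, ?_, ?_, ?_, hH, ?_, ?_, nl x, ?_⟩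
  · simp only [linE, yZE, xC, xZ, xY, xE, Expr.eval_add, Expr.eval_sub, Expr.eval_mul,
      Expr.eval_var, Expr.eval_ofNat, eval_cQ, eD, hH, nl, List.getD_cons_zero,
      List.getD_cons_succ]
    push_cast
    ring
  · simp only [freeE, aUE, xC, xZ, xY, xE, Expr.eval_add, Expr.eval_sub, Expr.eval_mul,
      Expr.eval_pow, Expr.eval_var, Expr.eval_ofNat, eval_cQ, pl, rM, nl, List.getD_cons_zero,
      List.getD_cons_succ]
    push_cast
    ring
  · simp only [bDE, bDR, nHiE, nE, xZ, xY, xE, Expr.eval_add, Expr.eval_sub, Expr.eval_mul,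
      Expr.eval_var, Expr.eval_ofNat, Expr.eval_frac, eval_cQ, eval_horner, List.getD_cons_zero,
      List.getD_cons_succ]
    push_cast
    ring
  · simp only [kZE, xZ, xY, xE, Expr.eval_mul, Expr.eval_var, eval_cQ, nl, List.getD_cons_zero,
      List.getD_cons_succ]
    push_cast
    ring
  · simp only [topE, Box.tau, xY, xE, Expr.eval_add, Expr.eval_sub, Expr.eval_mul, Expr.eval_pow,
      Expr.eval_var, eval_cQ, List.getD_cons_zero, List.getD_cons_succ]
  · simp only [gE, ggR, xE, Expr.eval_add, Expr.eval_mul, Expr.eval_var, eval_cQ,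
      List.getD_cons_zero, List.getD_cons_succ]
  · simp only [eUpE, xE, Expr.eval_add, Expr.eval_mul, Expr.eval_var, Expr.eval_ofNat, eval_cQ,
      List.getD_cons_zero, List.getD_cons_succ, Nat.cast_one]

end Boxes

/-- The kernel checks of a box, as a property. -/
def BoxSound (d : Rec) (b : Box) : Prop :=
  ∀ q ∈ boxClaims d b, ∀ x : List ℝ, x.getD 0 0 * x.getD 1 0 ≤ (d.Z1 : ℝ) → InBox q.2 x →
    0 ≤ q.1.eval x

/-- The rational conditions of a record in the bulk. -/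
def okPoint (d : Rec) : Bool :=
  decide (0 < d.g) && decide ((d.g - 1) ^ 2 * d.Z1 ≤ 4 * d.g * (1 - d.Z1)) && decide (0 < d.a) &&
    decide (1 ≤ d.EA) && decide (0 ≤ d.e1)

/-- The hypotheses at an order. -/
structure OrderOk (d : Rec) (p : ℕ) : Prop where
  tail : TailOk d p
  point : okPoint d = true
  lo : polyR d.muLo (ev p) ≤ Ident.muMin p
  up : Ident.muMin p ≤ polyR d.muUp (ev p)

/-- The cancelled cell in `v = 1 / r` and the displacement. -/
theorem cell_eq {ell s t a r q : ℝ} (h : FlatState p ell s t a r q) :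
    cellR p d ell s t a r = ell * wS p (arc s) +
      (ev p * nnR d (yv p s) (ev p) * (1 / r - 1) +
        (gamM p d * Ident.b0 p * (1 / a - 1 / arc s) -
          ggR d (ev p) * (1 / arc s) * (1 / r - 1)) +
        2 * (1 + (d.g : ℝ)) * nuM p d * (1 - yv p s * ev p) * ((1 / r - 1) ^ 2 / (1 / r)) +
        (yv p s / (1 - yv p s * ev p) *
            sigR d (yv p s) (ev p) (1 / arc s) ((d.N0 : ℝ) + d.N1 * ev p) -
          (1 / r - 1) * (2 * (d.a : ℝ) * (1 - yv p s * ev p) +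
            2 * ((d.g : ℝ) ^ 2 - 1) * (nuM p d * (yv p s * ev p)) / (1 / r))) * ((t - s) / s) +
        ((d.a : ℝ) * (yv p s + yv p s * ev p + 1) -
            (d.g : ℝ) ^ 2 * (nuM p d * (yv p s + 3 * (yv p s * ev p))) +
          2 * (d.g : ℝ) * (1 + (d.g : ℝ)) * (nuM p d * (yv p s * ev p)) / (1 / r)) *
            ((t - s) / s) ^ 2) := by
  have hs := h.state.s_mem
  have hr := h.state.rate_pos
  have hs0 := hs.1.ne'
  have hz : (1 - s ^ 2) ≠ 0 := by nlinarith [hs.1, hs.2]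
  have hD := cancelD_eq (p := p) (d := d) hs
  rw [cellR, Top.cancelExpr_eq _ _ _ _ _ _ _ _ _ _ _ hr.ne', Band20.testDef_eq _ _ _ hr.ne',
    show potB' d s - potRate p s * potB d s = (d.a : ℝ) * ((p : ℝ) + 2 + 1 / s ^ 2) from
      (polePot_null p (d.a : ℝ) hs).2]
  rw [show cancelD p (nuM p d) (potK p d) (potK' p d) s * (t - s) =
      cancelD p (nuM p d) (potK p d) (potK' p d) s * s * ((t - s) / s) by field_simp, hD]
  generalize sigR d (yv p s) (ev p) (1 / arc s) ((d.N0 : ℝ) + d.N1 * ev p) = σ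
  generalize gamM p d * Ident.b0 p * (1 / a - 1 / arc s) = S
  simp only [potB, potK, yv_ev]
  generalize nnR d (yv p s) (ev p) = N
  generalize nuM p d = V
  generalize ggR d (ev p) = G
  rw [yv, ev]
  field_simp
  ring

/-- The cell above the quadratic with the bounds of the multiplier and of the shadow. -/
theorem cell_ge (O : OrderOk d p) {ell s t a r q : ℝ} (h : FlatState p ell s t a r q)
    (hz : s ^ 2 ≤ (d.Z1 : ℝ)) {M : ℝ}
    (hM : M ≤ ((p : ℝ) + 1) * ((1 / r) ^ ev p - 1) - (1 / r - 1)) (hh : ℝ) :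
    ell * wS p (arc s) +
        (quadQ d (yv p s) (ev p) (1 / r) ((t - s) / s) hh 0 M 0 (1 / arc s) +
          yv p s / (1 - yv p s * ev p) * hh * ((t - s) / s)) ≤
      cellR p d ell s t a r := by
  have hs := h.state.s_mem
  have hv : 0 < 1 / r := one_div_pos.2 h.state.rate_pos
  have hc := h.state.arc_pos'
  have ok := O.point
  simp only [okPoint, Bool.and_eq_true, decide_eq_true_eq] at ok
  have hg : (0 : ℝ) < d.g := by exact_mod_cast ok.1.1.1.1
  have hgz := (Rat.cast_le (K := ℝ)).2 ok.1.1.1.2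
  push_cast at hgz
  have hgam : 0 ≤ gamM p d := by
    have := Ident.b0_pos p
    have := O.tail.gg_pos
    rw [gamM]
    positivity
  have hS := Band20.shadow_ge_line (m0 := M + (1 / r - 1)) h hgam
    (by rw [show (1 : ℝ) / ((p : ℝ) + 1) = ev p from rfl]; linarith)
  rw [show gamM p d * Ident.b0 p / ((p : ℝ) + 1) = ggR d (ev p) by
    rw [gamM]; have := (Ident.b0_pos p).ne'; field_simp] at hS
  have hye := yv_ev p s
  have hlo : nLoR d (ev p) ≤ nuM p d := by rw [nLoR, nuM]; linarith [O.up]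
  have hhi : nuM p d ≤ (d.N0 : ℝ) + d.N1 * ev p - polyR d.muLo (ev p) / 2 := by
    rw [nuM]; linarith [O.lo]
  rw [cell_eq h, quadQ, bDR, hye]
  obtain ⟨v, hvd⟩ : ∃ v, 1 / r = v := ⟨_, rfl⟩
  obtain ⟨δ, hδd⟩ : ∃ δ, (t - s) / s = δ := ⟨_, rfl⟩
  rw [hvd] at hv hS ⊢
  rw [hδd]
  have hz0 : 0 < s ^ 2 := pow_pos hs.1 2
  have hP : 0 ≤ (1 - s ^ 2) * (v - 1) ^ 2 - ((d.g : ℝ) - 1) * s ^ 2 * ((v - 1) * δ) +
      (d.g : ℝ) * s ^ 2 * δ ^ 2 := by
    refine nonneg_of_mul_nonneg_right ?_ (show 0 < 4 * (d.g : ℝ) * s ^ 2 by positivity)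
    have h1 : ((d.g : ℝ) - 1) ^ 2 * s ^ 2 ≤ 4 * d.g * (1 - s ^ 2) := by
      linarith [mul_le_mul_of_nonneg_left hz (sq_nonneg ((d.g : ℝ) - 1)),
        mul_le_mul_of_nonneg_left hz hg.le]
    nlinarith [sq_nonneg (2 * (d.g : ℝ) * s ^ 2 * δ - ((d.g : ℝ) - 1) * s ^ 2 * (v - 1)),
      mul_nonneg (mul_nonneg hz0.le (sq_nonneg (v - 1))) (sub_nonneg.2 h1)]
  have k1 : 0 ≤ (nuM p d - nLoR d (ev p)) * (2 * (1 + (d.g : ℝ))) / v *
      ((1 - s ^ 2) * (v - 1) ^ 2 - ((d.g : ℝ) - 1) * s ^ 2 * ((v - 1) * δ) +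
        (d.g : ℝ) * s ^ 2 * δ ^ 2) :=
    mul_nonneg (div_nonneg (mul_nonneg (sub_nonneg.2 hlo) (by linarith)) hv.le) hP
  have hy0 : 0 ≤ yv p s + 3 * s ^ 2 := by unfold yv; positivity
  have k2 : 0 ≤ (d.g : ℝ) ^ 2 *
      (((d.N0 : ℝ) + d.N1 * ev p - polyR d.muLo (ev p) / 2 - nuM p d) * (yv p s + 3 * s ^ 2)) *
        δ ^ 2 :=
    mul_nonneg (mul_nonneg (sq_nonneg _) (mul_nonneg (sub_nonneg.2 hhi) hy0)) (sq_nonneg _)
  rw [div_eq_mul_one_div (ggR d (ev p))] at hS
  linear_combination hS + k1 + k2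

/-- The discriminant gives the quadratic. -/
theorem quad_of_disc {y e v δ H R M sh w : ℝ} (hv : 0 < v) (hC : 0 < 1 - y * e)
    (hB : 0 < bDR d y e * v + 2 * (d.g : ℝ) * (1 + (d.g : ℝ)) * (nLoR d e * (y * e)))
    (hq : 0 ≤ 4 * (bDR d y e * v + 2 * (d.g : ℝ) * (1 + (d.g : ℝ)) * (nLoR d e * (y * e))) *
          ((1 - y * e) * (1 - y * e)) *
            (v * (R + e * nnR d y e * (v - 1) +
              2 * (1 + (d.g : ℝ)) * nLoR d e * (1 - y * e) * ((v - 1) ^ 2 / v) +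
                ggR d e * w * M + sh)) -
        (y * (sigR d y e w ((d.N0 : ℝ) + d.N1 * e) - H) * v -
            (1 - y * e) * (v - 1) * (2 * (d.a : ℝ) * (1 - y * e) * v +
              2 * ((d.g : ℝ) ^ 2 - 1) * (nLoR d e * (y * e)))) *
          (y * (sigR d y e w ((d.N0 : ℝ) + d.N1 * e) - H) * v -
            (1 - y * e) * (v - 1) * (2 * (d.a : ℝ) * (1 - y * e) * v +
              2 * ((d.g : ℝ) ^ 2 - 1) * (nLoR d e * (y * e))))) :
    0 ≤ quadQ d y e v δ H R M sh w :=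
  Band20.disc hv hC hB (by field_simp) hq

/-- A claim with a chord gives the quadratic. -/
theorem quad_of_chord {y e v δ : ℝ} (hk : okKnots d b = true)
    (hy : y ∈ Icc (b.y0 : ℝ) b.y1) (hv : 0 < v) (hC : 0 < 1 - y * e)
    (hB : 0 < bDR d y e * v + 2 * (d.g : ℝ) * (1 + (d.g : ℝ)) * (nLoR d e * (y * e)))
    (W sc sl st : Expr) (l t : ℚ) {c A B : ℝ} (hsc : sc.eval [y, e, v] = c) (hc : 0 < c)
    (hA : sl.eval [y, e, v] = c * A) (hB' : st.eval [y, e, v] = c * B)
    (h : 0 ≤ (chordClaim d b W sc l t sl st).eval [y, e, v]) :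
    0 ≤ quadQ d y e v δ ((hE d b).eval [y, e]) ((remE d b).eval [y, e])
      ((A * ((t : ℝ) - v) + B * (v - (l : ℝ))) / ((t : ℝ) - (l : ℝ))) 0 (W.eval [y, e, v]) := by
  obtain ⟨eL, eF, eB, eK, -, -, eG, -, -⟩ := eval_parts (d := d) (e := e) hk hy W xV [v]
  have hx : xV.eval [y, e, v] = v := by simp [xV]
  refine quad_of_disc hv hC hB (nonneg_of_mul_nonneg_right (le_of_le_of_eq h ?_) hc)
  simp only [chordClaim, Expr.eval_sub, Expr.eval_add, Expr.eval_mul, Expr.eval_pow, eval_cQ]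
  rw [eL, eF, eB, eK, eG, hsc, hA, hB', hx]
  simp only [xC, xZ, xY, xE, Expr.eval_sub, Expr.eval_mul, Expr.eval_var, Expr.eval_ofNat,
    List.getD_cons_zero, List.getD_cons_succ]
  push_cast
  field_simp
  ring

/-- A claim with the rational bound gives the quadratic. -/
theorem quad_of_pade {y e x v δ : ℝ} (hk : okKnots d b = true)
    (hy : y ∈ Icc (b.y0 : ℝ) b.y1) (hv : 0 < v) (hC : 0 < 1 - y * e)
    (hB : 0 < bDR d y e * v + 2 * (d.g : ℝ) * (1 + (d.g : ℝ)) * (nLoR d e * (y * e)))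
    (W V q1 big pp : Expr) {Q P sh : ℝ} (hV : V.eval [y, e, x] = v)
    (hQ : q1.eval [y, e, x] = Q) (hQ0 : 0 < Q) (hP : pp.eval [y, e, x] = P)
    (hbig : big.eval [y, e, x] = 2 * (v + 2) * Q * v * sh)
    (h : 0 ≤ (padeClaim d b W V q1 big pp).eval [y, e, x]) :
    0 ≤ quadQ d y e v δ ((hE d b).eval [y, e]) ((remE d b).eval [y, e])
      (-((2 * v + 1) / (2 * (v + 2)) - e * P) * ((v - 1) ^ 2 / v)) sh (W.eval [y, e, x]) := by
  obtain ⟨eL, eF, eB, eK, -, -, eG, -, -⟩ := eval_parts (d := d) (e := e) hk hy W V [x]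
  refine quad_of_disc hv hC hB (nonneg_of_mul_nonneg_right (le_of_le_of_eq h ?_)
    (show 0 < 2 * (v + 2) * Q by positivity))
  simp only [padeClaim, Expr.eval_sub, Expr.eval_add, Expr.eval_mul, Expr.eval_pow]
  rw [eL, eF, eB, eK, eG, hV, hQ, hP, hbig]
  simp only [xC, xZ, xY, xE, Expr.eval_sub, Expr.eval_mul, Expr.eval_var, Expr.eval_ofNat,
    List.getD_cons_zero, List.getD_cons_succ]
  push_cast
  field_simp
  ring

/-- The share of the displacement costs at most the part along the value. -/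
theorem share_ge {ell s t a r q e1 H Mv : ℝ} (h : FlatState p ell s t a r q) (h0 : 0 ≤ ell)
    (h1 : Real.exp ell - 1 ≤ ell * e1) (hH : 0 ≤ H)
    (hM : e1 * H * ((1 + 2 * ev p) * yv p s + yv p s * ev p + 2) ≤
      Mv * ((1 + 2 * ev p) * ((1 + 2 * ev p) * yv p s + 3))) :
    -(ell * Mv) ≤ yv p s / (1 - yv p s * ev p) * H * ((t - s) / s) := by
  have hs := h.state.s_mem
  have hye := yv_ev p s
  have hz : 0 < 1 - s ^ 2 := by nlinarith [hs.1, hs.2]
  have hy0 : 0 < yv p s := by rw [yv]; have := hs.1; positivity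
  have he0 : 0 < ev p := by rw [ev]; positivity
  have hme : ((p : ℝ) + 1) * ev p = 1 := by rw [ev]; field_simp
  obtain ⟨y, hyd⟩ : ∃ y, yv p s = y := ⟨_, rfl⟩
  obtain ⟨e, hed⟩ : ∃ e, ev p = e := ⟨_, rfl⟩
  rw [hyd, hed] at hM hye ⊢
  rw [hyd] at hy0
  rw [hed] at he0 hme
  have hp3 : ((p : ℝ) + 3) * s ^ 2 = (1 + 2 * e) * y := by
    rw [← hye]; linear_combination y * hme
  have hs0 := hs.1.ne'
  have h2 := mul_le_mul_of_nonneg_left (Band20.box_sharp h h0 h1)
    (show 0 ≤ y / (1 - y * e) * H / s by rw [hye]; have := hs.1; positivity)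
  have e2 : y / (1 - y * e) * H / s * (ell * e1 *
      ((1 - s ^ 2) * ((((p : ℝ) + 4) * s ^ 2 + 2) /
        (((p : ℝ) + 3) * s * (((p : ℝ) + 3) * s ^ 2 + 3))))) =
      ell * (e1 * H * ((1 + 2 * e) * y + y * e + 2) /
        ((1 + 2 * e) * ((1 + 2 * e) * y + 3))) := by
    rw [show ((p : ℝ) + 4) * s ^ 2 = (1 + 2 * e) * y + y * e by
      rw [← hye]; linear_combination y * hme, hp3,
      show ((p : ℝ) + 3) * s * ((1 + 2 * e) * y + 3) =
        ((1 + 2 * e) * y) * ((1 + 2 * e) * y + 3) / s by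
        rw [← hp3]; field_simp, hye]
    field_simp
  rw [e2] at h2
  have h4 := h2.trans (mul_le_mul_of_nonneg_left ((div_le_iff₀ (by positivity)).2 hM) h0)
  rw [show y / (1 - y * e) * H * ((t - s) / s) =
    -(y / (1 - y * e) * H / s * (s - t)) by field_simp; ring]
  linarith

/-- Beyond the exponential the share of the displacement gains. -/
theorem gain_ge {ell s t a r q U H : ℝ} (h : FlatState p ell s t a r q) (hH : 0 ≤ H)
    (hv : Real.exp ell < 1 / r) (hU : Real.exp ell ≤ U) :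
    yv p s * H * (1 / r - U) / ((1 + 2 * ev p) * yv p s + 1) ≤
      yv p s / (1 - yv p s * ev p) * H * ((t - s) / s) := by
  have hs := h.state.s_mem
  have hz : 0 < 1 - s ^ 2 := by nlinarith [hs.1, hs.2]
  have hy0 : 0 < yv p s := by rw [yv]; have := hs.1; positivity
  have he0 : 0 < ev p := by rw [ev]; positivity
  have hg := Band20.gain_high h hv
  have hp3 : ((p : ℝ) + 3) * s ^ 2 = (1 + 2 * ev p) * yv p s := by
    rw [yv, ev]; field_simp; ring
  rw [hp3, ← yv_ev p s] at hg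
  have hC : 0 < 1 - yv p s * ev p := by rw [yv_ev]; exact hz
  refine le_trans ?_ (mul_le_mul_of_nonneg_left hg (by positivity))
  rw [show yv p s / (1 - yv p s * ev p) * H * ((1 / r - Real.exp ell) *
      ((1 - yv p s * ev p) / ((1 + 2 * ev p) * yv p s + 1))) =
    yv p s * H * (1 / r - Real.exp ell) / ((1 + 2 * ev p) * yv p s + 1) by field_simp]
  gcongr

/-- The signs on a box and what follows. -/
theorem box_signs (O : OrderOk d p) (hk : okKnots d b = true) (hb : BoxSound d b) {s : ℝ}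
    (hs : s ∈ Ioo (0 : ℝ) 1) (hz : s ^ 2 ≤ (d.Z1 : ℝ)) (hy : yv p s ∈ Icc (b.y0 : ℝ) b.y1)
    (he : ev p ∈ Icc (d.el : ℝ) b.eh) :
    0 ≤ (hE d b).eval [yv p s, ev p] ∧ 0 ≤ (massE d b).eval [yv p s, ev p] ∧
      (d.e1 : ℝ) * (hE d b).eval [yv p s, ev p] *
          ((1 + 2 * ev p) * yv p s + yv p s * ev p + 2) ≤
        (massE d b).eval [yv p s, ev p] * ((1 + 2 * ev p) * ((1 + 2 * ev p) * yv p s + 3)) ∧
      1 / arc s ∈ Icc (polyR b.wl (yv p s * ev p)) (polyR b.wu (yv p s * ev p)) ∧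
      (d.EA : ℝ) ≤ (topE b).eval [yv p s, ev p] ∧ (topE b).eval [yv p s, ev p] ≤ (b.tmax : ℝ) ∧
      0 < bDR d (yv p s) (ev p) ∧ 0 ≤ nLoR d (ev p) := by
  have hc : 0 < arc s := arc_pos ⟨by linarith [hs.1], hs.2⟩
  have hc2 : arc s ^ 2 = 1 - s ^ 2 := Real.sq_sqrt (by nlinarith [hs.1, hs.2])
  have ok := O.point
  simp only [okPoint, Bool.and_eq_true, decide_eq_true_eq] at ok
  have ha : (0 : ℝ) < d.a := by exact_mod_cast ok.1.1.2
  have he1' : (0 : ℝ) ≤ d.e1 := by exact_mod_cast ok.2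
  have hgap' := O.tail.gap
  rw [nuTop] at hgap'
  push_cast at hgap'
  rw [eQ_cast, ← polyR_cast, eQ_cast] at hgap'
  have hye := yv_ev p s
  have hy0 : 0 ≤ yv p s := by rw [yv]; positivity
  have he0 : 0 < ev p := by rw [ev]; positivity
  have hme : ((p : ℝ) + 1) * ev p = 1 := by rw [ev]; field_simp
  obtain ⟨y, hyd⟩ : ∃ y, yv p s = y := ⟨_, rfl⟩
  obtain ⟨e, hed⟩ : ∃ e, ev p = e := ⟨_, rfl⟩
  rw [hyd, hed] at hye ⊢
  rw [hed] at hgap' he he0 hme
  rw [hyd] at hy hy0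
  have sgn : ∀ q : Expr, (q, b.rng d) ∈ signClaims d b → 0 ≤ q.eval [y, e] := fun q hq =>
    hb (q, b.rng d) (List.mem_append_left _ (List.mem_append_left _ hq)) [y, e]
      (by simpa using hye.trans_le hz) (inRng hy he)
  obtain ⟨-, -, -, -, -, -, -, eN, -⟩ :=
    eval_parts (d := d) (b := b) (e := e) hk hy 0 0 ([] : List ℝ)
  have hh : 0 ≤ (hE d b).eval [y, e] := sgn _ (by simp [signClaims])
  have hn : 0 ≤ nLoR d e := eN ▸ sgn _ (by simp [signClaims])
  have hl0 := sgn (horner xZ b.wl) (by simp [signClaims])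
  have hl1 := sgn (1 - horner xZ b.wl ^ 2 * xC) (by simp [signClaims])
  have hu0 := sgn (horner xZ b.wu) (by simp [signClaims])
  have hu1 := sgn (horner xZ b.wu ^ 2 * xC - 1) (by simp [signClaims])
  have hT0 := sgn (topE b - cQ d.EA) (by simp [signClaims])
  have hT1 := sgn (cQ b.tmax - topE b) (by simp [signClaims])
  have hMs := sgn (massE d b * (1 + 2 * xE) * ((1 + 2 * xE) * xY + 3) -
      cQ d.e1 * hE d b * ((1 + 2 * xE) * xY + xZ + 2)) (by simp [signClaims])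
  simp only [xC, xZ, xY, xE, Expr.eval_sub, Expr.eval_add, Expr.eval_mul, Expr.eval_pow,
    Expr.eval_var, Expr.eval_ofNat, eval_cQ, eval_horner, List.getD_cons_zero,
    List.getD_cons_succ, Nat.cast_one, Nat.cast_ofNat] at hl0 hl1 hu0 hu1 hT0 hT1 hMs
  refine ⟨hh, ?_, by linarith, ⟨?_, ?_⟩, by linarith, by linarith, ?_, hn⟩
  · refine nonneg_of_mul_nonneg_left (b := (1 + 2 * e) * ((1 + 2 * e) * y + 3)) ?_ (by positivity)
    have : 0 ≤ (d.e1 : ℝ) * (hE d b).eval [y, e] * ((1 + 2 * e) * y + y * e + 2) := by positivity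
    linarith
  · rw [le_div_iff₀ hc]
    refine (pow_le_pow_iff_left₀ (mul_nonneg hl0 hc.le) zero_le_one two_ne_zero).1 ?_
    rw [mul_pow, hc2, one_pow, ← hye]
    linarith
  · rw [div_le_iff₀ hc]
    refine (pow_le_pow_iff_left₀ zero_le_one (mul_nonneg hu0 hc.le) two_ne_zero).1 ?_
    rw [mul_pow, hc2, one_pow, ← hye]
    linarith
  · have h2 := mul_le_mul_of_nonneg_right hgap' (show 0 ≤ y * e by positivity)
    rw [bDR]
    linear_combination ha + h2 + (y * ((d.a : ℝ) - (d.g : ℝ) ^ 2 *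
      ((d.N0 : ℝ) + d.N1 * e - polyR d.muLo e / 2))) * hme

/-- The shadow segment of `v` gives the quadratic at both ends. -/
theorem quad_exists (hk : okKnots d b = true) (hb : BoxSound d b) {m y e v δ : ℝ} (hm : 0 < m)
    (hme : m * e = 1) (he1 : e ≤ 1) (hy : y ∈ Icc (b.y0 : ℝ) b.y1)
    (he : e ∈ Icc (d.el : ℝ) b.eh) (hz : y * e ≤ (d.Z1 : ℝ)) (hv : 0 < v) (hvE : v ≤ (d.EA : ℝ))
    (hC : 0 < 1 - y * e)
    (hB : 0 < bDR d y e * v + 2 * (d.g : ℝ) * (1 + (d.g : ℝ)) * (nLoR d e * (y * e))) :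
    ∃ M, M ≤ m * (v ^ e - 1) - (v - 1) ∧ ∀ l ∈ [b.wl, b.wu],
      0 ≤ quadQ d y e v δ ((hE d b).eval [y, e]) ((remE d b).eval [y, e]) M 0
        (polyR l (y * e)) := by
  have he0 : 0 < e := by
    rcases le_or_gt e 0 with h | h
    · nlinarith
    · exact h
  have pick : ∀ (f : Expr → Expr) (l t : ℚ), v ∈ Icc (l : ℝ) t →
      (∀ W : Expr, (f W, b.rngV d l t) ∈ pointClaims d b W) → ∀ L ∈ [b.wl, b.wu],
        0 ≤ (f (horner xZ L)).eval [y, e, v] := by
    intro f l t hvI hf L hL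
    refine hb (f (horner xZ L), b.rngV d l t) ?_ [y, e, v] (by simpa using hz) (inRngV hy he hvI)
    simp only [List.mem_cons, List.not_mem_nil, or_false] at hL
    rcases hL with rfl | rfl
    · exact List.mem_append_left _ (List.mem_append_right _ (hf _))
    · exact List.mem_append_right _ (hf _)
  have evW : ∀ L : List ℚ, (horner xZ L).eval [y, e, v] = polyR L (y * e) := fun L => by
    simp [eval_horner, xZ, xY, xE]
  have chord : ∀ (k k' : ℚ × ℚ), k ∈ nodes → k' ∈ nodes → k.1 < k'.1 →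
      (∀ W : Expr, (chordClaim d b W 1 k.1 k'.1 (nodeVal k) (nodeVal k'), b.rngV d k.1 k'.1) ∈
        pointClaims d b W) → v ∈ Icc (k.1 : ℝ) k'.1 →
      ∃ M, M ≤ m * (v ^ e - 1) - (v - 1) ∧ ∀ l ∈ [b.wl, b.wu],
        0 ≤ quadQ d y e v δ ((hE d b).eval [y, e]) ((remE d b).eval [y, e]) M 0
          (polyR l (y * e)) := by
    intro k k' hk1 hk2 hlt hmem hvk
    refine ⟨_, dev_ge_chord hm hme he1 (node_log hk1).1.le (by exact_mod_cast hlt) hvk
      (nodeVal_le hm hme hk1 [y, e, v] (by simp)) (nodeVal_le hm hme hk2 [y, e, v] (by simp)),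
      fun L hL => ?_⟩
    rw [← evW L]
    exact quad_of_chord hk hy hv hC hB _ 1 _ _ _ _ (c := 1) (by simp) one_pos (one_mul _).symm
      (one_mul _).symm
      (pick (fun W => chordClaim d b W 1 k.1 k'.1 (nodeVal k) (nodeVal k')) _ _ hvk hmem L hL)
  rcases le_total v (1 / 64) with hA | hA
  · have hn := nodeVal_le hm hme (k := (1 / 64, -4159 / 1000)) (by simp [nodes]) [y, e, v] (by simp)
    push_cast at hn
    refine ⟨_, dev_ge_chord hm hme he1 le_rfl (show (0 : ℝ) < 1 / 64 by norm_num) ⟨hv.le, hA⟩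
      (A := (e - 1) / e) ?_ hn, fun L hL => ?_⟩
    · rw [Real.zero_rpow he0.ne']
      refine le_of_eq ?_
      field_simp
      linear_combination hme
    · rw [← evW L]
      have q := quad_of_chord (δ := δ) hk hy hv hC hB (horner xZ L) xE (xE - 1)
        (xE * nodeVal (1 / 64, -4159 / 1000)) 0 (1 / 64) (c := e) (A := (e - 1) / e)
        (B := (nodeVal (1 / 64, -4159 / 1000)).eval [y, e, v]) (by simp [xE]) he0
        (by simp [xE]; field_simp) (by simp [xE])
        (pick (fun W => chordClaim d b W xE 0 (1 / 64) (xE - 1)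
          (xE * nodeVal (1 / 64, -4159 / 1000))) 0 (1 / 64) (by push_cast; exact ⟨hv.le, hA⟩)
          (fun W => by simp [pointClaims]) L hL)
      push_cast at q
      exact q
  rcases le_total v (1 / 16) with hB' | hB'
  · exact chord (1 / 64, -4159 / 1000) (1 / 16, -2773 / 1000) (by simp [nodes]) (by simp [nodes])
      (by norm_num) (fun W => by simp [pointClaims, chordList, nodes])
      (by push_cast; exact ⟨hA, hB'⟩)
  rcases le_total v (1 / 8) with hC' | hC'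
  · exact chord (1 / 16, -2773 / 1000) (1 / 8, -208 / 100) (by simp [nodes]) (by simp [nodes])
      (by norm_num) (fun W => by simp [pointClaims, chordList, nodes])
      (by push_cast; exact ⟨hB', hC'⟩)
  rcases le_total v (1 / 4) with hD | hD
  · exact chord (1 / 8, -208 / 100) (1 / 4, -1387 / 1000) (by simp [nodes]) (by simp [nodes])
      (by norm_num) (fun W => by simp [pointClaims, chordList, nodes])
      (by push_cast; exact ⟨hC', hD⟩)
  rcases le_total v (3 / 8) with hF | hF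
  · exact chord (1 / 4, -1387 / 1000) (3 / 8, -981 / 1000) (by simp [nodes]) (by simp [nodes])
      (by norm_num) (fun W => by simp [pointClaims, chordList, nodes])
      (by push_cast; exact ⟨hD, hF⟩)
  rcases le_total v (14 / 25) with hG | hG
  · exact chord (3 / 8, -981 / 1000) (14 / 25, -58 / 100) (by simp [nodes]) (by simp [nodes])
      (by norm_num) (fun W => by simp [pointClaims, chordList, nodes])
      (by push_cast; exact ⟨hF, hG⟩)
  rcases le_total v 1 with hI | hI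
  · have hl : (-58 / 100 : ℝ) ≤ Real.log (14 / 25) := by
      have := (node_log (k := (14 / 25, -58 / 100)) (by simp [nodes])).2
      push_cast at this
      exact this
    refine ⟨_, dev_ge_low hm hme ⟨hG, hI⟩ hl (by linarith), fun L hL => ?_⟩
    rw [← evW L]
    refine quad_of_pade hk hy hv hC hB _ xV 1 0 ppLow (x := v) (by simp [xV]) (Q := 1) (by simp)
      one_pos ?_ (by simp) (pick (fun W => padeClaim d b W xV 1 0 ppLow) (14 / 25) 1
        (by push_cast; exact ⟨hG, hI⟩) (fun W => by simp [pointClaims]) L hL)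
    simp only [ppLow, xE, Expr.eval_add, Expr.eval_mul, Expr.eval_var, Expr.eval_ofNat, eval_cQ,
      List.getD_cons_zero, List.getD_cons_succ]
    push_cast
    ring
  · refine ⟨_, dev_ge_high hm hme ⟨hI, hvE⟩, fun L hL => ?_⟩
    rw [← evW L]
    refine quad_of_pade hk hy hv hC hB _ xV 1 0 (cQ (ppUp d.EA)) (x := v) (by simp [xV]) (Q := 1)
      (by simp) one_pos ?_ (by simp) (pick (fun W => padeClaim d b W xV 1 0 (cQ (ppUp d.EA))) 1 d.EA
        (by push_cast; exact ⟨hI, hvE⟩) (fun W => by simp [pointClaims]) L hL)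
    simp only [ppUp, eval_cQ]
    push_cast
    ring

/-- A state in a box of the bulk. -/
theorem box_ge (O : OrderOk d p) (hk : okKnots d b = true) (hb : BoxSound d b)
    {ell s t a r q : ℝ} (h : FlatState p ell s t a r q) (hz : s ^ 2 ≤ (d.Z1 : ℝ))
    (hy : yv p s ∈ Icc (b.y0 : ℝ) b.y1) (he : ev p ∈ Icc (d.el : ℝ) b.eh) (h0 : 0 ≤ ell)
    (hX : Real.exp ell ≤ (d.EA : ℝ)) (hK : Real.exp ell ≤ 1 + (d.kapE : ℝ) * ev p)
    (h1 : Real.exp ell - 1 ≤ ell * (d.e1 : ℝ))
    (htop : 1 / r ≤ (topE b).eval [yv p s, ev p]) :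
    ell * (wS p (arc s) - (massE d b).eval [yv p s, ev p]) - (remE d b).eval [yv p s, ev p] ≤
      cellR p d ell s t a r := by
  have hs := h.state.s_mem
  obtain ⟨hh, hM0, hMs, hwc, hT0, hT1, hbD, hn⟩ := box_signs O hk hb hs hz hy he
  have hv : 0 < 1 / r := one_div_pos.2 h.state.rate_pos
  have ok := O.point
  simp only [okPoint, Bool.and_eq_true, decide_eq_true_eq] at ok
  have hg : (0 : ℝ) < d.g := by exact_mod_cast ok.1.1.1.1
  have hEA : (1 : ℝ) ≤ d.EA := by exact_mod_cast ok.1.2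
  have hye := yv_ev p s
  have hy0 : 0 < yv p s := by rw [yv]; have := hs.1; positivity
  have he0 : 0 < ev p := by rw [ev]; positivity
  have hme : ((p : ℝ) + 1) * ev p = 1 := by rw [ev]; field_simp
  have hm : (0 : ℝ) < (p : ℝ) + 1 := by positivity
  have he1 : ev p ≤ 1 := by
    rw [ev, div_le_one hm]; linarith [(Nat.cast_nonneg p : (0 : ℝ) ≤ p)]
  have hC : 0 < 1 - yv p s * ev p := by rw [hye]; nlinarith [hs.1, hs.2]
  have hBv : 0 < bDR d (yv p s) (ev p) * (1 / r) +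
      2 * (d.g : ℝ) * (1 + (d.g : ℝ)) * (nLoR d (ev p) * (yv p s * ev p)) := by positivity
  have fin : ∀ {M sh : ℝ}, M ≤ ((p : ℝ) + 1) * ((1 / r) ^ ev p - 1) - (1 / r - 1) →
      sh - ell * (massE d b).eval [yv p s, ev p] ≤ yv p s / (1 - yv p s * ev p) *
        (hE d b).eval [yv p s, ev p] * ((t - s) / s) →
      (∀ l ∈ [b.wl, b.wu], 0 ≤ quadQ d (yv p s) (ev p) (1 / r) ((t - s) / s)
        ((hE d b).eval [yv p s, ev p]) ((remE d b).eval [yv p s, ev p]) M sh
        (polyR l (yv p s * ev p))) →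
      ell * (wS p (arc s) - (massE d b).eval [yv p s, ev p]) -
        (remE d b).eval [yv p s, ev p] ≤ cellR p d ell s t a r := by
    intro M sh hM hsh hq
    have q := quadQ_between hwc (hq _ (by simp)) (hq _ (by simp))
    have c := cell_ge O h hz hM ((hE d b).eval [yv p s, ev p])
    simp only [quadQ] at c q
    linarith
  rcases le_or_gt (1 / r) (d.EA : ℝ) with hJ | hJ
  · obtain ⟨M, hM, hq⟩ := quad_exists (δ := (t - s) / s) hk hb hm hme he1 hy he
      (hye.trans_le hz) hv hJ hC hBv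
    exact fin hM (by linarith [share_ge h h0 h1 hh hMs]) hq
  -- above `EA`
  obtain ⟨T, hTd⟩ : ∃ T, (topE b).eval [yv p s, ev p] = T := ⟨_, rfl⟩
  rw [hTd] at htop hT0 hT1
  have hTE : 0 < T - (d.EA : ℝ) := by linarith
  obtain ⟨τ, hτ⟩ : ∃ τ, τ = (1 / r - (d.EA : ℝ)) / (T - d.EA) := ⟨_, rfl⟩
  have hτm : τ ∈ Icc (0 : ℝ) 1 :=
    hτ ▸ ⟨div_nonneg (by linarith) hTE.le, (div_le_one hTE).2 (by linarith)⟩
  refine fin (dev_ge_high hm hme (X := (b.tmax : ℝ)) ⟨by linarith, by linarith⟩)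
    (sh := yv p s * (hE d b).eval [yv p s, ev p] * (1 / r - (1 + (d.kapE : ℝ) * ev p)) /
      ((1 + 2 * ev p) * yv p s + 1))
    (by linarith [mul_nonneg h0 hM0, gain_ge h hh (by linarith) hK]) fun L hL => ?_
  obtain ⟨-, -, -, -, eH, eT, -, -, eU⟩ :=
    eval_parts (d := d) (b := b) (e := ev p) hk hy 0 0 [τ]
  have hV : (cQ d.EA + xV * (topE b - cQ d.EA)).eval [yv p s, ev p, τ] = 1 / r := by
    simp only [xV, Expr.eval_sub, Expr.eval_add, Expr.eval_mul, Expr.eval_var, eval_cQ, eT, hTd,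
      List.getD_cons_zero, List.getD_cons_succ]
    rw [hτ, div_mul_cancel₀ _ hTE.ne']
    ring
  have evW : (horner xZ L).eval [yv p s, ev p, τ] = polyR L (yv p s * ev p) := by
    simp [eval_horner, xZ, xY, xE]
  rw [← evW]
  refine quad_of_pade hk hy hv hC hBv _ (cQ d.EA + xV * (topE b - cQ d.EA)) qOneE
    (bigE d b (cQ d.EA + xV * (topE b - cQ d.EA))) (cQ (ppUp b.tmax)) (x := τ) hV
    (Q := (1 + 2 * ev p) * yv p s + 1) (by simp [qOneE, xY, xE]) (by positivity) ?_ ?_ ?_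
  · simp only [ppUp, eval_cQ]
    push_cast
    ring
  · simp only [bigE, Expr.eval_sub, Expr.eval_add, Expr.eval_mul, Expr.eval_ofNat, hV, eH, eU]
    simp only [xY, Expr.eval_var, List.getD_cons_zero]
    push_cast
    field_simp
  · simp only [List.mem_cons, List.not_mem_nil, or_false] at hL
    refine hb (padeClaim d b (horner xZ L) (cQ d.EA + xV * (topE b - cQ d.EA)) qOneE
      (bigE d b (cQ d.EA + xV * (topE b - cQ d.EA))) (cQ (ppUp b.tmax)), b.rngV d 0 1) ?_
      [yv p s, ev p, τ] (by simpa using hye.trans_le hz)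
      (inRngV hy he (by push_cast; exact hτm))
    rcases hL with rfl | rfl
    · exact List.mem_append_left _ (List.mem_append_right _ (by simp [pointClaims]))
    · exact List.mem_append_right _ (by simp [pointClaims])

/-- The conditions of a box among the others. -/
def okBulkBox (d : Rec) (b : Box) : Bool :=
  okKnots d b && (decide (d.eh ≤ b.eh) || (decide (0 < b.y0) && decide (d.Z1 ≤ b.eh * b.y0)))

/-- The smallest `e` of the bulk is in reach on every box. -/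
theorem e_mem_box (hp : ev p ∈ Icc (d.el : ℝ) d.eh) (hb : okBulkBox d b = true) {s : ℝ}
    (hy : yv p s ∈ Icc (b.y0 : ℝ) b.y1) (hz : s ^ 2 ≤ (d.Z1 : ℝ)) :
    ev p ∈ Icc (d.el : ℝ) b.eh := by
  simp only [okBulkBox, Bool.and_eq_true, Bool.or_eq_true, decide_eq_true_eq] at hb
  refine ⟨hp.1, ?_⟩
  rcases hb.2 with h | ⟨h0, h1⟩
  · exact hp.2.trans (by exact_mod_cast h)
  · have r0 : (0 : ℝ) < b.y0 := by exact_mod_cast h0
    have r1 := (Rat.cast_le (K := ℝ)).2 h1
    push_cast at r1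
    have he0 : 0 < ev p := by unfold ev; positivity
    refine le_of_mul_le_mul_right ?_ r0
    have := mul_le_mul_of_nonneg_left hy.1 he0.le
    linarith [yv_ev p s]

/-- The exponential at the values of a record, from a rational test. -/
def expUb (h : ℚ) : ℚ :=
  (∑ i ∈ Finset.range 8, h ^ i / (i.factorial : ℚ)) + h ^ 8 * 9 / ((Nat.factorial 8 : ℚ) * 8)

/-- The conditions on the bounds of the exponential. -/
def okExp (d : Rec) : Bool :=
  decide (0 ≤ d.el) && decide (0 ≤ d.eh) && decide (0 < d.w1) &&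
    decide (0 < d.w1 * d.eh / (1 + d.eh)) && decide (d.w1 * d.eh / (1 + d.eh) ≤ 1) &&
    decide (expUb (d.w1 * d.eh / (1 + d.eh)) ≤ d.EA) &&
    decide (expUb (d.w1 * d.eh / (1 + d.eh)) - 1 ≤ d.e1 * (d.w1 * d.eh / (1 + d.eh))) &&
    decide (d.e1 * d.w1 ≤ d.kapE * (1 + d.el)) && decide (0 ≤ d.kapE)

theorem exp_bounds (hok : okExp d = true) (hp : ev p ∈ Icc (d.el : ℝ) d.eh) {ell : ℝ}
    (h0 : 0 ≤ ell) (hl : ell ≤ (d.w1 : ℝ) / ((p : ℝ) + 2)) :
    Real.exp ell ≤ (d.EA : ℝ) ∧ Real.exp ell ≤ 1 + (d.kapE : ℝ) * ev p ∧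
      Real.exp ell - 1 ≤ ell * (d.e1 : ℝ) := by
  simp only [okExp, Bool.and_eq_true, decide_eq_true_eq] at hok
  obtain ⟨⟨⟨⟨⟨⟨⟨⟨c0, c1⟩, c2⟩, c3⟩, c4⟩, c5⟩, c6⟩, c7⟩, c8⟩ := hok
  have r0 : (0 : ℝ) ≤ d.el := by exact_mod_cast c0
  have r1 : (0 : ℝ) ≤ d.eh := by exact_mod_cast c1
  have r2 : (0 : ℝ) < d.w1 := by exact_mod_cast c2
  have r3 := (Rat.cast_lt (K := ℝ)).2 c3
  have r4 := (Rat.cast_le (K := ℝ)).2 c4
  have r5 := (Rat.cast_le (K := ℝ)).2 c5
  have r6 := (Rat.cast_le (K := ℝ)).2 c6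
  have r7 := (Rat.cast_le (K := ℝ)).2 c7
  have r8 : (0 : ℝ) ≤ d.kapE := by exact_mod_cast c8
  simp only [expUb] at r5 r6
  push_cast at r3 r4 r5 r6 r7
  have he0 : 0 < ev p := by unfold ev; positivity
  have en : (d.w1 : ℝ) / ((p : ℝ) + 2) = d.w1 * ev p / (1 + ev p) := by
    rw [ev]; field_simp; ring
  rw [en] at hl
  obtain ⟨H, hH⟩ : ∃ H, (d.w1 : ℝ) * d.eh / (1 + d.eh) = H := ⟨_, rfl⟩
  rw [hH] at r3 r4 r5 r6
  have hlH : ell ≤ H := by
    refine hl.trans ?_
    rw [← hH, div_le_div_iff₀ (by positivity) (by positivity)]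
    linarith [mul_le_mul_of_nonneg_left hp.2 r2.le]
  have hU := Real.exp_bound' r3.le r4 (n := 8) (by norm_num)
  have hU' : Real.exp H ≤ (∑ i ∈ Finset.range 8, H ^ i / (i.factorial : ℝ)) +
      H ^ 8 * 9 / ((Nat.factorial 8 : ℝ) * 8) := hU.trans_eq (by norm_num)
  have h1 := Band20.exp_le_secant h0 hlH r3 hU'
  have h2 : Real.exp ell - 1 ≤ ell * (d.e1 : ℝ) := by
    refine h1.trans ?_
    rw [div_mul_eq_mul_div, div_le_iff₀ r3, mul_assoc]
    exact mul_le_mul_of_nonneg_left r6 h0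
  refine ⟨(Real.exp_le_exp.2 hlH).trans (hU'.trans r5), ?_, h2⟩
  have he1' : 0 ≤ (d.e1 : ℝ) := by
    refine nonneg_of_mul_nonneg_left (b := H) ?_ r3
    have := Real.add_one_le_exp H
    linarith
  have h3 := mul_le_mul_of_nonneg_right hl he1'
  have h4 : (d.w1 : ℝ) * ev p / (1 + ev p) * d.e1 ≤ (d.kapE : ℝ) * ev p := by
    rw [div_mul_eq_mul_div, div_le_iff₀ (by positivity)]
    linarith [mul_le_mul_of_nonneg_left r7 he0.le,
      mul_le_mul_of_nonneg_left hp.1 (mul_nonneg r8 he0.le)]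
  linarith

/-- The bound in the bulk from the checks of its boxes. -/
theorem bulk_of_boxes {bs bk : List Box} {b0 : Box} {l : List Box} (O : OrderOk d p)
    (hq : glueOk Box.q bs = true) (hm : glueOk Box.qm bs = true) (hbk : bk = b0 :: l)
    (hsub : ∀ c ∈ bk, c ∈ bs) (hq' : glueOk Box.q bk = true) (h0 : b0.y0 = 0)
    (hend : glueEnd (d.Z1 * ((p : ℚ) + 1)) bk = true)
    (hok : bk.all (okBulkBox d) = true) (hexp : okExp d = true) (hw0 : 0 ≤ d.w0)
    (hp : ev p ∈ Icc (d.el : ℝ) d.eh) (hsound : ∀ c ∈ bk, BoxSound d c)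
    (htop : ∀ c ∈ bk, ∀ ell s t a r q : ℝ, FlatState p ell s t a r q → 0 ≤ ell →
      Real.exp ell ≤ 1 + (d.kapE : ℝ) * ev p → s ^ 2 ≤ (d.Z1 : ℝ) →
      yv p s ∈ Icc (c.y0 : ℝ) c.y1 → ev p ∈ Icc (d.el : ℝ) c.eh →
        1 / r ≤ (topE c).eval [yv p s, ev p]) :
    ∀ ell ∈ Icc ((d.w0 : ℝ) / ((p : ℝ) + 2)) ((d.w1 : ℝ) / ((p : ℝ) + 2)),
      ∀ s t a r q : ℝ, FlatState p ell s t a r q → s ^ 2 ≤ (d.Z1 : ℝ) →
        ell * (wS p (arc s) - massF p d bs s) - remF p d bs s ≤ cellR p d ell s t a r := by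
  intro ell hl s t a r q h hz
  have hl0 : 0 ≤ ell := le_trans (div_nonneg (by exact_mod_cast hw0) (by positivity)) hl.1
  subst hbk
  obtain ⟨c, hc, hy⟩ := glue_cover l hq' hend (yv p s)
    (by rw [h0, Rat.cast_zero, yv]; positivity)
    (by push_cast; rw [yv, mul_comm]; exact mul_le_mul_of_nonneg_right hz (by positivity))
  simp only [List.all_eq_true] at hok
  have hcb := hok c hc
  have he := e_mem_box hp hcb hy hz
  obtain ⟨g1, g2, g3⟩ := exp_bounds hexp hp hl0 hl.2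
  have hk : okKnots d c = true := by
    simp only [okBulkBox, Bool.and_eq_true] at hcb
    exact hcb.1
  have hb := box_ge O hk (hsound c hc) h hz hy he hl0 g1 g2 g3
    (htop c hc ell s t a r q h hl0 g2 hz hy he)
  obtain ⟨e1, e2⟩ := eval_rem_mass (d := d) hq hm (hsub c hc) hy (ev p) []
  rw [e1, e2] at hb
  exact hb

end Vale.Agent.P237.Petty.Cor.Low20
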