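import Vale.Agent.P237.Petty.Cor.Low20.Check

/-!
# P237: the polynomials of a cell of small values in dimensions twenty to ninety nine

The variables are `y = (p + 1) s ^ 2`, `e = 1 / (p + 1)` and `v = 1 / r`, or a parameter of `v`.
-/

namespace Vale.Agent.P237.Petty.Cor.Low20

open Vale.Agent.P100.Bernstein

/-- A rational constant. -/
def cQ (q : ℚ) : Expr := .frac q.num q.den

/-- `y`. -/
def xY : Expr := .var 0

/-- `e`. -/
def xE : Expr := .var 1

/-- `v`. -/
def xV : Expr := .var 2

/-- `z = s ^ 2`. -/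
def xZ : Expr := xY * xE

/-- `1 - z`. -/
def xC : Expr := 1 - xZ

/-- A polynomial from its coefficients. -/
def horner (x : Expr) : List ℚ → Expr
  | [] => 0
  | [a] => cQ a
  | a :: l => cQ a + x * horner x l

/-- Its derivative. -/
def hornerD (x : Expr) : List ℚ → Expr
  | [] => 0
  | [_] => 0
  | _ :: l => horner x l + x * hornerD x l

/-- A cubic in the local coordinate of a box, with coefficients affine in `e`. -/
structure Cub where
  /-- the coefficients at `e = 0` -/
  c0 : List ℚ
  /-- the slopes in `e` -/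
  c1 : List ℚ

/-- The data of one group of orders and one interval of `w = (p + 2) ell`. -/
structure Rec where
  /-- the least `e` -/
  el : ℚ
  /-- the largest `e` -/
  eh : ℚ
  /-- the least `w` -/
  w0 : ℚ
  /-- the largest `w` -/
  w1 : ℚ
  /-- the end of the bulk in `z` -/
  Z1 : ℚ
  /-- the parameter of the test -/
  g : ℚ
  /-- the constant of the multiplier -/
  N0 : ℚ
  /-- the slope of the multiplier -/
  N1 : ℚ
  /-- the constant of the shadow factor -/
  G0 : ℚ
  /-- the slope of the shadow factor -/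
  G1 : ℚ
  /-- the pole -/
  a : ℚ
  /-- the potential -/
  l0 : ℚ
  /-- the potential, linear -/
  l1 : ℚ
  /-- the potential, quadratic -/
  l2 : ℚ
  /-- the potential, mixed -/
  l6 : ℚ
  /-- the knots and jumps of the potential -/
  kn : List (ℚ × ℚ)
  /-- above the exponential of the largest value -/
  EA : ℚ
  /-- the slope in `e` of a bound of that exponential -/
  kapE : ℚ
  /-- above the quotient of `exp - 1` by its argument -/
  e1 : ℚ
  /-- below the eigenvalue, as a polynomial in `e` -/
  muLo : List ℚ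
  /-- above the eigenvalue, as a polynomial in `e` -/
  muUp : List ℚ
  /-- the constant of the remainder -/
  R0 : Cub
  /-- the constant of the part along the value -/
  M0 : Cub
  /-- the rational below the ratio of the mass above, near: constants and slopes -/
  mm : List ℚ
  /-- the same, far -/
  kk : List ℚ

/-- A box of `y` with its local data. -/
structure Box where
  /-- the left end -/
  y0 : ℚ
  /-- the right end -/
  y1 : ℚ
  /-- the largest `e` -/
  eh : ℚ
  /-- below `1 / arc`, as a polynomial in `z` -/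
  wl : List ℚ
  /-- above `1 / arc`, as a polynomial in `z` -/
  wu : List ℚ
  /-- the potential of the remainder -/
  q : Cub
  /-- the potential of the part along the value -/
  qm : Cub
  /-- whether the multiplier starts from the coefficient of the displacement -/
  chi : Bool
  /-- the multiplier `h0 + h1 τ + h2 e + h3 τ ^ 2` -/
  hh : List ℚ
  /-- the bound `T0 + T1 τ + T2 τ ^ 2 + T3 e + T4 τ e` of `1 / r` -/
  tp : List ℚ
  /-- above that bound -/
  tmax : ℚ
  /-- whether the bound comes from the abscissa itself -/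
  self : Bool
  /-- the base of the bound, in `y` -/
  yu : ℚ
  /-- below the base times `√(p + 3)`, as a polynomial in `e` -/
  ulo : List ℚ
  /-- below `√((1 + 2 e) y)`, as a polynomial in `(1 + 2 e) y` -/
  xl : List ℚ
  /-- above `√((1 + 2 e) y)`, as a polynomial in `(1 + 2 e) y` -/
  xu : List ℚ

variable (d : Rec) (b : Box)

/-- The local coordinate of a box. -/
def Box.tau : Expr := cQ (1 / (b.y1 - b.y0)) * (xY - cQ b.y0)

/-- A cubic of the box. -/
def Box.cubE (c : Cub) : Expr := horner b.tau c.c0 + xE * horner b.tau c.c1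

/-- Its derivative in `y`. -/
def Box.cubD (c : Cub) : Expr :=
  cQ (1 / (b.y1 - b.y0)) * (hornerD b.tau c.c0 + xE * hornerD b.tau c.c1)

/-- The function of mean zero from a potential. -/
def Box.meanZero (c : Cub) : Expr :=
  xC * (b.cubE c + 2 * xY * b.cubD c) - (1 + 2 * xE) * xY * b.cubE c

/-- A constant affine in `e`. -/
def constE (c : Cub) : Expr := horner 0 c.c0 + xE * horner 0 c.c1

/-- The remainder. -/
def remE : Expr := xE ^ 2 * (constE d.R0 + b.meanZero b.q)

/-- The part along the value. -/
def massE : Expr := xE * (constE d.M0 + b.meanZero b.qm)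

/-- The knots active in a box. -/
def active : List (ℚ × ℚ) := d.kn.filter fun k => decide (k.1 ≤ b.y0)

/-- The potential without its sum of jumps. -/
def potL0 : Expr := cQ d.l0 + cQ d.l1 * xY + cQ d.l2 * xY ^ 2 + cQ d.l6 * (xY * xE)

/-- The jumps. -/
def jumps : List (ℚ × ℚ) → Expr
  | [] => 0
  | k :: l => cQ k.2 * (xY - cQ k.1) ^ 2 + jumps l

/-- The derivative of the jumps. -/
def jumpsD : List (ℚ × ℚ) → Expr
  | [] => 0
  | k :: l => cQ (2 * k.2) * (xY - cQ k.1) + jumpsD l

/-- The potential. -/
def potL : Expr := potL0 d + jumps (active d b)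

/-- Its derivative. -/
def potLD : Expr := cQ d.l1 + cQ (2 * d.l2) * xY + cQ d.l6 * xE + jumpsD (active d b)

/-- The shadow factor. -/
def gE : Expr := cQ d.G0 + cQ d.G1 * xE

/-- The sum of the multiplier and half the eigenvalue. -/
def nE : Expr := cQ d.N0 + cQ d.N1 * xE

/-- Below the multiplier. -/
def nLoE : Expr := nE d - .frac 1 2 * horner xE d.muUp

/-- Above the multiplier. -/
def nHiE : Expr := nE d - .frac 1 2 * horner xE d.muLo

/-- `e` times the coefficient of the displacement, with `w` for `1 / arc`. -/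
def eDE (w : Expr) : Expr :=
  (1 - xE) * gE d * w + xC * (2 * xE * potLD d b - 2 * (1 + 3 * xE) * nE d) - xE * potL d b

/-- The multiplier of the box below. -/
def hE : Expr :=
  (bif b.chi then eDE d b (horner xZ b.wl) else 0) +
    xE * (cQ (b.hh.getD 0 0) + cQ (b.hh.getD 1 0) * b.tau + cQ (b.hh.getD 2 0) * xE +
      cQ (b.hh.getD 3 0) * b.tau ^ 2)

/-- The coefficient of the square of the displacement. -/
def bDE : Expr := cQ d.a * (xY + xZ + 1) - cQ (d.g ^ 2) * nHiE d * (xY + 3 * xZ)

/-- Its part in `1 / v`. -/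
def kZE : Expr := cQ (2 * d.g * (1 + d.g)) * nLoE d * xZ

/-- The mixed part in `1 / v`. -/
def yZE : Expr := cQ (2 * (d.g ^ 2 - 1)) * nLoE d * xZ

/-- The coefficient of `u ^ 2 / v` of the test. -/
def aUE : Expr := cQ (2 * (1 + d.g)) * nLoE d * xC

/-- The linear coefficient of the displacement, times `1 - z` and `v`. -/
def linE (w v : Expr) : Expr :=
  xY * (eDE d b w - hE d b) * v - xC * (v - 1) * (cQ (2 * d.a) * xC * v + yZE d)

/-- The terms free of the displacement, times `v`, without the shadow. -/
def freeE (v : Expr) : Expr :=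
  v * (remE d b + xE * potL d b * (v - 1)) + aUE d * (v - 1) ^ 2

/-- The claim for the shadow below a chord from `l` to `t` of values `sl`, `st`, times `sc`. -/
def chordClaim (w sc : Expr) (l t : ℚ) (sl st : Expr) : Expr :=
  4 * xC ^ 2 * (bDE d * xV + kZE d) *
      (sc * freeE d b xV +
        gE d * w * xV * (cQ (1 / (t - l)) * (sl * (cQ t - xV) + st * (xV - cQ l)))) -
    sc * linE d b w xV ^ 2

/-- The claim for the shadow by its rational bound with the correction `pp`. -/
def padeClaim (w v q1 big : Expr) (pp : Expr) : Expr :=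
  4 * xC ^ 2 * (bDE d * v + kZE d) *
      (q1 * (2 * (v + 2) * freeE d b v -
        gE d * w * (2 * v + 1 - 2 * (v + 2) * (xE * pp)) * (v - 1) ^ 2) + big) -
    2 * (v + 2) * q1 * linE d b w v ^ 2

/-- The top of a box. -/
def topE : Expr :=
  cQ (b.tp.getD 0 0) + cQ (b.tp.getD 1 0) * b.tau + cQ (b.tp.getD 2 0) * b.tau ^ 2 +
    cQ (b.tp.getD 3 0) * xE + cQ (b.tp.getD 4 0) * (b.tau * xE)

/-- `1 + kapE e`. -/
def eUpE : Expr := 1 + cQ d.kapE * xE

/-- The part of the displacement beyond the exponential. -/
def bigE (v : Expr) : Expr := 2 * (v + 2) * v * hE d b * xY * (v - eUpE d)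

/-- The denominator of that part. -/
def qOneE : Expr := (1 + 2 * xE) * xY + 1

/-- Below the logarithm at the nodes of the chords. -/
def nodes : List (ℚ × ℚ) :=
  [(1 / 64, -4159 / 1000), (1 / 16, -2773 / 1000), (1 / 8, -208 / 100), (1 / 4, -1387 / 1000),
    (3 / 8, -981 / 1000), (14 / 25, -58 / 100)]

/-- Below the concave shadow at a node. -/
def nodeVal (k : ℚ × ℚ) : Expr :=
  cQ (k.2 - (k.1 - 1)) + cQ (k.2 ^ 2 / 2) * xE + cQ (k.2 ^ 3 / 6) * xE ^ 2

/-- The rational factor of the correction below `1`. -/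
def ppLow : Expr := cQ (2 * (14 / 25) / (14 / 25 + 1) ^ 2) * (1 + cQ (-58 / 300) * xE)

/-- The rational factor of the correction up to `x`. -/
def ppUp (x : ℚ) : ℚ := 2 * x / (x + 1) ^ 2

/-- An interval with rational ends. -/
def ivQ (l h : ℚ) : Iv :=
  ⟨l.num * (Nat.lcm l.den h.den / l.den : ℕ), h.num * (Nat.lcm l.den h.den / h.den : ℕ),
    Nat.lcm l.den h.den⟩

/-- The ranges of `y` and `e`. -/
def Box.rng : List Iv := [ivQ b.y0 b.y1, ivQ d.el b.eh]

/-- The ranges of `y`, `e` and `v`. -/
def Box.rngV (l h : ℚ) : List Iv := [ivQ b.y0 b.y1, ivQ d.el b.eh, ivQ l h]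

/-- The chords after the first. -/
def chordList (w : Expr) : List (ℚ × ℚ) → List (Expr × List Iv)
  | k :: k' :: l => (chordClaim d b w 1 k.1 k'.1 (nodeVal k) (nodeVal k'), b.rngV d k.1 k'.1) ::
      chordList w (k' :: l)
  | _ => []

/-- The claims with `w` for `1 / arc`. -/
def pointClaims (w : Expr) : List (Expr × List Iv) :=
  (chordClaim d b w xE 0 (1 / 64) (xE - 1) (xE * nodeVal (1 / 64, -4159 / 1000)),
      b.rngV d 0 (1 / 64)) ::
    chordList d b w nodes ++
    [(padeClaim d b w xV 1 0 ppLow, b.rngV d (14 / 25) 1),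
      (padeClaim d b w xV 1 0 (cQ (ppUp d.EA)), b.rngV d 1 d.EA),
      (padeClaim d b w (cQ d.EA + xV * (topE b - cQ d.EA)) (qOneE)
        (bigE d b (cQ d.EA + xV * (topE b - cQ d.EA))) (cQ (ppUp b.tmax)), b.rngV d 0 1)]

/-- The signs on a box. -/
def signClaims : List (Expr × List Iv) :=
  [(hE d b, b.rng d), (bDE d, b.rng d), (nLoE d, b.rng d), (gE d, b.rng d),
    (horner xZ b.wl, b.rng d), (1 - horner xZ b.wl ^ 2 * xC, b.rng d),
    (horner xZ b.wu, b.rng d), (horner xZ b.wu ^ 2 * xC - 1, b.rng d),
    (topE b - cQ d.EA, b.rng d), (cQ b.tmax - topE b, b.rng d),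
    (massE d b * (1 + 2 * xE) * ((1 + 2 * xE) * xY + 3) -
      cQ d.e1 * hE d b * ((1 + 2 * xE) * xY + xZ + 2), b.rng d)]

/-- All claims on a box in the bulk. -/
def boxClaims : List (Expr × List Iv) :=
  signClaims d b ++ pointClaims d b (horner xZ b.wl) ++ pointClaims d b (horner xZ b.wu)

/-- The claims on a box up to the end of the abscissa. -/
def farClaims : List (Expr × List Iv) :=
  [(remE d b, [ivQ b.y0 b.y1, ivQ d.el d.eh]), (massE d b, [ivQ b.y0 b.y1, ivQ d.el d.eh])]

end Vale.Agent.P237.Petty.Cor.Low20
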