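import Vale.Agent.P237.Petty.Cor.Low20.Cell

/-!
# P237: the kernel checks of one box of the bulk
-/

namespace Vale.Agent.P237.Petty.Cor.Low20

open Vale.Agent.P100.Bernstein

variable {p n : ℕ} {d : Rec} {bs : List Box} {b : Box}

/-- Everything checked on one box of the bulk. -/
def boxAll (d : Rec) (b : Box) : List (Expr × List Iv) := boxClaims d b ++ topClaims d b

theorem bound_of_boxAll {T : List CTree} (h : cutAll d.Z1 (boxAll d b) T = true) :
    BoxSound d b ∧ TopSound d b :=
  ⟨fun q hq x hz hx => cutAll_sound _ _ h q (List.mem_append_left _ hq) x hz hx,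
    fun q hq x hz hx => cutAll_sound _ _ h q (List.mem_append_right _ hq) x hz hx⟩

end Vale.Agent.P237.Petty.Cor.Low20
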