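import Vale.Agent.P237.Petty.Cor.Low20.Poly
import Vale.Agent.P237.Petty.Cor.Band20.Shadow
import Vale.Agent.P237.Petty.Cor.Top.Tail

/-!
# P237: the fields of a cell of small values in dimensions twenty to ninety nine
-/

namespace Vale.Agent.P237.Petty.Cor.Low20

open Set
open Ident (half rate)

variable {p : ℕ}

/-- The small parameter. -/
noncomputable def ev (p : ℕ) : ℝ := 1 / ((p : ℝ) + 1)

/-- The abscissa, squared and scaled. -/
noncomputable def yv (p : ℕ) (s : ℝ) : ℝ := ((p : ℝ) + 1) * s ^ 2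

/-- A polynomial from its coefficients. -/
noncomputable def polyR : List ℚ → ℝ → ℝ
  | [], _ => 0
  | a :: l, x => (a : ℝ) + x * polyR l x

/-- Its derivative. -/
noncomputable def polyD : List ℚ → ℝ → ℝ
  | [], _ => 0
  | _ :: l, x => polyR l x + x * polyD l x

/-- A polynomial affine in `e`. -/
noncomputable def cubR (c : Cub) (x e : ℝ) : ℝ := polyR c.c0 x + e * polyR c.c1 x

/-- Its derivative in the first variable. -/
noncomputable def cubRD (c : Cub) (x e : ℝ) : ℝ := polyD c.c0 x + e * polyD c.c1 x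

/-- The local coordinate of a box. -/
noncomputable def tauR (b : Box) (y : ℝ) : ℝ := ((1 / (b.y1 - b.y0) : ℚ) : ℝ) * (y - b.y0)

/-- A potential glued from the cubics of the boxes, the last one continued. -/
noncomputable def glueR (f : Box → Cub) : List Box → ℝ → ℝ → ℝ
  | [], _, _ => 0
  | [b], y, e => cubR (f b) (tauR b y) e
  | b :: l, y, e => if y ≤ (b.y1 : ℝ) then cubR (f b) (tauR b y) e else glueR f l y e

/-- Its derivative. -/
noncomputable def glueD (f : Box → Cub) : List Box → ℝ → ℝ → ℝ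
  | [], _, _ => 0
  | [b], y, e => ((1 / (b.y1 - b.y0) : ℚ) : ℝ) * cubRD (f b) (tauR b y) e
  | b :: l, y, e =>
    if y ≤ (b.y1 : ℝ) then ((1 / (b.y1 - b.y0) : ℚ) : ℝ) * cubRD (f b) (tauR b y) e
    else glueD f l y e

/-- The function of mean zero of a glued potential, with a constant. -/
noncomputable def splineR (f : Box → Cub) (c : Cub) (bs : List Box) (y e : ℝ) : ℝ :=
  cubR c 0 e + ((1 - y * e) * (glueR f bs y e + 2 * y * glueD f bs y e) -
    (1 + 2 * e) * y * glueR f bs y e)

/-- The remainder, without what is beyond the bulk. -/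
noncomputable def remF (p : ℕ) (d : Rec) (bs : List Box) (s : ℝ) : ℝ :=
  ev p ^ 2 * splineR Box.q d.R0 bs (yv p s) (ev p)

/-- The part along the value. -/
noncomputable def massF (p : ℕ) (d : Rec) (bs : List Box) (s : ℝ) : ℝ :=
  ev p * splineR Box.qm d.M0 bs (yv p s) (ev p)

/-- The jumps of the potential. -/
noncomputable def jumpR : List (ℚ × ℚ) → ℝ → ℝ
  | [], _ => 0
  | k :: l, y => (k.2 : ℝ) * max (y - k.1) 0 ^ 2 + jumpR l y

/-- Their derivative. -/
noncomputable def jumpD : List (ℚ × ℚ) → ℝ → ℝ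
  | [], _ => 0
  | k :: l, y => 2 * (k.2 : ℝ) * max (y - k.1) 0 + jumpD l y

/-- The linear potential, over `e`. -/
noncomputable def nnR (d : Rec) (y e : ℝ) : ℝ :=
  (d.l0 : ℝ) + d.l1 * y + d.l2 * y ^ 2 + d.l6 * (y * e) + jumpR d.kn y

/-- Its derivative. -/
noncomputable def ndR (d : Rec) (y e : ℝ) : ℝ :=
  (d.l1 : ℝ) + 2 * d.l2 * y + d.l6 * e + jumpD d.kn y

/-- The multiplier of the shadow. -/
noncomputable def ggR (d : Rec) (e : ℝ) : ℝ := (d.G0 : ℝ) + d.G1 * e

/-- The multiplier of the excess. -/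
noncomputable def nuM (p : ℕ) (d : Rec) : ℝ :=
  (d.N0 : ℝ) + d.N1 * ev p - Ident.muMin p / 2

/-- The multiplier of the shadow of the field. -/
noncomputable def gamM (p : ℕ) (d : Rec) : ℝ := ggR d (ev p) * ((p : ℝ) + 1) / Ident.b0 p

/-- The linear potential of the field. -/
noncomputable def potK (p : ℕ) (d : Rec) (s : ℝ) : ℝ :=
  -ggR d (ev p) / arc s + ev p * nnR d (yv p s) (ev p)

/-- Its derivative. -/
noncomputable def potK' (p : ℕ) (d : Rec) (s : ℝ) : ℝ :=
  -ggR d (ev p) * s / arc s ^ 3 + 2 * s * ndR d (yv p s) (ev p)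

/-- The square potential. -/
noncomputable def potB (d : Rec) (s : ℝ) : ℝ := -(d.a : ℝ) * (1 - s ^ 2) / s

/-- Its derivative. -/
noncomputable def potB' (d : Rec) (s : ℝ) : ℝ := (d.a : ℝ) * (1 + 1 / s ^ 2)

/-- The cancelled cell of the field. -/
noncomputable def cellR (p : ℕ) (d : Rec) (ell s t a r : ℝ) : ℝ :=
  cancelExpr p (gamM p d) (nuM p d) ell (fun s t => s + (d.g : ℝ) * (s - t))
    (fun _ _ => 1 + (d.g : ℝ)) (fun _ _ => -(d.g : ℝ)) (quadPot (potK p d) (potB d))
    (quadPotS (potK p d) (potK' p d) (potB d) (potB' d))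
    (quadPotT (potK p d) (potB d)) s t a r

end Vale.Agent.P237.Petty.Cor.Low20
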