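import Vale.Agent.P237.Petty.Cor.Low20.Mean
import Vale.Agent.P237.Petty.Cor.Top.Tail

/-!
# P237: a cell of small values in dimensions twenty to ninety nine, beyond the bulk

There the part without weight is above a constant times `-(p + 1) / arc s ^ 4`; the constant is a
rational of the record and the order.
-/

namespace Vale.Agent.P237.Petty.Cor.Low20

open Set
open Ident (half rate)

variable {p : ℕ} {d : Rec}

/-- The sum of the jumps. -/
def jump2 : List (ℚ × ℚ) → ℚ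
  | [] => 0
  | k :: l => k.2 + jump2 l

/-- The sum of the jumps at their knots. -/
def jump1 : List (ℚ × ℚ) → ℚ
  | [] => 0
  | k :: l => k.2 * k.1 + jump1 l

/-- The sum of the jumps at the squares of their knots. -/
def jump0 : List (ℚ × ℚ) → ℚ
  | [] => 0
  | k :: l => k.2 * k.1 ^ 2 + jump0 l

theorem jump_eq {y : ℝ} : ∀ l : List (ℚ × ℚ), (∀ k ∈ l, (k.1 : ℝ) ≤ y) →
    jumpR l y = (jump2 l : ℝ) * y ^ 2 - 2 * (jump1 l : ℝ) * y + (jump0 l : ℝ) ∧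
      jumpD l y = 2 * (jump2 l : ℝ) * y - 2 * (jump1 l : ℝ)
  | [], _ => by simp [jumpR, jumpD, jump2, jump1, jump0]
  | k :: l, h => by
    obtain ⟨h1, h2⟩ := jump_eq l fun q hq => h q (List.mem_cons_of_mem _ hq)
    have h0 : max (y - (k.1 : ℝ)) 0 = y - k.1 := max_eq_left (sub_nonneg.2 (h k (by simp)))
    simp only [jumpR, jumpD, jump2, jump1, jump0, h0, h1, h2]
    push_cast
    constructor <;> ring

/-- The small parameter, over the rationals. -/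
def eQ (p : ℕ) : ℚ := 1 / ((p : ℚ) + 1)

/-- Above the multiplier of the excess. -/
def nuTop (d : Rec) (p : ℕ) : ℚ := d.N0 + d.N1 * eQ p - polyQ d.muLo (eQ p) / 2

/-- Above the linear potential beyond the bulk. -/
def nTop (d : Rec) (p : ℕ) : ℚ :=
  |d.l0 + jump0 d.kn| * eQ p + |d.l1 - 2 * jump1 d.kn| +
    |d.l2 + jump2 d.kn| * ((p : ℚ) + 1) + |d.l6| * eQ p

/-- Above the slope there, times `arc s`. -/
def slopeTop (d : Rec) (p : ℕ) : ℚ :=
  (d.G0 + d.G1 * eQ p) +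
    (1 - d.Z1) * (2 * |d.l1 - 2 * jump1 d.kn| * eQ p + 4 * |d.l2 + jump2 d.kn| +
      2 * |d.l6| * eQ p + 2 * (1 + 3 * eQ p) * (d.N0 + d.N1 * eQ p)) + nTop d p

/-- Above `(1 - s ^ 2) |1 / r - 1|` there. -/
def devTop (d : Rec) (p : ℕ) : ℚ := (1 - d.Z1) * (17 / 16 * ((p : ℚ) + 3) + 4)

/-- The factor of the crude bound. -/
def tailK (d : Rec) (p : ℕ) : ℚ :=
  (d.G0 + d.G1 * eQ p) + slopeTop d p +
    ((d.G0 + d.G1 * eQ p + nTop d p) * devTop d p + d.a * devTop d p ^ 2 + 24 * nuTop d p) /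
      ((p : ℚ) + 1)

/-- The conditions of the crude bound. -/
def okTail (d : Rec) (p : ℕ) : Bool :=
  d.kn.all (fun k => decide (k.1 ≤ d.Z1 * ((p : ℚ) + 1))) && decide (0 < d.Z1) &&
    decide (d.Z1 < 1) && decide (0 < d.G0 + d.G1 * eQ p) &&
    decide (0 ≤ d.N0 + d.N1 * eQ p - polyQ d.muUp (eQ p) / 2) && decide (0 ≤ d.a) &&
    decide (0 ≤ d.g) && decide (d.g ≤ 2) &&
    decide (nuTop d p * d.g ^ 2 * ((p : ℚ) + 4) ≤ d.a * ((p : ℚ) + 2))

/-- The conditions, over the reals. -/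
structure TailOk (d : Rec) (p : ℕ) : Prop where
  knots : ∀ k ∈ d.kn, (k.1 : ℝ) ≤ (d.Z1 : ℝ) * ((p : ℝ) + 1)
  Z_pos : 0 < (d.Z1 : ℝ)
  Z_lt : (d.Z1 : ℝ) < 1
  gg_pos : 0 < ggR d (ev p)
  nu_nonneg : 0 ≤ nuM p d
  nu_le : nuM p d ≤ (nuTop d p : ℝ)
  a_nonneg : 0 ≤ (d.a : ℝ)
  g_ge : 0 ≤ (d.g : ℝ)
  g_le : (d.g : ℝ) ≤ 2
  gap : (nuTop d p : ℝ) * (d.g : ℝ) ^ 2 * ((p : ℝ) + 4) ≤ (d.a : ℝ) * ((p : ℝ) + 2)

theorem eQ_cast (p : ℕ) : ((eQ p : ℚ) : ℝ) = ev p := by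
  rw [eQ, ev]; push_cast; rfl

theorem tailOk_of (h : okTail d p = true) (hlo : polyR d.muLo (ev p) ≤ Ident.muMin p)
    (hup : Ident.muMin p ≤ polyR d.muUp (ev p)) : TailOk d p := by
  simp only [okTail, Bool.and_eq_true, decide_eq_true_eq, List.all_eq_true] at h
  obtain ⟨⟨⟨⟨⟨⟨⟨⟨c1, c2⟩, c3⟩, c4⟩, c5⟩, c6⟩, c7⟩, c8⟩, c9⟩ := h
  have r4 := (Rat.cast_lt (K := ℝ)).2 c4
  have r5 := (Rat.cast_le (K := ℝ)).2 c5
  have r9 := (Rat.cast_le (K := ℝ)).2 c9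
  have r8 := (Rat.cast_le (K := ℝ)).2 c8
  have r7 := (Rat.cast_le (K := ℝ)).2 c7
  push_cast at r4 r5 r7 r8 r9
  rw [← eQ_cast, polyR_cast] at hlo hup
  refine ⟨fun k hk => ?_, by exact_mod_cast c2, by exact_mod_cast c3, ?_, ?_, ?_,
    by exact_mod_cast c6, r7, r8, r9⟩
  · have := (Rat.cast_le (K := ℝ)).2 (c1 k hk)
    push_cast at this
    exact this
  · rw [ggR, ← eQ_cast]; exact r4
  · rw [nuM, ← eQ_cast]; linarith
  · rw [nuM, ← eQ_cast, nuTop]; push_cast; linarith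

/-- The bounds of the linear potential beyond the bulk. -/
theorem pot_tops (T : TailOk d p) {s : ℝ} (hs : s ∈ Ioo (0 : ℝ) 1) (hz : (d.Z1 : ℝ) ≤ s ^ 2) :
    |ev p * nnR d (yv p s) (ev p)| ≤ (nTop d p : ℝ) ∧
      |2 * ev p * ndR d (yv p s) (ev p)| ≤
        2 * |(d.l1 : ℝ) - 2 * jump1 d.kn| * ev p + 4 * |(d.l2 : ℝ) + jump2 d.kn| +
          2 * |(d.l6 : ℝ)| * ev p := by
  have hm : (0 : ℝ) < (p : ℝ) + 1 := by positivity
  have he0 : 0 < ev p := by unfold ev; positivity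
  have he1 : ev p ≤ 1 := by
    rw [ev, div_le_one hm]; linarith [(Nat.cast_nonneg p : (0 : ℝ) ≤ p)]
  have hs2 : s ^ 2 ≤ 1 := by nlinarith [hs.1, hs.2]
  obtain ⟨hR, hD⟩ := jump_eq (y := yv p s) d.kn fun k hk =>
    (T.knots k hk).trans (by rw [yv, mul_comm]; exact mul_le_mul_of_nonneg_left hz hm.le)
  have hy : yv p s ≤ (p : ℝ) + 1 := mul_le_of_le_one_right hm.le hs2
  have hy0 : 0 ≤ yv p s := by unfold yv; positivity
  have hz0 : 0 ≤ s ^ 2 := sq_nonneg s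
  have hye := yv_ev p s
  obtain ⟨y, hyd⟩ : ∃ y, yv p s = y := ⟨_, rfl⟩
  obtain ⟨e, hed⟩ : ∃ e, ev p = e := ⟨_, rfl⟩
  rw [hyd, hed] at hye
  rw [hyd] at hR hD hy hy0
  rw [hed] at he0 he1
  simp only [nTop, nnR, ndR, hyd, hed, hR, hD]
  push_cast
  rw [eQ_cast, hed]
  constructor
  · rw [show e * ((d.l0 : ℝ) + d.l1 * y + d.l2 * y ^ 2 + d.l6 * (y * e) +
        ((jump2 d.kn : ℝ) * y ^ 2 - 2 * (jump1 d.kn : ℝ) * y + (jump0 d.kn : ℝ))) =
      ((d.l0 : ℝ) + jump0 d.kn) * e + ((d.l1 : ℝ) - 2 * jump1 d.kn) * s ^ 2 +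
        ((d.l2 : ℝ) + jump2 d.kn) * (s ^ 2 * y) + (d.l6 : ℝ) * (s ^ 2 * e) by rw [← hye]; ring]
    refine (abs_add_le _ _).trans (add_le_add ((abs_add_three _ _ _).trans
      (add_le_add (add_le_add ?_ ?_) ?_)) ?_)
    · rw [abs_mul, abs_of_nonneg he0.le]
    · rw [abs_mul, abs_of_nonneg hz0]
      exact mul_le_of_le_one_right (abs_nonneg _) hs2
    · rw [abs_mul, abs_of_nonneg (mul_nonneg hz0 hy0)]
      exact mul_le_mul_of_nonneg_left ((mul_le_of_le_one_left hy0 hs2).trans hy) (abs_nonneg _)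
    · rw [abs_mul, abs_of_nonneg (mul_nonneg hz0 he0.le)]
      exact mul_le_mul_of_nonneg_left (mul_le_of_le_one_left he0.le hs2) (abs_nonneg _)
  · rw [show 2 * e * ((d.l1 : ℝ) + 2 * d.l2 * y + d.l6 * e +
        (2 * (jump2 d.kn : ℝ) * y - 2 * (jump1 d.kn : ℝ))) =
      2 * ((d.l1 : ℝ) - 2 * jump1 d.kn) * e + 4 * ((d.l2 : ℝ) + jump2 d.kn) * s ^ 2 +
        2 * (d.l6 : ℝ) * (e * e) by rw [← hye]; ring]
    refine (abs_add_three _ _ _).trans (add_le_add (add_le_add ?_ ?_) ?_)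
    · rw [abs_mul, abs_mul, abs_two, abs_of_nonneg he0.le]
    · rw [abs_mul, abs_mul, abs_of_nonneg (show (0 : ℝ) ≤ 4 by norm_num), abs_of_nonneg hz0]
      exact mul_le_of_le_one_right (by positivity) hs2
    · rw [abs_mul, abs_mul, abs_two, abs_of_nonneg (mul_nonneg he0.le he0.le)]
      exact mul_le_mul_of_nonneg_left (mul_le_of_le_one_left he0.le he1) (by positivity)

/-- `(1 - s ^ 2) |1 / r - 1|` beyond the bulk. -/
theorem dev_le (T : TailOk d p) {ell s t a r q : ℝ} (h : FlatState p ell s t a r q)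
    (hl : ell ≤ 1) (hz : (d.Z1 : ℝ) ≤ s ^ 2) : (1 - s ^ 2) * |1 / r - 1| ≤ (devTop d p : ℝ) := by
  have hs := h.state.s_mem
  have hr : 0 < 1 / r := one_div_pos.2 h.state.rate_pos
  have hc : 0 < 1 - s ^ 2 := by nlinarith [hs.1, hs.2]
  have hp : (0 : ℝ) ≤ p := Nat.cast_nonneg p
  have hk : √((p : ℝ) + 3) ≤ ((p : ℝ) + 3) / 16 + 4 := by
    nlinarith [sq_nonneg (√((p : ℝ) + 3) / 4 - 2),
      Real.sq_sqrt (show (0 : ℝ) ≤ (p : ℝ) + 3 by positivity)]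
  have hD : millsDen p s ≤ 17 / 16 * ((p : ℝ) + 3) + 4 := by
    rw [millsDen]
    nlinarith [mul_le_of_le_one_right (show (0 : ℝ) ≤ (p : ℝ) + 3 by positivity) hs.2.le]
  have h3 : Real.exp ell ≤ 3 :=
    (Real.exp_le_exp.2 hl).trans (Real.exp_one_lt_d9.le.trans (by norm_num))
  have hup : (1 - s ^ 2) * (1 / r) ≤ (1 - s ^ 2) * (17 / 16 * ((p : ℝ) + 3) + 4) := by
    rcases le_or_gt t s with hts | hts
    · exact mul_le_mul_of_nonneg_left
        ((h.inv_rate_le_exp hts).trans (h3.trans (by linarith))) hc.le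
    · have h1 := mul_le_mul_of_nonneg_left h.inv_rate_le hc.le
      rw [mul_div_cancel₀ _ hc.ne'] at h1
      refine h1.trans (mul_le_mul ?_ hD (millsDen_pos hs.1.le).le hc.le)
      nlinarith [hs.1, hs.2]
  have hZ : (1 - s ^ 2) * (17 / 16 * ((p : ℝ) + 3) + 4) ≤ (devTop d p : ℝ) := by
    rw [devTop]; push_cast
    exact mul_le_mul_of_nonneg_right (by linarith) (by positivity)
  rw [← abs_of_pos hc, ← abs_mul, abs_le]
  constructor <;> nlinarith [mul_pos hc hr]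

/-- The deficit of a test of slope at most two. -/
theorem testDef_ge_steep {g s t r : ℝ} (hg0 : 0 ≤ g) (hg2 : g ≤ 2) (hs : s ∈ Ioo (0 : ℝ) 1)
    (ht : t ∈ Ioo (0 : ℝ) 1) (hr : 0 < r) (hrate : s * (r * (1 - t)) ≤ 1 - s ^ 2) :
    -24 - g ^ 2 * ((p : ℝ) + 4) * (t - s) ^ 2 ≤ testDef p g s t r := by
  have e : testDef p g s t r =
      r * (2 * (1 + g) * (1 - s ^ 2 + g * (t - s) ^ 2 - (1 - g) * (s * (t - s)))) +
        2 * (1 + g) * (1 - s ^ 2) / r - 4 * (1 + g) * (1 - s ^ 2) +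
        2 * (1 - g ^ 2) * (s * (t - s)) - g ^ 2 * ((p : ℝ) + 4) * (t - s) ^ 2 := by
    simp only [testDef]
    field_simp
    ring
  have hz : 0 ≤ 1 - s ^ 2 := by nlinarith [hs.1, hs.2]
  have hz1 : 1 - s ^ 2 ≤ 1 := by linarith [sq_nonneg s]
  rcases le_or_gt g 1 with hg | hg
  · refine le_trans ?_ (Top.testDef_ge hg0 hg hs ht.2.le hr)
    have hg1 : g ^ 2 ≤ 1 := pow_le_one₀ hg0 hg
    have := mul_le_mul_of_nonneg_left ((abs_le.1 (Top.abs_mul_sub_le hs ht)).1)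
      (show 0 ≤ 2 * (1 - g ^ 2) by linarith)
    linarith [sq_nonneg g]
  have hg3 : 0 ≤ g ^ 2 - 1 := by nlinarith
  have hg4 : g ^ 2 - 1 ≤ 3 := by nlinarith
  have h1 : -(1 - s ^ 2) ≤ r * (s * (t - s)) := by
    have := mul_le_mul_of_nonneg_left (show s - t ≤ 1 - t by linarith [hs.2])
      (mul_nonneg hs.1.le hr.le)
    linarith
  have h2 : 0 ≤ r * (2 * (1 + g) * (1 - s ^ 2)) + r * (2 * (1 + g) * (g * (t - s) ^ 2)) := by
    have : 0 ≤ 1 + g := by linarith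
    have : 0 ≤ g := by linarith
    positivity
  have h3 : 0 ≤ 2 * (1 + g) * (1 - s ^ 2) / r := by
    have : 0 ≤ 1 + g := by linarith
    positivity
  have h4 : 4 * (1 + g) * (1 - s ^ 2) ≤ 12 :=
    (mul_le_of_le_one_right (by linarith) hz1).trans (by linarith)
  have h5 := mul_le_mul_of_nonneg_left h1 (show 0 ≤ 2 * (g ^ 2 - 1) by linarith)
  have h6 := mul_le_mul_of_nonneg_left ((abs_le.1 (Top.abs_mul_sub_le hs ht)).2)
    (show 0 ≤ 2 * (g ^ 2 - 1) by linarith)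
  have h7 : (g ^ 2 - 1) * (1 - s ^ 2) ≤ 3 := (mul_le_of_le_one_right hg3 hz1).trans hg4
  linarith

/-- The linear part, crude. -/
theorem slope_part (T : TailOk d p) {s t : ℝ} (hs : s ∈ Ioo (0 : ℝ) 1) (ht : t ∈ Ioo (0 : ℝ) 1)
    (hz : (d.Z1 : ℝ) ≤ s ^ 2) :
    -((slopeTop d p : ℝ) * (((p : ℝ) + 1) / arc s ^ 4)) ≤
      cancelD p (nuM p d) (potK p d) (potK' p d) s * (t - s) := by
  have hc : 0 < arc s := arc_pos ⟨by linarith [hs.1], hs.2⟩
  have hc1 : arc s ≤ 1 := Real.sqrt_le_one.2 (by nlinarith [hs.1])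
  have hc2 : arc s ^ 2 = 1 - s ^ 2 := Real.sq_sqrt (by nlinarith [hs.1, hs.2])
  have hcz : 0 ≤ 1 - s ^ 2 := hc2 ▸ sq_nonneg _
  have hm : (1 : ℝ) ≤ (p : ℝ) + 1 := by linarith [(Nat.cast_nonneg p : (0 : ℝ) ≤ p)]
  have he0 : 0 < ev p := by unfold ev; positivity
  have he1 : ev p ≤ 1 := by rw [ev, div_le_one (by linarith)]; exact hm
  obtain ⟨hn, hd⟩ := pot_tops T hs hz
  have hG := T.gg_pos.le
  have hN : 0 ≤ (d.N0 : ℝ) + d.N1 * ev p := by
    have h1 := T.nu_nonneg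
    have h2 : 0 ≤ Ident.muMin p := by
      rcases Nat.eq_zero_or_pos p with h0 | h0
      · subst h0; simp [Ident.muMin]
      · exact (Lift.muMin_pos h0).le
    rw [nuM] at h1
    linarith
  rw [show cancelD p (nuM p d) (potK p d) (potK' p d) s * (t - s) =
    cancelD p (nuM p d) (potK p d) (potK' p d) s * s * ((t - s) / s) by
      have := hs.1.ne'; field_simp, cancelD_eq hs]
  have hσ : |sigR d (yv p s) (ev p) (1 / arc s) ((d.N0 : ℝ) + d.N1 * ev p)| ≤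
      (slopeTop d p : ℝ) * (1 / arc s) := by
    have hi : 1 ≤ 1 / arc s := by rw [le_div_iff₀ hc, one_mul]; exact hc1
    have t1 : |(1 - ev p) * ggR d (ev p) * (1 / arc s)| ≤ ggR d (ev p) * (1 / arc s) := by
      rw [abs_of_nonneg (mul_nonneg (mul_nonneg (by linarith) hG) (by positivity))]
      exact mul_le_mul_of_nonneg_right (mul_le_of_le_one_left hG (by linarith)) (by positivity)
    have t2 : |(1 - yv p s * ev p) * (2 * ev p * ndR d (yv p s) (ev p) -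
        2 * (1 + 3 * ev p) * ((d.N0 : ℝ) + d.N1 * ev p))| ≤
        (1 - (d.Z1 : ℝ)) * (2 * |(d.l1 : ℝ) - 2 * jump1 d.kn| * ev p +
          4 * |(d.l2 : ℝ) + jump2 d.kn| + 2 * |(d.l6 : ℝ)| * ev p +
          2 * (1 + 3 * ev p) * ((d.N0 : ℝ) + d.N1 * ev p)) := by
      rw [yv_ev, abs_mul, abs_of_nonneg hcz]
      refine mul_le_mul (by linarith) ((abs_sub _ _).trans (add_le_add hd (le_of_eq ?_)))
        (abs_nonneg _) (by linarith [T.Z_lt])
      exact abs_of_nonneg (mul_nonneg (by linarith) hN)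
    have e1 : ((slopeTop d p : ℚ) : ℝ) = ggR d (ev p) +
        (1 - (d.Z1 : ℝ)) * (2 * |(d.l1 : ℝ) - 2 * jump1 d.kn| * ev p +
          4 * |(d.l2 : ℝ) + jump2 d.kn| + 2 * |(d.l6 : ℝ)| * ev p +
          2 * (1 + 3 * ev p) * ((d.N0 : ℝ) + d.N1 * ev p)) + (nTop d p : ℝ) := by
      simp only [slopeTop, ggR]
      push_cast
      rw [eQ_cast]
    rw [sigR, e1]
    refine (abs_sub _ _).trans ((add_le_add (abs_add_le _ _) le_rfl).trans ?_)
    have k1 := le_mul_of_one_le_right ((abs_nonneg _).trans t2) hi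
    have k2 := le_mul_of_one_le_right ((abs_nonneg _).trans hn) hi
    linarith
  have hS : 0 ≤ (slopeTop d p : ℝ) :=
    nonneg_of_mul_nonneg_left ((abs_nonneg _).trans hσ) (one_div_pos.2 hc)
  refine (abs_le.1 ?_).1
  have e2 : yv p s / (1 - s ^ 2) * sigR d (yv p s) (ev p) (1 / arc s)
      ((d.N0 : ℝ) + d.N1 * ev p) * ((t - s) / s) =
      ((p : ℝ) + 1) / arc s ^ 2 * (sigR d (yv p s) (ev p) (1 / arc s)
        ((d.N0 : ℝ) + d.N1 * ev p) * (s * (t - s))) := by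
    have := hs.1.ne'
    rw [yv, hc2]
    field_simp
  rw [e2, abs_mul, abs_mul _ (s * (t - s)), abs_of_nonneg (show 0 ≤ ((p : ℝ) + 1) / arc s ^ 2 by
    positivity)]
  refine (mul_le_mul_of_nonneg_left (mul_le_mul hσ (Top.abs_mul_sub_le hs ht) (abs_nonneg _)
    (mul_nonneg hS (by positivity))) (by positivity)).trans ?_
  rw [show ((p : ℝ) + 1) / arc s ^ 2 * ((slopeTop d p : ℝ) * (1 / arc s) * 1) =
    (slopeTop d p : ℝ) * (((p : ℝ) + 1) / arc s ^ 3) by field_simp]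
  exact mul_le_mul_of_nonneg_left (div_le_div_of_nonneg_left (by linarith) (pow_pos hc 4)
    (pow_le_pow_of_le_one hc.le hc1 (by norm_num))) hS

/-- The crude bound. -/
theorem tail_ge (T : TailOk d p) {ell s t a r q : ℝ} (h : FlatState p ell s t a r q)
    (hl : ell ≤ 1) (hz : (d.Z1 : ℝ) ≤ s ^ 2) :
    ell * wS p (arc s) - (tailK d p : ℝ) * (((p : ℝ) + 1) / arc s ^ 4) ≤
      cellR p d ell s t a r := by
  have hs := h.state.s_mem
  have ht := h.state.t_mem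
  have hr := h.state.rate_pos
  have hc := h.state.arc_pos'
  have hc1 : arc s ≤ 1 := Real.sqrt_le_one.2 (by nlinarith [hs.1])
  have hc2 : arc s ^ 2 = 1 - s ^ 2 := Real.sq_sqrt (by nlinarith [hs.1, hs.2])
  have hm : (1 : ℝ) ≤ (p : ℝ) + 1 := by linarith [(Nat.cast_nonneg p : (0 : ℝ) ≤ p)]
  obtain ⟨hn, -⟩ := pot_tops T hs hz
  have hU := dev_le T h hl hz
  have hG := T.gg_pos.le
  have ha := T.a_nonneg
  obtain ⟨M, hM⟩ : ∃ M, ((p : ℝ) + 1) / arc s ^ 4 = M := ⟨_, rfl⟩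
  have hMm : (p : ℝ) + 1 ≤ M :=
    hM ▸ le_div_self (by linarith) (pow_pos hc 4) (pow_le_one₀ hc.le hc1)
  obtain ⟨Dv, hDv⟩ : ∃ Dv, (devTop d p : ℝ) = Dv := ⟨_, rfl⟩
  rw [hDv] at hU
  have hDv0 : 0 ≤ Dv := le_trans (mul_nonneg (hc2 ▸ sq_nonneg _) (abs_nonneg _)) hU
  have hu : |1 / r - 1| ≤ Dv / arc s ^ 2 := by
    rw [le_div_iff₀ (pow_pos hc 2), hc2, mul_comm]
    exact hU
  rw [cellR, Top.cancelExpr_eq _ _ _ _ _ _ _ _ _ _ _ hr.ne',
    show potB' d s - potRate p s * potB d s = (d.a : ℝ) * ((p : ℝ) + 2 + 1 / s ^ 2) from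
      (polePot_null p (d.a : ℝ) hs).2]
  have hrate : s * (r * (1 - t)) ≤ 1 - s ^ 2 := by
    have h0 := h.rate_le
    have h1 : 0 ≤ s * (r * (1 - t)) :=
      mul_nonneg hs.1.le (mul_nonneg hr.le (by linarith [ht.2]))
    have h2 : s * (r * (1 - t)) * ((p : ℝ) + 2) ≤ (1 - s ^ 2) * ((p : ℝ) + 2) := by linarith
    exact le_of_mul_le_mul_right h2 (by positivity)
  have p1 : -(24 * (nuTop d p : ℝ) / ((p : ℝ) + 1) * M) -
      nuM p d * (d.g : ℝ) ^ 2 * ((p : ℝ) + 4) * (t - s) ^ 2 ≤ nuM p d * testDef p d.g s t r := by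
    refine le_trans ?_ (mul_le_mul_of_nonneg_left
      (testDef_ge_steep T.g_ge T.g_le hs ht hr hrate) T.nu_nonneg)
    have h1 : 24 * nuM p d ≤ 24 * (nuTop d p : ℝ) / ((p : ℝ) + 1) * M := by
      rw [div_mul_eq_mul_div, le_div_iff₀ (by linarith)]
      exact mul_le_mul (by linarith [T.nu_le]) hMm (by linarith)
        (by linarith [T.nu_le, T.nu_nonneg])
    linarith
  have p2 : -(ggR d (ev p) * M) ≤ gamM p d * Ident.b0 p * (1 / a - 1 / arc s) := by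
    have hb := Ident.b0_pos p
    rw [show gamM p d * Ident.b0 p = ggR d (ev p) * ((p : ℝ) + 1) by rw [gamM]; field_simp]
    have h4 : ggR d (ev p) * ((p : ℝ) + 1) * (1 / arc s) ≤ ggR d (ev p) * M := by
      rw [mul_assoc, mul_one_div, ← hM]
      refine mul_le_mul_of_nonneg_left ?_ hG
      exact div_le_div_of_nonneg_left (by linarith) (pow_pos hc 4)
        (pow_le_of_le_one hc.le hc1 (by norm_num))
    linarith [mul_nonneg (mul_nonneg hG (show 0 ≤ (p : ℝ) + 1 by linarith))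
      (one_div_nonneg.2 h.state.pos.le)]
  have p3 : -((ggR d (ev p) + (nTop d p : ℝ)) * Dv / ((p : ℝ) + 1) * M) ≤
      potK p d s * (1 / r - 1) := by
    have hK : |potK p d s| ≤ (ggR d (ev p) + (nTop d p : ℝ)) / arc s := by
      rw [potK, add_div]
      refine (abs_add_le _ _).trans (add_le_add ?_ ?_)
      · rw [abs_div, abs_neg, abs_of_pos hc, abs_of_nonneg hG]
      · exact hn.trans (le_div_self ((abs_nonneg _).trans hn) hc hc1)
    refine (abs_le.1 ?_).1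
    rw [abs_mul]
    refine (mul_le_mul hK hu (abs_nonneg _) ((abs_nonneg _).trans hK)).trans ?_
    have hK0 : 0 ≤ (ggR d (ev p) + (nTop d p : ℝ)) * Dv :=
      mul_nonneg (add_nonneg hG ((abs_nonneg _).trans hn)) hDv0
    rw [div_mul_div_comm, ← hM, ← mul_div_assoc, div_mul_cancel₀ _ (by linarith)]
    exact div_le_div_of_nonneg_left hK0 (pow_pos hc 4)
      (by rw [show arc s * arc s ^ 2 = arc s ^ 3 by ring]
          exact pow_le_pow_of_le_one hc.le hc1 (by norm_num))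
  have p4 := slope_part T (t := t) hs ht hz
  rw [hM] at p4
  have p5 : nuM p d * (d.g : ℝ) ^ 2 * ((p : ℝ) + 4) * (t - s) ^ 2 +
      (d.a : ℝ) / s ^ 2 * (t - s) ^ 2 ≤
      (d.a : ℝ) * ((p : ℝ) + 2 + 1 / s ^ 2) * (t - s) ^ 2 := by
    have hx : nuM p d * (d.g : ℝ) ^ 2 * ((p : ℝ) + 4) ≤ (d.a : ℝ) * ((p : ℝ) + 2) :=
      le_trans (mul_le_mul_of_nonneg_right (mul_le_mul_of_nonneg_right T.nu_le (sq_nonneg _))
        (by linarith)) T.gap
    have h1 := mul_le_mul_of_nonneg_right hx (sq_nonneg (t - s))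
    rw [show (d.a : ℝ) * ((p : ℝ) + 2 + 1 / s ^ 2) * (t - s) ^ 2 =
      (d.a : ℝ) * ((p : ℝ) + 2) * (t - s) ^ 2 + (d.a : ℝ) / s ^ 2 * (t - s) ^ 2 by ring]
    linarith
  have p6 : -((d.a : ℝ) / s ^ 2 * (t - s) ^ 2) - (d.a : ℝ) * Dv ^ 2 / ((p : ℝ) + 1) * M ≤
      2 * potB d s * ((1 / r - 1) * (t - s)) := by
    have h0 := hs.1.ne'
    have e : 2 * potB d s * ((1 / r - 1) * (t - s)) + (d.a : ℝ) / s ^ 2 * (t - s) ^ 2 +
        (d.a : ℝ) * ((1 - s ^ 2) * (1 / r - 1)) ^ 2 =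
        (d.a : ℝ) * ((t - s) / s - (1 - s ^ 2) * (1 / r - 1)) ^ 2 := by
      rw [potB]; field_simp; ring
    have h1 : ((1 - s ^ 2) * (1 / r - 1)) ^ 2 ≤ Dv ^ 2 := by
      rw [← sq_abs, abs_mul, abs_of_nonneg (hc2 ▸ sq_nonneg _)]
      exact pow_le_pow_left₀ (mul_nonneg (hc2 ▸ sq_nonneg _) (abs_nonneg _)) hU 2
    have h2 : (d.a : ℝ) * Dv ^ 2 ≤ (d.a : ℝ) * Dv ^ 2 / ((p : ℝ) + 1) * M := by
      rw [div_mul_eq_mul_div, le_div_iff₀ (by linarith)]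
      exact mul_le_mul_of_nonneg_left hMm (mul_nonneg ha (sq_nonneg Dv))
    nlinarith [mul_nonneg ha (sq_nonneg ((t - s) / s - (1 - s ^ 2) * (1 / r - 1))),
      mul_le_mul_of_nonneg_left h1 ha]
  have eK : (tailK d p : ℝ) * M = ggR d (ev p) * M + (slopeTop d p : ℝ) * M +
      (ggR d (ev p) + (nTop d p : ℝ)) * Dv / ((p : ℝ) + 1) * M +
      (d.a : ℝ) * Dv ^ 2 / ((p : ℝ) + 1) * M + 24 * (nuTop d p : ℝ) / ((p : ℝ) + 1) * M := by
    simp only [tailK, ggR, ← hDv]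
    push_cast
    rw [eQ_cast]
    ring
  rw [hM, eK]
  linarith

/-- The tail, as used in the mean. -/
theorem tailG_ge (T : TailOk d p) {ell s t a r q : ℝ} (j : ℕ) (h : FlatState p ell s t a r q)
    (hl : ell ≤ 1) (hz : (d.Z1 : ℝ) ≤ s ^ 2) :
    ell * wS p (arc s) - tailG p d |tailK d p| j s ≤ cellR p d ell s t a r := by
  refine le_trans (sub_le_sub_left ?_ _) (tail_ge T h hl hz)
  have hs := h.state.s_mem
  have hc : 0 < 1 - s ^ 2 := by nlinarith [hs.1, hs.2]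
  have hc2 : arc s ^ 2 = 1 - s ^ 2 := Real.sq_sqrt hc.le
  rw [tailG, show arc s ^ 4 = (1 - s ^ 2) ^ 2 by rw [← hc2]; ring,
    show ((|tailK d p| : ℚ) : ℝ) * ((p : ℝ) + 1) * (1 / (d.Z1 : ℝ)) ^ j *
      (s ^ (2 * j) / (1 - s ^ 2) ^ 2) = ((|tailK d p| : ℚ) : ℝ) *
        (((p : ℝ) + 1) / (1 - s ^ 2) ^ 2) * (1 / (d.Z1 : ℝ) * s ^ 2) ^ j by
      rw [mul_pow, ← pow_mul]; ring]
  refine (mul_le_mul_of_nonneg_right (by exact_mod_cast le_abs_self (tailK d p))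
    (by positivity)).trans (le_mul_of_one_le_right (by positivity) (one_le_pow₀ ?_))
  rw [one_div, ← div_eq_inv_mul, one_le_div T.Z_pos]
  exact hz

theorem tailG_nonneg (hZ : 0 < d.Z1) (p : ℕ) {K : ℚ} (hK : 0 ≤ K) (j : ℕ) (s : ℝ) :
    0 ≤ tailG p d K j s := by
  have : 0 < (d.Z1 : ℝ) := by exact_mod_cast hZ
  have : 0 ≤ (K : ℝ) := by exact_mod_cast hK
  rw [tailG, pow_mul]
  positivity

/-- A power that makes the tail small. -/
def jTail (d : Rec) (p : ℕ) : ℕ :=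
  ((d.Z1 * ((p : ℚ) - 2) + 1) / (2 * (1 - d.Z1))).floor.toNat + 1

/-- The conditions of a record at an order, apart from the bulk. -/
def okOrder (d : Rec) (p : ℕ) : Bool :=
  okTail d p && okMeanAt d |tailK d p| (jTail d p) p && decide (0 ≤ d.w0) &&
    decide (d.w1 ≤ (p : ℚ) + 2)

/-- The cell from the bound in the bulk. -/
theorem corCell_of_bulk {bs : List Box} {b0 : Box} {l : List Box} (hbs : bs = b0 :: l)
    (hp : 4 ≤ p) (hq : glueOk Box.q bs = true) (hm : glueOk Box.qm bs = true)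
    (h0 : b0.y0 = 0) (hend : glueEnd ((p : ℚ) + 1) bs = true) (hok : okOrder d p = true)
    (hlo : polyR d.muLo (ev p) ≤ Ident.muMin p) (hup : Ident.muMin p ≤ polyR d.muUp (ev p))
    (hsign : ∀ b ∈ bs, ∀ y ∈ Icc (b.y0 : ℝ) b.y1, y * ev p ≤ 1 →
      0 ≤ (remE d b).eval [y, ev p] ∧ 0 ≤ (massE d b).eval [y, ev p])
    (hbulk : TailOk d p → ∀ ell ∈ Icc ((d.w0 : ℝ) / ((p : ℝ) + 2)) ((d.w1 : ℝ) / ((p : ℝ) + 2)),
      ∀ s t a r q : ℝ, FlatState p ell s t a r q → s ^ 2 ≤ (d.Z1 : ℝ) →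
        ell * (wS p (arc s) - massF p d bs s) - remF p d bs s ≤ cellR p d ell s t a r) :
    CorCell p ((d.w0 : ℝ) / ((p : ℝ) + 2)) ((d.w1 : ℝ) / ((p : ℝ) + 2)) := by
  simp only [okOrder, Bool.and_eq_true, decide_eq_true_eq] at hok
  obtain ⟨⟨⟨h1, h2⟩, h3⟩, h4⟩ := hok
  have T := tailOk_of h1 hlo hup
  have hZ : 0 < d.Z1 := by exact_mod_cast T.Z_pos
  have hw1 : (d.w1 : ℝ) ≤ (p : ℝ) + 2 := by
    have := (Rat.cast_le (K := ℝ)).2 h4
    push_cast at this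
    exact this
  refine corCell_of_pointwise hp hq hm T.gg_pos T.nu_nonneg h3 (abs_nonneg _) hZ hlo h2
    fun ell hl s t a r q h => ?_
  have hT := tailG_nonneg hZ p (abs_nonneg (tailK d p)) (jTail d p) s
  rcases le_total (s ^ 2) (d.Z1 : ℝ) with hz | hz
  · have := hbulk T ell hl s t a r q h hz
    linarith
  · have hl1 : ell ≤ 1 := hl.2.trans ((div_le_one (by positivity)).2 hw1)
    have ht := tailG_ge T (jTail d p) h hl1 hz
    have hl0 : 0 ≤ ell :=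
      le_trans (div_nonneg (by exact_mod_cast h3) (by positivity)) hl.1
    have hs2 : s ^ 2 ≤ 1 := by nlinarith [h.state.s_mem.1, h.state.s_mem.2]
    subst hbs
    obtain ⟨b, hb, hy⟩ := glue_cover l hq hend (yv p s)
      (by rw [h0, Rat.cast_zero, yv]; positivity)
      (by push_cast; rw [yv]; exact mul_le_of_le_one_right (by positivity) hs2)
    obtain ⟨g1, g2⟩ := hsign b hb _ hy ((yv_ev p s).trans_le hs2)
    obtain ⟨e1, e2⟩ := eval_rem_mass (d := d) hq hm hb hy (ev p) []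
    rw [e1] at g1
    rw [e2] at g2
    have := mul_nonneg hl0 g2
    rw [remF, massF]
    linarith

end Vale.Agent.P237.Petty.Cor.Low20
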