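import Vale.Agent.P237.Petty.Cor.Low20.TopPoly
import Vale.Agent.P237.Petty.Cor.Low20.Series
import Vale.Agent.P237.Petty.Cor.Low20.Point

/-!
# P237: the top of `1 / r` on a box, from its checked polynomials
-/

namespace Vale.Agent.P237.Petty.Cor.Low20

open MeasureTheory Set intervalIntegral
open Vale.Agent.P100.Bernstein
open Ident (half rate)
open Lift (circLow circHigh)

variable {p : ℕ} {d : Rec} {b : Box}

/-- A rational function below the ratio of the mass above, from one inequality. -/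
theorem circHigh_ge_ratio {N N' D D' : ℝ → ℝ} (hN : ∀ X, HasDerivAt N (N' X) X)
    (hD : ∀ X, HasDerivAt D (D' X) X)
    (hDp : ∀ u ∈ Icc (0 : ℝ) 1, 0 < D (√((p : ℝ) + 3) * u))
    (hc : ∀ u ∈ Icc (0 : ℝ) 1,
      0 ≤ D (√((p : ℝ) + 3) * u) ^ 2 -
          √((p : ℝ) + 3) * u * (N (√((p : ℝ) + 3) * u) * D (√((p : ℝ) + 3) * u)) +
        (1 - u ^ 2) * (N' (√((p : ℝ) + 3) * u) * D (√((p : ℝ) + 3) * u) -
          N (√((p : ℝ) + 3) * u) * D' (√((p : ℝ) + 3) * u)))
    {s : ℝ} (hs : s ∈ Icc (0 : ℝ) 1) :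
    arc s ^ (p + 3) * (N (√((p : ℝ) + 3) * s) /
        (√((p : ℝ) + 3) * D (√((p : ℝ) + 3) * s))) ≤ circHigh p s := by
  set k := √((p : ℝ) + 3) with hk
  have hk0 : 0 < k := Real.sqrt_pos.2 (by positivity)
  have hk2 : k ^ 2 = (p : ℝ) + 3 := Real.sq_sqrt (by positivity)
  have hcN : Continuous N := continuous_iff_continuousAt.2 fun X => (hN X).continuousAt
  have hcD : Continuous D := continuous_iff_continuousAt.2 fun X => (hD X).continuousAt
  have hF : ContinuousOn
      (fun u => -(arc u ^ (p + 3) * (N (k * u) / (k * D (k * u))))) (Icc s 1) :=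
    ((continuous_arc.pow _).continuousOn.mul ((hcN.comp (continuous_const.mul
      continuous_id)).continuousOn.div (continuous_const.mul (hcD.comp (continuous_const.mul
        continuous_id))).continuousOn fun u hu =>
        (mul_pos hk0 (hDp u ⟨hs.1.trans hu.1, hu.2⟩)).ne')).neg
  have h := sub_le_integral_of_hasDeriv_right_of_le
    (g' := fun u => arc u ^ (p + 1) * (k * u * (N (k * u) / D (k * u)) -
      (1 - u ^ 2) * ((N' (k * u) * D (k * u) - N (k * u) * D' (k * u)) / D (k * u) ^ 2)))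
    (φ := fun u => arc u ^ (p + 1)) hs.2 hF (fun u hu => ?_)
    ((continuous_arc.pow _).integrableOn_Icc) fun u hu => ?_
  · simp only [Lift.circHigh, neg_sub_neg] at h ⊢
    simpa [arc] using h
  · have hu0 : 0 < 1 - u ^ 2 := by nlinarith [hu.1, hu.2, hs.1]
    have h2 : arc u ^ 2 = 1 - u ^ 2 := Real.sq_sqrt hu0.le
    have hDu := hDp u ⟨hs.1.trans hu.1.le, hu.2.le⟩
    have hl : HasDerivAt (fun y : ℝ => k * y) k u := by
      simpa using (hasDerivAt_id' u).const_mul k
    have hd : HasDerivAt (fun y => N (k * y) / (k * D (k * y)))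
        ((N' (k * u) * D (k * u) - N (k * u) * D' (k * u)) / D (k * u) ^ 2) u := by
      refine (((hN (k * u)).comp u hl).fun_div (((hD (k * u)).comp u hl).const_mul k)
        (mul_pos hk0 hDu).ne').congr_deriv ?_
      simp only [Function.comp_apply]
      field_simp
    refine (((hasDerivAt_arc_pow (p + 2) (s := u) ⟨by linarith [hu.1, hs.1], hu.2⟩).mul hd
      ).neg.congr_deriv ?_).hasDerivWithinAt
    rw [show arc u ^ (p + 2 + 1) = arc u ^ (p + 1) * (1 - u ^ 2) by rw [← h2]; ring]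
    push_cast
    have e : k * u * (N (k * u) / D (k * u)) =
        ((p : ℝ) + 3) * u * (N (k * u) / (k * D (k * u))) := by
      rw [← hk2]; field_simp
    rw [e]
    field_simp
    ring
  · refine mul_le_of_le_one_right (pow_nonneg (Real.sqrt_nonneg _) _) ?_
    have hu' : u ∈ Icc (0 : ℝ) 1 := ⟨hs.1.trans hu.1.le, hu.2.le⟩
    have q1 := hc u hu'
    have q3 := hDp u hu'
    rw [mul_div_assoc', mul_div_assoc', div_sub_div _ _ q3.ne' (pow_pos q3 2).ne',
      div_le_one (by positivity)]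
    have := mul_nonneg q3.le q1
    linear_combination this

theorem eval_sumE (x : List ℝ) (f : ℕ → Expr) : ∀ n : ℕ,
    (sumE n f).eval x = ∑ k ∈ Finset.range n, (f k).eval x
  | 0 => by simp [sumE]
  | n + 1 => by simp [sumE, Finset.sum_range_succ, eval_sumE x f n]

theorem eval_expTE (x : List ℝ) (t : Expr) (n : ℕ) :
    (expTE n t).eval x = expT n (t.eval x) := by
  rw [expTE, eval_sumE, expT]
  refine Finset.sum_congr rfl fun k _ => ?_
  simp only [Expr.eval_mul, Expr.eval_pow, eval_cQ]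
  push_cast
  rw [neg_pow]
  ring

theorem expTQ_cast : ∀ (n : ℕ) (x : ℚ), ((expTQ n x : ℚ) : ℝ) = expT n (x : ℝ)
  | 0, x => by simp [expTQ, expT]
  | n + 1, x => by
    rw [expTQ, expT, Finset.sum_range_succ, ← expT, ← expTQ_cast n x]
    push_cast
    ring

/-- The kernel checks behind the top of a box, as a property. -/
def TopSound (d : Rec) (b : Box) : Prop :=
  ∀ q ∈ topClaims d b, ∀ x : List ℝ, x.getD 0 0 * x.getD 1 0 ≤ (d.Z1 : ℝ) → InBox q.2 x →
    0 ≤ q.1.eval x

/-- The kernel checks of the rationals below the ratio of the mass above, as a property. -/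
def MillsSound (d : Rec) : Prop :=
  ∀ q ∈ millsClaims d, ∀ x : List ℝ, InBox q.2 x → 0 ≤ q.1.eval x

/-- The rational conditions of a record for the tops. -/
def okRecTop (d : Rec) : Bool := decide (0 < d.el) && decide (d.eh ≤ 1 / 19)

/-- The rational conditions of a box for its top. -/
def okTop (d : Rec) (b : Box) : Bool :=
  decide (0 ≤ b.y0) && decide (b.zu d < 1) &&
    (b.self || (decide (0 < b.yu) && decide (b.yu ≤ b.y0)))

section

variable (hd : okRecTop d = true) (hp : ev p ∈ Icc (d.el : ℝ) d.eh) (hM : MillsSound d)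

include hd hp

theorem mills_mem {u : ℝ} (hu : u ∈ Icc (0 : ℝ) 1) :
    InBox (millsRng d) [√((p : ℝ) + 3) * u, ev p] := by
  simp only [okRecTop, Bool.and_eq_true, decide_eq_true_eq] at hd
  have hel : (0 : ℝ) < d.el := by exact_mod_cast hd.1
  refine ⟨(mem_ivQ ?_).1, (mem_ivQ ?_).2, (mem_ivQ hp).1, (mem_ivQ hp).2, trivial⟩ <;>
  · have hk : 0 ≤ √((p : ℝ) + 3) := Real.sqrt_nonneg _
    have hk2 : √((p : ℝ) + 3) ^ 2 = (p : ℝ) + 3 := Real.sq_sqrt (by positivity)
    have hX : 0 ≤ √((p : ℝ) + 3) * u := mul_nonneg hk hu.1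
    have hm : (p : ℝ) + 1 ≤ 1 / (d.el : ℝ) := by
      have h := one_div_le_one_div_of_le hel hp.1
      rwa [ev, one_div_one_div] at h
    have hX2 : (√((p : ℝ) + 3) * u) ^ 2 ≤ 1 / (d.el : ℝ) + 2 := by
      rw [mul_pow, hk2]
      nlinarith [pow_le_one₀ hu.1 hu.2 (n := 2)]
    simp only [List.headD_cons, List.tail_cons]
    push_cast [xMax]
    exact ⟨hX, by nlinarith [sq_nonneg (√((p : ℝ) + 3) * u - 7)]⟩

include hM

/-- The near bound of the mass above. -/
theorem near_ge {s : ℝ} (hs : s ∈ Icc (0 : ℝ) 1) :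
    arc s ^ (p + 3) * ((nearN d (.var 0) xE).eval [√((p : ℝ) + 3) * s, ev p] /
        (√((p : ℝ) + 3) * (nearD d (.var 0) xE).eval [√((p : ℝ) + 3) * s, ev p])) ≤
      circHigh p s := by
  set k := √((p : ℝ) + 3) with hk
  have hk2 : k ^ 2 = (p : ℝ) + 3 := Real.sq_sqrt (by positivity)
  refine circHigh_ge_ratio
    (N := fun X => (nearN d (.var 0) xE).eval [X, ev p])
    (N' := fun X => (nearN' d (.var 0) xE).eval [X, ev p])
    (D := fun X => (nearD d (.var 0) xE).eval [X, ev p])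
    (D' := fun X => (nearD' d (.var 0) xE).eval [X, ev p]) ?_ ?_ ?_ ?_ hs
  · intro X
    simp [nearN, nearN', mmE, eval_cQ, xE]
    refine ((hasDerivAt_pow 2 X).fun_add ((hasDerivAt_id' X).const_mul _)).congr_deriv ?_
    push_cast
    ring
  · intro X
    simp [nearD, nearD', mmE, eval_cQ, xE]
    refine (((hasDerivAt_pow 3 X).fun_add ((hasDerivAt_pow 2 X).const_mul _)).fun_add
      ((hasDerivAt_id' X).const_mul _)).congr_deriv ?_
    push_cast
    ring
  · intro u hu
    have h := hM (nearD d (.var 0) xE - .frac 1 1000, millsRng d) (by simp [millsClaims])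
      _ (mills_mem hd hp hu)
    simp only [Expr.eval_sub, Expr.eval_frac] at h
    push_cast at h
    rw [← hk] at h
    linarith
  · intro u hu
    have h := hM (millsClaim (nearN d (.var 0) xE) (nearN' d (.var 0) xE) (nearD d (.var 0) xE)
      (nearD' d (.var 0) xE), millsRng d) (by simp [millsClaims]) _ (mills_mem hd hp hu)
    rw [← hk] at h
    have he : 0 < ev p := by unfold ev; positivity
    have e1 : (k * u) ^ 2 * ev p = u ^ 2 * (1 + 2 * ev p) := by
      rw [mul_pow, hk2, ev]; field_simp; ring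
    simp [millsClaim, xE] at h
    simp only [xE] at *
    refine nonneg_of_mul_nonneg_left (le_of_le_of_eq h ?_)
      (show 0 < 1 + 2 * ev p by positivity)
    rw [e1]
    ring

/-- The far bound of the mass above. -/
theorem far_ge {s : ℝ} (hs : s ∈ Icc (0 : ℝ) 1) :
    arc s ^ (p + 3) * ((farN d (.var 0) xE).eval [√((p : ℝ) + 3) * s, ev p] /
        (√((p : ℝ) + 3) * (farD d (.var 0) xE).eval [√((p : ℝ) + 3) * s, ev p])) ≤
      circHigh p s := by
  set k := √((p : ℝ) + 3) with hk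
  have hk2 : k ^ 2 = (p : ℝ) + 3 := Real.sq_sqrt (by positivity)
  refine circHigh_ge_ratio
    (N := fun X => (farN d (.var 0) xE).eval [X, ev p])
    (N' := fun X => (farN' d (.var 0) xE).eval [X, ev p])
    (D := fun X => (farD d (.var 0) xE).eval [X, ev p])
    (D' := fun X => (farD' d (.var 0) xE).eval [X, ev p]) ?_ ?_ ?_ ?_ hs
  · intro X
    simp [farN, farN', farA, kkE, eval_cQ, xE]
    refine ((hasDerivAt_id' X).fun_mul ((((hasDerivAt_pow 2 X).fun_pow 2).fun_add
      ((hasDerivAt_pow 2 X).const_mul _)).add_const _)).congr_deriv ?_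
    push_cast
    ring
  · intro X
    simp [farD, farD', farQ, kkE, eval_cQ, xE]
    refine ((((((hasDerivAt_pow 2 X).add_const _).fun_mul (hasDerivAt_pow 2 X)).add_const _).fun_mul
      (hasDerivAt_pow 2 X))).congr_deriv ?_
    push_cast
    ring
  · intro u hu
    have h := hM (farD d (.var 0) xE - .frac 1 1000, millsRng d) (by simp [millsClaims])
      _ (mills_mem hd hp hu)
    simp only [Expr.eval_sub, Expr.eval_frac] at h
    push_cast at h
    rw [← hk] at h
    linarith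
  · intro u hu
    have h := hM (millsClaim (farN d (.var 0) xE) (farN' d (.var 0) xE) (farD d (.var 0) xE)
      (farD' d (.var 0) xE), millsRng d) (by simp [millsClaims]) _ (mills_mem hd hp hu)
    rw [← hk] at h
    have e1 : (k * u) ^ 2 * ev p = u ^ 2 * (1 + 2 * ev p) := by
      rw [mul_pow, hk2, ev]; field_simp; ring
    simp [millsClaim, xE] at h
    simp only [xE] at *
    refine nonneg_of_mul_nonneg_left (le_of_le_of_eq h ?_)
      (show 0 < 1 + 2 * ev p by unfold ev; positivity)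
    rw [e1]
    ring

omit hM

theorem halfE_ge (x : ℝ) :
    half (p + 1) * √((p : ℝ) + 3) ≤ halfE.eval [x, ev p] := by
  simp only [okRecTop, Bool.and_eq_true, decide_eq_true_eq] at hd
  have he1 : ev p ≤ 1 / 19 := hp.2.trans (by
    have := (Rat.cast_le (K := ℝ)).2 hd.2
    push_cast at this
    exact this)
  have he0 : 0 < ev p := by unfold ev; positivity
  simp [halfE, xE]
  set e := ev p with he
  have hh : 0 ≤ half (p + 1) * √((p : ℝ) + 3) :=
    mul_nonneg (Ident.half_pos _).le (Real.sqrt_nonneg _)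
  refine (pow_le_pow_iff_left₀ hh (by nlinarith) (show (4 : ℕ) ≠ 0 by norm_num)).1 ?_
  rw [show (half (p + 1) * √((p : ℝ) + 3)) ^ 4 =
    (half (p + 1) ^ 2 * √((p : ℝ) + 3) ^ 2) ^ 2 by ring, Real.sq_sqrt (by positivity)]
  refine (Band20.half_sq_sq_le p).trans ?_
  rw [show (2 * (p : ℝ) + 7) / (2 * (p : ℝ) + 5) = (2 + 5 * e) / (2 + 3 * e) by
    rw [he, ev]; field_simp; ring, mul_div_assoc', div_le_iff₀ (by linarith)]
  have he2 : e ^ 2 ≤ e * (1 / 19) := by rw [sq]; exact mul_le_mul_of_nonneg_left he1 he0.le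
  have q1 : 1 + e / 2 - 668 / 1000 * e ^ 2 ≤ (1 + 1 / 4 * e - 9 / 25 * e ^ 2) ^ 2 := by nlinarith
  have q0 : 0 ≤ 1 + e / 2 - 668 / 1000 * e ^ 2 := by nlinarith
  have q2 : 1 + e - 113 / 100 * e ^ 2 ≤ (1 + e / 2 - 668 / 1000 * e ^ 2) ^ 2 := by nlinarith
  have q3 := q2.trans (pow_le_pow_left₀ q0 q1 2)
  have q4 := mul_le_mul_of_nonneg_right q3 (show 0 ≤ 2 + 3 * e by linarith)
  have q5 : 2 + 5 * e ≤ (1 + e - 113 / 100 * e ^ 2) * (2 + 3 * e) := by nlinarith
  calc 157085 / 100000 * (157085 / 100000) * (2 + 5 * e)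
      ≤ (1253336 / 1000000) ^ 4 * ((1 + 1 / 4 * e - 9 / 25 * e ^ 2) ^ 2) ^ 2 * (2 + 3 * e) := by
        rw [mul_assoc ((1253336 / 1000000 : ℝ) ^ 4)]
        exact mul_le_mul (by norm_num) (q5.trans q4) (by linarith) (by positivity)
    _ = _ := by ring

include hM

/-- The top from the abscissa itself. -/
theorem top_self (hb : okTop d b = true) (hs' : b.self = true) (hS : TopSound d b)
    {ell s t a r q : ℝ} (h : FlatState p ell s t a r q) (h0 : 0 ≤ ell)
    (hE : Real.exp ell ≤ 1 + (d.kapE : ℝ) * ev p) (hz : s ^ 2 ≤ (d.Z1 : ℝ))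
    (hy : yv p s ∈ Icc (b.y0 : ℝ) b.y1) (he : ev p ∈ Icc (d.el : ℝ) b.eh) :
    1 / r ≤ (topE b).eval [yv p s, ev p] := by
  have hd' := hd
  simp only [okTop, Bool.and_eq_true, decide_eq_true_eq] at hb
  obtain ⟨⟨h1, h2⟩, -⟩ := hb
  have hy0 : (0 : ℝ) ≤ b.y0 := by exact_mod_cast h1
  have hzu : ((b.zu d : ℚ) : ℝ) < 1 := by exact_mod_cast h2
  have hs := h.state.s_mem
  have hze : yv p s * ev p = s ^ 2 := by rw [yv, ev]; field_simp
  have hb2 : InBox (b.rng d) [yv p s, ev p] := inRng hy he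
  have hz2 : ([yv p s, ev p] : List ℝ).getD 0 0 * ([yv p s, ev p] : List ℝ).getD 1 0 ≤
      (d.Z1 : ℝ) := by
    simpa [hze] using hz
  have claim : ∀ q ∈ selfClaims d b, q.2 = b.rng d → 0 ≤ q.1.eval [yv p s, ev p] := fun q hq e =>
    hS q (by simp [topClaims, hs', hq]) _ hz2 (e ▸ hb2)
  have k1 := claim (selfAt d b (horner xW b.xl), b.rng d) (by simp [selfClaims]) rfl
  have k2 := claim (selfAt d b (horner xW b.xu), b.rng d) (by simp [selfClaims]) rfl
  have k3 := claim (horner xW b.xl, b.rng d) (by simp [selfClaims]) rfl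
  have k4 := claim (xW - horner xW b.xl ^ 2, b.rng d) (by simp [selfClaims]) rfl
  have k5 := claim (horner xW b.xu, b.rng d) (by simp [selfClaims]) rfl
  have k6 := claim (horner xW b.xu ^ 2 - xW, b.rng d) (by simp [selfClaims]) rfl
  have k7 := claim (powSelf d b - .frac 1 10000, b.rng d) (by simp [selfClaims]) rfl
  have k8 := claim (xW + mmE d 0 xE - .frac 1 1000, b.rng d) (by simp [selfClaims]) rfl
  have k9 := claim (mmE d 1 xE, b.rng d) (by simp [selfClaims]) rfl
  have k10 := claim (cQ b.expLeft, b.rng d) (by simp [selfClaims]) rfl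
  have k11 := claim (cQ d.kapE, b.rng d) (by simp [selfClaims]) rfl
  set k := √((p : ℝ) + 3) with hk
  have hk0 : 0 < k := Real.sqrt_pos.2 (by positivity)
  have hk2 : k ^ 2 = (p : ℝ) + 3 := Real.sq_sqrt (by positivity)
  set X := k * s with hX
  set y := yv p s with hyd
  set e := ev p with hed
  have he0 : 0 < e := by rw [hed, ev]; positivity
  have hX0 : 0 ≤ X := mul_nonneg hk0.le hs.1.le
  have hW : (xW).eval [y, e] = X ^ 2 := by
    simp [xW, xY, xE]
    rw [hX, mul_pow, hk2, hyd, hed, yv, ev]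
    field_simp
    ring
  simp only [Expr.eval_sub, Expr.eval_add, Expr.eval_pow, Expr.eval_frac, eval_horner, hW,
    eval_cQ] at k3 k4 k5 k6 k7 k8 k10 k11
  push_cast at k7 k8
  have hxl : polyR b.xl (X ^ 2) ≤ X := (pow_le_pow_iff_left₀ k3 hX0 two_ne_zero).1 (by linarith)
  have hxu : X ≤ polyR b.xu (X ^ 2) := (pow_le_pow_iff_left₀ hX0 k5 two_ne_zero).1 (by linarith)
  set c0 := (mmE d 0 xE).eval [y, e] with hc0
  set c1 := (mmE d 1 xE).eval [y, e] with hc1
  set c2 := (mmE d 2 xE).eval [y, e] with hc2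
  set c3 := (mmE d 3 xE).eval [y, e] with hc3
  set c4 := (mmE d 4 xE).eval [y, e] with hc4
  set T := (topE b).eval [y, e] with hT
  set cl := (powSelf d b).eval [y, e] with hcl
  set P := (avgUp).eval [y, e] with hP
  set C := 1 - s ^ 2 with hC
  have hC0 : 0 < C := by rw [hC]; nlinarith [hs.1, hs.2]
  have eC : (xC).eval [y, e] = C := by simp [xC, xZ, xY, xE, hC, hze]
  have eU : (eUpE d).eval [y, e] = 1 + (d.kapE : ℝ) * e := by simp [eUpE, eval_cQ, xE]
  have eE : (xE).eval [y, e] = e := by simp [xE]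
  simp only [selfAt, Expr.eval_add, Expr.eval_mul, Expr.eval_sub, eval_horner, hW, eval_cQ, eC, eU,
    eE, ← hc0, ← hc1, ← hc2, ← hc3, ← hc4, ← hT, ← hcl, ← hP] at k1 k2
  set N := X ^ 2 + c1 * X + c0 with hN
  set D := X ^ 3 + c4 * X ^ 2 + c3 * X + c2 with hD
  have key : (d.kapE : ℝ) * e * (X * P * D) ≤ (T - (1 + (d.kapE : ℝ) * e)) * cl * C * N := by
    set A1 := (T - (1 + (d.kapE : ℝ) * e)) * cl * C * c1 -
      (d.kapE : ℝ) * e * P * (c4 * X ^ 2 + c2)
    set A0 := (T - (1 + (d.kapE : ℝ) * e)) * cl * C * (X ^ 2 + c0) -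
      (d.kapE : ℝ) * e * P * X ^ 2 * (X ^ 2 + c3)
    have hA : 0 ≤ A0 + X * A1 := by
      rcases le_total 0 A1 with hn | hn
      · linarith [mul_le_mul_of_nonneg_right hxl hn]
      · linarith [mul_le_mul_of_nonpos_right hxu hn]
    have : A0 + X * A1 = (T - (1 + (d.kapE : ℝ) * e)) * cl * C * N -
        (d.kapE : ℝ) * e * (X * P * D) := by rw [hN, hD]; ring
    linarith
  have hcl0 : 0 < cl := by linarith
  have hN0 : 0 < N := by
    have := mul_nonneg k9 hX0
    linarith
  have hsI : s ∈ Icc (0 : ℝ) 1 := Ioo_subset_Icc_self hs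
  have hT' := near_ge hd' hp hM hsI
  have eN : (nearN d (.var 0) xE).eval [X, e] = N := by
    rw [hN, hc0, hc1]; simp [nearN, mmE, eval_cQ, xE]
  have eD : (nearD d (.var 0) xE).eval [X, e] = D := by
    rw [hD, hc2, hc3, hc4]; simp [nearD, mmE, eval_cQ, xE]
  have hDp : 0 < D := by
    have hh := hM (nearD d (.var 0) xE - .frac 1 1000, millsRng d) (by simp [millsClaims])
      _ (mills_mem hd' hp hsI)
    rw [← hk, ← hX, ← hed] at hh
    simp only [Expr.eval_sub, Expr.eval_frac, eD] at hh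
    push_cast at hh
    linarith
  rw [← hk, ← hX, ← hed, eN, eD, show arc s ^ (p + 3) = arc s ^ (p + 1) * C by
    rw [hC, ← Real.sq_sqrt (show 0 ≤ 1 - s ^ 2 by rw [← hC]; exact hC0.le)]
    unfold arc; ring] at hT'
  have hzu' : s ^ 2 ≤ ((b.zu d : ℚ) : ℝ) := by
    simp only [Box.zu, hs', cond_true]
    push_cast
    refine le_min ?_ hz
    rw [← hze]
    exact mul_le_mul hy.2 he.2 he0.le (hy0.trans (hy.1.trans hy.2))
  have hκ : 1 + 2 * ((b.zu d : ℚ) : ℝ) / (3 * (1 - ((b.zu d : ℚ) : ℝ))) ≤ ((b.kap d : ℚ) : ℝ) :=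
    le_of_eq (by simp [Box.kap])
  have hkap0 : (0 : ℝ) ≤ ((b.kap d : ℚ) : ℝ) := le_trans (by
    have := (sq_nonneg s).trans hzu'
    have : 0 < 3 * (1 - ((b.zu d : ℚ) : ℝ)) := by linarith
    positivity) hκ
  have hpow : cl ≤ arc s ^ (p + 1) := by
    refine le_trans ?_ (arc_pow_ge hzu' hzu hκ)
    rw [show ((p : ℝ) + 1) * s ^ 2 / 2 = y / 2 by rw [hyd, yv],
      show ((p : ℝ) + 1) * s ^ 4 / 4 = y ^ 2 * e / 4 by rw [hyd, hed, yv, ev]; field_simp,
      hcl]
    simp only [powSelf, Expr.eval_mul, eval_cQ, eval_expTE, Expr.eval_add, Expr.eval_sub,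
      Expr.eval_pow, Expr.eval_frac, xY, xE, Expr.eval_var, List.getD_cons_zero,
      List.getD_cons_succ]
    push_cast
    set δ := (1 : ℝ) / 2 * y + (b.kap d : ℝ) / 4 * (y ^ 2 * e) - (b.y0 : ℝ) / 2
    have hδ : 0 ≤ δ := by
      have : 0 ≤ (b.kap d : ℝ) / 4 * (y ^ 2 * e) := by positivity
      show 0 ≤ (1 : ℝ) / 2 * y + (b.kap d : ℝ) / 4 * (y ^ 2 * e) - (b.y0 : ℝ) / 2
      linarith [hy.1]
    have h6 := mul_le_mul_of_nonneg_left (expT_even_le 3 hδ) k10
    refine h6.trans ?_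
    have hl : (b.expLeft : ℝ) ≤ Real.exp (-((b.y0 : ℝ) / 2)) := by
      rw [Box.expLeft, expTQ_cast]
      push_cast
      exact expT_even_le 5 (by linarith)
    refine (mul_le_mul_of_nonneg_right hl (Real.exp_pos _).le).trans (le_of_eq ?_)
    rw [← Real.exp_add]
    congr 1
    show -((b.y0 : ℝ) / 2) +
      -((1 : ℝ) / 2 * y + (b.kap d : ℝ) / 4 * (y ^ 2 * e) - (b.y0 : ℝ) / 2) = _
    ring
  have hPs : circLow p s ≤ s * P := by
    refine (circLow_le_series hs.1.le hs.2).trans (le_of_eq ?_)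
    rw [hP]
    simp only [avgUp, Expr.eval_add, Expr.eval_sub, Expr.eval_mul, Expr.eval_pow, Expr.eval_neg,
      Expr.eval_frac, eval_sumE, eval_cQ, xY, xE, Expr.eval_var, List.getD_cons_zero,
      List.getD_cons_succ]
    rw [show ((p : ℝ) + 1) * s ^ 2 / 2 = y / 2 by rw [hyd, yv],
      show ((p : ℝ) + 1) * s ^ 4 / 4 = y ^ 2 * e / 4 by rw [hyd, hed, yv, ev]; field_simp]
    have e7 : ∀ n : ℕ, ∀ i : ℝ, ∑ j ∈ Finset.range n, (-(y / 2)) ^ j / (j.factorial : ℝ) /
        (2 * (j : ℝ) + i) = ∑ j ∈ Finset.range n,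
          1 / ((j.factorial : ℝ) * (2 * (j : ℝ) + i)) * (-(1 / 2 * y)) ^ j := fun n i =>
      Finset.sum_congr rfl fun j _ => by rw [div_div]; ring
    rw [e7, e7]
    push_cast
    ring
  have hPl : 0 ≤ circLow p s :=
    intervalIntegral.integral_nonneg hs.1.le fun v _ => pow_nonneg (Real.sqrt_nonneg _) _
  have hTp := circHigh_pos p ⟨hs.1.le, hs.2⟩
  refine (h.inv_rate_le_max h0).trans ?_
  set E := Real.exp ell with hEd
  have hE1 : 1 ≤ E := Real.one_le_exp h0
  have hrat : 0 ≤ circLow p s / circHigh p s := div_nonneg hPl hTp.le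
  have e1 : E * (1 + (1 - Real.exp (-ell)) * circLow p s / circHigh p s) =
      E + (E - 1) * (circLow p s / circHigh p s) := by
    rw [hEd, Real.exp_neg]
    field_simp
  rw [e1]
  have e2 : circLow p s / circHigh p s ≤ X * P * D / (cl * C * N) := by
    have hden : 0 < cl * C * N := by positivity
    rw [div_le_div_iff₀ hTp hden]
    have q1 := mul_le_mul_of_nonneg_left hT' (show 0 ≤ k * D by positivity)
    have q2 : cl * C * N ≤ k * D * circHigh p s := by
      refine le_trans ?_ q1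
      refine le_of_le_of_eq (show cl * C * N ≤ arc s ^ (p + 1) * C * N from
        mul_le_mul_of_nonneg_right (mul_le_mul_of_nonneg_right hpow hC0.le) hN0.le) ?_
      field_simp
    refine (mul_le_mul hPs q2 hden.le (hPl.trans hPs)).trans (le_of_eq ?_)
    rw [hX]
    ring
  have hXP : 0 ≤ X * P * D / (cl * C * N) := hrat.trans e2
  calc E + (E - 1) * (circLow p s / circHigh p s)
      ≤ (1 + (d.kapE : ℝ) * e) + (d.kapE : ℝ) * e * (X * P * D / (cl * C * N)) :=
        add_le_add hE (mul_le_mul (by linarith) e2 hrat (mul_nonneg k11 he0.le))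
    _ ≤ T := by
        rw [mul_div_assoc']
        have : (d.kapE : ℝ) * e * (X * P * D) / (cl * C * N) ≤ T - (1 + (d.kapE : ℝ) * e) := by
          rw [div_le_iff₀ (by positivity)]
          linarith
        linarith

/-- The top from a base. -/
theorem top_base (hb : okTop d b = true) (hs' : b.self = false) (hS : TopSound d b)
    {ell s t a r q : ℝ} (h : FlatState p ell s t a r q) (h0 : 0 ≤ ell)
    (hE : Real.exp ell ≤ 1 + (d.kapE : ℝ) * ev p) (hz : s ^ 2 ≤ (d.Z1 : ℝ))
    (hy : yv p s ∈ Icc (b.y0 : ℝ) b.y1) (he : ev p ∈ Icc (d.el : ℝ) b.eh) :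
    1 / r ≤ (topE b).eval [yv p s, ev p] := by
  have hd' := hd
  simp only [okTop, hs', Bool.false_or, Bool.and_eq_true, decide_eq_true_eq] at hb
  obtain ⟨⟨h1, h2⟩, h3, h4⟩ := hb
  have hy0 : (0 : ℝ) ≤ b.y0 := by exact_mod_cast h1
  have hzu : ((b.zu d : ℚ) : ℝ) < 1 := by exact_mod_cast h2
  have hyu : (0 : ℝ) < b.yu := by exact_mod_cast h3
  have hyu' : (b.yu : ℝ) ≤ b.y0 := by exact_mod_cast h4
  have hs := h.state.s_mem
  have hze : yv p s * ev p = s ^ 2 := by rw [yv, ev]; field_simp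
  have hb2 : InBox (b.rng d) [yv p s, ev p] := inRng hy he
  have hz2 : ([yv p s, ev p] : List ℝ).getD 0 0 * ([yv p s, ev p] : List ℝ).getD 1 0 ≤
      (d.Z1 : ℝ) := by
    simpa [hze] using hz
  have claim : ∀ q ∈ baseClaims d b, q.2 = b.rng d → 0 ≤ q.1.eval [yv p s, ev p] := fun q hq e =>
    hS q (by simp [topClaims, hs', hq]) _ hz2 (e ▸ hb2)
  have k1 := claim (topE b * xC * powBase d b * farA d xW xE * horner xW b.xl -
    (eUpE d * halfE - horner xE b.ulo * avgLow d b) * farQ d xW xE, b.rng d)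
    (by simp [baseClaims]) rfl
  have k2 := claim (horner xW b.xl - .frac 1 1000, b.rng d) (by simp [baseClaims]) rfl
  have k3 := claim (xW - horner xW b.xl ^ 2, b.rng d) (by simp [baseClaims]) rfl
  have k4 := claim (powBase d b - .frac 1 10000, b.rng d) (by simp [baseClaims]) rfl
  have k5 := claim (farA d xW xE - .frac 1 1000, b.rng d) (by simp [baseClaims]) rfl
  have k6 := claim (avgLow d b, b.rng d) (by simp [baseClaims]) rfl
  have k7 := claim (horner xE b.ulo, b.rng d) (by simp [baseClaims]) rfl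
  have k8 := claim (cQ b.yu * (1 + 2 * xE) - horner xE b.ulo ^ 2, b.rng d)
    (by simp [baseClaims]) rfl
  have k9 := claim (topE b - eUpE d, b.rng d) (by simp [baseClaims]) rfl
  set k := √((p : ℝ) + 3) with hk
  have hk0 : 0 < k := Real.sqrt_pos.2 (by positivity)
  have hk2 : k ^ 2 = (p : ℝ) + 3 := Real.sq_sqrt (by positivity)
  set X := k * s with hX
  set y := yv p s with hyd
  set e := ev p with hed
  have he0 : 0 < e := by rw [hed, ev]; positivity
  have hX0 : 0 ≤ X := mul_nonneg hk0.le hs.1.le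
  have hW : (xW).eval [y, e] = X ^ 2 := by
    simp [xW, xY, xE]
    rw [hX, mul_pow, hk2, hyd, hed, yv, ev]
    field_simp
    ring
  have eC : (xC).eval [y, e] = 1 - s ^ 2 := by simp [xC, xZ, xY, xE, hze]
  have eU : (eUpE d).eval [y, e] = 1 + (d.kapE : ℝ) * e := by simp [eUpE, eval_cQ, xE]
  have eE : (xE).eval [y, e] = e := by simp [xE]
  simp only [Expr.eval_sub, Expr.eval_add, Expr.eval_mul, Expr.eval_pow, Expr.eval_frac,
    eval_horner,
    hW, eval_cQ, eC, eU, eE] at k1 k2 k3 k4 k5 k6 k7 k8 k9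
  push_cast at k2 k4 k5
  simp at k8
  set T := (topE b).eval [y, e] with hT
  set cl := (powBase d b).eval [y, e] with hcl
  set A := (farA d xW xE).eval [y, e] with hA
  set Q := (farQ d xW xE).eval [y, e] with hQ
  set il := (avgLow d b).eval [y, e] with hil
  set U := polyR b.ulo e with hU
  set H := halfE.eval [y, e] with hH
  set C := 1 - s ^ 2 with hC
  have hC0 : 0 < C := by rw [hC]; nlinarith [hs.1, hs.2]
  have hxl : polyR b.xl (X ^ 2) ≤ X :=
    (pow_le_pow_iff_left₀ (by linarith) hX0 two_ne_zero).1 (by linarith)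
  have hT0 : 0 < T := by linarith [Real.exp_pos ell]
  set u := √((b.yu : ℝ) * e) with hu
  have hu2 : u ^ 2 = (b.yu : ℝ) * e := Real.sq_sqrt (by positivity)
  have hu0 : 0 ≤ u := Real.sqrt_nonneg _
  have hus : u ≤ s := by
    refine (pow_le_pow_iff_left₀ hu0 hs.1.le two_ne_zero).1 ?_
    rw [hu2, ← hze]
    exact mul_le_mul_of_nonneg_right (hyu'.trans hy.1) he0.le
  have hu1 : u < 1 := hus.trans_lt hs.2
  have hzu' : u ^ 2 ≤ ((b.zu d : ℚ) : ℝ) := by
    simp only [Box.zu, hs', cond_false]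
    push_cast
    rw [hu2]
    exact mul_le_mul_of_nonneg_left he.2 hyu.le
  have hκ : 1 + 2 * ((b.zu d : ℚ) : ℝ) / (3 * (1 - ((b.zu d : ℚ) : ℝ))) ≤ ((b.kap d : ℚ) : ℝ) :=
    le_of_eq (by simp [Box.kap])
  have hkap0 : (0 : ℝ) ≤ ((b.kap d : ℚ) : ℝ) := le_trans (by
    have := (sq_nonneg u).trans hzu'
    have : 0 < 3 * (1 - ((b.zu d : ℚ) : ℝ)) := by linarith
    positivity) hκ
  have hmu : ((p : ℝ) + 1) * u ^ 2 / 2 = (b.yu : ℝ) / 2 := by
    rw [hu2, hed, ev]; field_simp
  have hmu4 : ((p : ℝ) + 1) * u ^ 4 / 4 = (b.yu : ℝ) ^ 2 * e / 4 := by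
    rw [show u ^ 4 = (u ^ 2) ^ 2 by ring, hu2, hed, ev]; field_simp
  have hpow : cl ≤ arc u ^ (p + 1) := by
    refine le_trans ?_ (arc_pow_ge hzu' hzu hκ)
    rw [hmu, hmu4, hcl]
    simp only [powBase, eval_expTE, Expr.eval_add, Expr.eval_mul, eval_cQ, eE]
    push_cast
    refine le_of_le_of_eq (expT_even_le 5 (by positivity)) ?_
    congr 1
    ring
  have hlow : u * il ≤ circLow p u := by
    refine le_of_eq_of_le ?_ (circLow_ge hu0 hzu' hzu hκ)
    rw [hil]
    simp only [avgLow, eval_sumE, Expr.eval_mul, Expr.eval_pow, eval_cQ, eE, hmu, hmu4]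
    congr 1
    refine Finset.sum_congr rfl fun i _ => Finset.sum_congr rfl fun j _ => ?_
    push_cast
    rw [show ((b.kap d : ℝ) * ((b.yu : ℝ) ^ 2 * e / 4)) =
      (b.kap d : ℝ) * (b.yu : ℝ) ^ 2 / 4 * e by ring, mul_pow _ e]
    ring
  have hku : U ≤ k * u := by
    refine (pow_le_pow_iff_left₀ k7 (mul_nonneg hk0.le hu0) two_ne_zero).1 ?_
    rw [mul_pow, hk2, hu2]
    refine k8.trans (le_of_eq ?_)
    rw [hed, ev]
    field_simp
    ring
  have hH' : half (p + 1) * k ≤ H := halfE_ge hd' hp y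
  have hsI : s ∈ Icc (0 : ℝ) 1 := Ioo_subset_Icc_self hs
  have hT' := far_ge hd' hp hM hsI
  have eN : (farN d (.var 0) xE).eval [X, e] = X * A := by
    simp [hA, farN, farA, kkE, eval_cQ, xE, hW]
  have eD : (farD d (.var 0) xE).eval [X, e] = Q := by
    simp [hQ, farD, farQ, kkE, eval_cQ, xE, hW]
  have hQ0 : 0 < Q := by
    have hh := hM (farD d (.var 0) xE - .frac 1 1000, millsRng d) (by simp [millsClaims])
      _ (mills_mem hd' hp hsI)
    rw [← hk, ← hX, ← hed] at hh
    simp only [Expr.eval_sub, Expr.eval_frac, eD] at hh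
    push_cast at hh
    linarith
  rw [← hk, ← hX, ← hed, eN, eD, show arc s ^ (p + 3) = arc s ^ (p + 1) * C by
    rw [hC, ← Real.sq_sqrt (show 0 ≤ 1 - s ^ 2 by rw [← hC]; exact hC0.le)]
    unfold arc; ring] at hT'
  have hTp := circHigh_pos p ⟨hs.1.le, hs.2⟩
  have hcs := pow_pos h.state.arc_pos' (p + 1)
  refine (h.inv_rate_le_base_max (u := u) ⟨hu0, hus⟩).trans (max_le ?_ ?_)
  · linarith
  have hi : circLow p u + Lift.circHigh p u = half (p + 1) :=
    intervalIntegral.integral_add_adjacent_intervals ((continuous_arc.pow _).intervalIntegrable _ _)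
      ((continuous_arc.pow _).intervalIntegrable _ _)
  set num := Real.exp ell * (circHigh p u + (1 - Real.exp (-ell)) * circLow p u) with hnum
  have hnum0 : 0 ≤ num := by
    have a1 : 0 ≤ circLow p u :=
      intervalIntegral.integral_nonneg hu0 fun v _ => pow_nonneg (Real.sqrt_nonneg _) _
    have a2 : 0 ≤ circHigh p u := (circHigh_pos p ⟨hu0, hu1⟩).le
    have a3 : 0 ≤ 1 - Real.exp (-ell) := sub_nonneg.2 (Real.exp_le_one_iff.2 (neg_nonpos.2 h0))
    positivity
  have hnum' : num = Real.exp ell * half (p + 1) - circLow p u := by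
    rw [hnum, ← hi, Real.exp_neg]
    field_simp
    ring
  set M := (1 + (d.kapE : ℝ) * e) * H - U * il with hMd
  have hkn : k * num ≤ M := by
    rw [hnum', hMd, mul_sub]
    refine sub_le_sub ?_ ?_
    · rw [mul_left_comm, mul_comm k]
      exact mul_le_mul hE hH' (mul_nonneg (Ident.half_pos _).le hk0.le)
        ((Real.exp_pos ell).le.trans hE)
    · calc U * il ≤ k * u * il := mul_le_mul_of_nonneg_right hku k6
        _ = k * (u * il) := by ring
        _ ≤ k * circLow p u := mul_le_mul_of_nonneg_left hlow hk0.le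
  have hM0 : 0 ≤ M := (mul_nonneg hk0.le hnum0).trans hkn
  have hcl0 : 0 < cl := by linarith
  have hA0 : 0 < A := by linarith
  have hcu : 0 < arc u ^ (p + 1) := hcl0.trans_le hpow
  have hkey : M * Q ≤ T * C * cl * A * X := by
    refine le_trans (le_of_sub_nonneg k1) ?_
    exact mul_le_mul_of_nonneg_left hxl (by positivity)
  rw [show Real.exp ell * arc s ^ (p + 1) *
      (circHigh p u + (1 - Real.exp (-ell)) * circLow p u) = arc s ^ (p + 1) * num by
    rw [hnum]; ring, div_le_iff₀ (by positivity)]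
  rw [mul_div_assoc', div_le_iff₀ (by positivity)] at hT'
  refine le_of_mul_le_mul_left ?_ (mul_pos hk0 hQ0)
  calc k * Q * (arc s ^ (p + 1) * num)
      = arc s ^ (p + 1) * (k * num) * Q := by ring
    _ ≤ arc s ^ (p + 1) * M * Q :=
        mul_le_mul_of_nonneg_right (mul_le_mul_of_nonneg_left hkn hcs.le) hQ0.le
    _ = arc s ^ (p + 1) * (M * Q) := by ring
    _ ≤ arc s ^ (p + 1) * (T * C * cl * A * X) := mul_le_mul_of_nonneg_left hkey hcs.le
    _ = T * cl * (arc s ^ (p + 1) * C * (X * A)) := by ring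
    _ ≤ T * cl * (circHigh p s * (k * Q)) :=
        mul_le_mul_of_nonneg_left hT' (mul_nonneg hT0.le hcl0.le)
    _ ≤ T * arc u ^ (p + 1) * (circHigh p s * (k * Q)) :=
        mul_le_mul_of_nonneg_right (mul_le_mul_of_nonneg_left hpow hT0.le)
          (mul_nonneg hTp.le (mul_nonneg hk0.le hQ0.le))
    _ = k * Q * (T * (arc u ^ (p + 1) * circHigh p s)) := by ring

/-- The top of a box. -/
theorem inv_rate_le_topE (hb : okTop d b = true) (hS : TopSound d b)
    {ell s t a r q : ℝ} (h : FlatState p ell s t a r q) (h0 : 0 ≤ ell)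
    (hE : Real.exp ell ≤ 1 + (d.kapE : ℝ) * ev p) (hz : s ^ 2 ≤ (d.Z1 : ℝ))
    (hy : yv p s ∈ Icc (b.y0 : ℝ) b.y1) (he : ev p ∈ Icc (d.el : ℝ) b.eh) :
    1 / r ≤ (topE b).eval [yv p s, ev p] := by
  cases hs' : b.self
  · exact top_base hd hp hM hb hs' hS h h0 hE hz hy he
  · exact top_self hd hp hM hb hs' hS h h0 hE hz hy he

end

end Vale.Agent.P237.Petty.Cor.Low20
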