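import Vale.Agent.P237.Petty.Cor.Low20.Poly

/-!
# P237: the polynomials behind the top of `1 / r` on a box
-/

namespace Vale.Agent.P237.Petty.Cor.Low20

open Vale.Agent.P100.Bernstein

/-- A finite sum of expressions. -/
def sumE : ℕ → (ℕ → Expr) → Expr
  | 0, _ => 0
  | n + 1, f => sumE n f + f n

/-- A partial sum of the series of `exp (-x)`, in the rationals. -/
def expTQ : ℕ → ℚ → ℚ
  | 0, _ => 0
  | n + 1, x => expTQ n x + (-x) ^ n / (n.factorial : ℚ)

/-- The same as an expression. -/
def expTE (n : ℕ) (x : Expr) : Expr :=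
  sumE n fun k => cQ ((-1) ^ k / (k.factorial : ℚ)) * x ^ k

/-- `(1 + 2 e) y`. -/
def xW : Expr := (1 + 2 * xE) * xY

variable (d : Rec) (b : Box)

/-- A coefficient of the rational below the ratio of the mass above, near. -/
def mmE (i : ℕ) (e : Expr) : Expr := cQ (d.mm.getD i 0) + e * cQ (d.mm.getD (i + 5) 0)

/-- A coefficient of the same, far. -/
def kkE (i : ℕ) (e : Expr) : Expr := cQ (d.kk.getD i 0) + e * cQ (d.kk.getD (i + 5) 0)

/-- The numerator, near. -/
def nearN (X e : Expr) : Expr := X ^ 2 + mmE d 1 e * X + mmE d 0 e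

/-- Its derivative. -/
def nearN' (X e : Expr) : Expr := 2 * X + mmE d 1 e

/-- The denominator, near. -/
def nearD (X e : Expr) : Expr := X ^ 3 + mmE d 4 e * X ^ 2 + mmE d 3 e * X + mmE d 2 e

/-- Its derivative. -/
def nearD' (X e : Expr) : Expr := 3 * X ^ 2 + 2 * mmE d 4 e * X + mmE d 3 e

/-- The numerator, far, over `X`, in `W = X ^ 2`. -/
def farA (W e : Expr) : Expr := W ^ 2 + kkE d 0 e * W + kkE d 1 e

/-- The numerator, far. -/
def farN (X e : Expr) : Expr := X * farA d (X ^ 2) e

/-- Its derivative. -/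
def farN' (X e : Expr) : Expr := 5 * X ^ 4 + 3 * kkE d 0 e * X ^ 2 + kkE d 1 e

/-- The denominator, far, in `W = X ^ 2`. -/
def farQ (W e : Expr) : Expr := ((W + kkE d 2 e) * W + kkE d 3 e) * W + kkE d 4 e

/-- The denominator, far. -/
def farD (X e : Expr) : Expr := farQ d (X ^ 2) e

/-- Its derivative. -/
def farD' (X e : Expr) : Expr :=
  6 * X ^ 5 + 4 * kkE d 2 e * X ^ 3 + 2 * kkE d 3 e * X

/-- The inequality of a rational below the ratio of the mass above, in `X` and `e`. -/
def millsClaim (N N' D D' : Expr) : Expr :=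
  (D * D - .var 0 * (N * D)) * (1 + 2 * xE) + (1 + 2 * xE - .var 0 ^ 2 * xE) * (N' * D - N * D')

/-- Above `√(p + 3)`. -/
def xMax : ℚ := (1 / d.el + 51) / 14

/-- The range of `X` and `e`. -/
def millsRng : List Iv := [ivQ 0 (xMax d), ivQ d.el d.eh]

/-- The claims of a record on the rationals below the ratio of the mass above. -/
def millsClaims : List (Expr × List Iv) :=
  [(millsClaim (nearN d (.var 0) xE) (nearN' d (.var 0) xE) (nearD d (.var 0) xE)
      (nearD' d (.var 0) xE), millsRng d),
    (nearD d (.var 0) xE - .frac 1 1000, millsRng d),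
    (millsClaim (farN d (.var 0) xE) (farN' d (.var 0) xE) (farD d (.var 0) xE)
      (farD' d (.var 0) xE), millsRng d),
    (farD d (.var 0) xE - .frac 1 1000, millsRng d)]

/-- Above `half (p + 1) √(p + 3)`. -/
def halfE : Expr :=
  .frac 1253336 1000000 * (1 + .frac 1 4 * xE - .frac 9 25 * xE ^ 2)

/-- The largest `s ^ 2` of the base of a box. -/
def Box.zu : ℚ := bif b.self then min (b.y1 * b.eh) d.Z1 else b.yu * b.eh

/-- The factor of the second order of the logarithm. -/
def Box.kap : ℚ := 1 + 2 * b.zu d / (3 * (1 - b.zu d))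

/-- Below the exponential at the left end. -/
def Box.expLeft : ℚ := expTQ 10 (b.y0 / 2)

/-- Below the power of the circle at the abscissa. -/
def powSelf : Expr :=
  cQ b.expLeft * expTE 6 (.frac 1 2 * xY + cQ (b.kap d / 4) * (xY ^ 2 * xE) - cQ (b.y0 / 2))

/-- Above the mean of the power of the circle below the abscissa. -/
def avgUp : Expr :=
  sumE 7 (fun k => cQ (1 / ((k.factorial : ℚ) * (2 * (k : ℚ) + 1))) * (-(.frac 1 2 * xY)) ^ k) -
    .frac 1 4 * (xY ^ 2 * xE) *
      sumE 6 (fun k => cQ (1 / ((k.factorial : ℚ) * (2 * (k : ℚ) + 5))) * (-(.frac 1 2 * xY)) ^ k) +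
    .frac 1 288 * (xY ^ 2 * xE) ^ 2

/-- Below the power of the circle at the base. -/
def powBase : Expr := expTE 10 (cQ (b.yu / 2) + cQ (b.kap d * b.yu ^ 2 / 4) * xE)

/-- Below the mean of the power of the circle below the base. -/
def avgLow : Expr :=
  sumE 8 fun k => sumE (k + 1) fun j =>
    cQ ((-1) ^ k / (k.factorial : ℚ) * (k.choose j : ℚ) * (b.yu / 2) ^ j *
      (b.kap d * b.yu ^ 2 / 4) ^ (k - j) / (2 * (j : ℚ) + 4 * ((k - j : ℕ) : ℚ) + 1)) *
      xE ^ (k - j)

/-- The bound from the abscissa itself, at a value of `X`. -/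
def selfAt (X : Expr) : Expr :=
  ((topE b - eUpE d) * powSelf d b * xC * (xW + mmE d 0 xE) -
      cQ d.kapE * xE * avgUp * xW * (xW + mmE d 3 xE)) +
    X * ((topE b - eUpE d) * powSelf d b * xC * mmE d 1 xE -
      cQ d.kapE * xE * avgUp * (mmE d 4 xE * xW + mmE d 2 xE))

/-- The claims for the top of a box from the abscissa itself. -/
def selfClaims : List (Expr × List Iv) :=
  [(selfAt d b (horner xW b.xl), b.rng d), (selfAt d b (horner xW b.xu), b.rng d),
    (horner xW b.xl, b.rng d), (xW - horner xW b.xl ^ 2, b.rng d),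
    (horner xW b.xu, b.rng d), (horner xW b.xu ^ 2 - xW, b.rng d),
    (powSelf d b - .frac 1 10000, b.rng d), (xW + mmE d 0 xE - .frac 1 1000, b.rng d),
    (mmE d 1 xE, b.rng d), (cQ b.expLeft, b.rng d), (cQ d.kapE, b.rng d)]

/-- The claims for the top of a box from a base. -/
def baseClaims : List (Expr × List Iv) :=
  [(topE b * xC * powBase d b * farA d xW xE * horner xW b.xl -
      (eUpE d * halfE - horner xE b.ulo * avgLow d b) * farQ d xW xE, b.rng d),
    (horner xW b.xl - .frac 1 1000, b.rng d), (xW - horner xW b.xl ^ 2, b.rng d),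
    (powBase d b - .frac 1 10000, b.rng d), (farA d xW xE - .frac 1 1000, b.rng d),
    (avgLow d b, b.rng d), (horner xE b.ulo, b.rng d),
    (cQ b.yu * (1 + 2 * xE) - horner xE b.ulo ^ 2, b.rng d), (topE b - eUpE d, b.rng d)]

/-- The claims for the top of a box. -/
def topClaims : List (Expr × List Iv) := bif b.self then selfClaims d b else baseClaims d b

end Vale.Agent.P237.Petty.Cor.Low20
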